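import Crest.Agent.N49.Iv.St

/-!
# Row 49 (helper62): affine substitutions change a typed form by a negligible phase
-/

set_option autoImplicit false
open Finset Function
open scoped BigOperators

namespace Crest.Agent.N49.Iv

namespace Af
variable {ι : Type} [DecidableEq ι]

/-- `F` depends only on the letters in `S` -/
def Dep {β : Type} (S : Finset ι) (F : (ι → ℝ) → β) : Prop :=
  ∀ x y : ι → ℝ, (∀ i ∈ S, x i = y i) → F x = F y

omit [DecidableEq ι] in
theorem Dep.mono {β : Type} {S T : Finset ι} {F : (ι → ℝ) → β} (h : Dep S F) (hs : S ⊆ T) :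
    Dep T F := fun x y hxy => h x y fun i hi => hxy i (hs hi)

theorem dep {r n : ℕ} {S : Finset ι} {F : (ι → ℝ) → ℝ} (h : Ty r S n F) : Dep S F := by
  induction h with
  | const c => intro x y _; rfl
  | var i => intro x y hxy; exact hxy i (mem_singleton_self i)
  | add _ _ h1 h2 => intro x y hxy; simp only [h1 x y hxy, h2 x y hxy]
  | mul _ _ _ h1 h2 =>
    intro x y hxy
    simp only [h1.mono subset_union_left x y hxy, h2.mono subset_union_right x y hxy]
  | rnd _ _ h1 => intro x y hxy; simp only [h1 x y hxy]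
  | mono hs _ _ h1 => exact h1.mono hs

omit [DecidableEq ι] in
theorem Dep.aff {β : Type} {S : Finset ι} {F : (ι → ℝ) → β} (h : Dep S F) (m : ι → ℕ)
    (z : ι → ℝ) : Dep S fun x => F fun i => m i * x i + z i :=
  fun x y hxy => h _ _ fun i hi => by simp only [hxy i hi]

variable [Fintype ι]

open Classical in
/-- the level sets of `c` are cylinder intersections -/
def Par {J : Type} (c : (ι → ℝ) → J) : Prop :=
  ∃ u : J → ι → (ι → ℝ) → ℂ, (∀ j, Cy (u j)) ∧ ∀ j x, ∏ i, u j i x = if c x = j then 1 else 0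

theorem Par.unit : Par fun _ : ι → ℝ => () :=
  ⟨fun _ _ _ => 1, fun _ => ⟨fun _ _ => by simp, fun _ _ _ => rfl⟩, fun _ _ => by simp⟩

theorem Par.prod {J K : Type} {c : (ι → ℝ) → J} {c' : (ι → ℝ) → K} (h : Par c) (h' : Par c') :
    Par fun x => (c x, c' x) := by
  obtain ⟨u, hu, e1⟩ := h
  obtain ⟨v, hv, e2⟩ := h'
  refine ⟨fun j i x => u j.1 i x * v j.2 i x, fun j => ⟨fun i x => ?_, fun i x a => ?_⟩,
    fun j x => ?_⟩
  · rw [norm_mul]; exact mul_le_one₀ ((hu _).1 i x) (norm_nonneg _) ((hv _).1 i x)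
  · simp only [(hu _).2 i x a, (hv _).2 i x a]
  · rw [prod_mul_distrib, e1, e2]
    by_cases h1 : c x = j.1 <;> by_cases h2 : c' x = j.2 <;> simp [h1, h2, Prod.ext_iff]

theorem Par.refine {J D : Type} {c : (ι → ℝ) → J} (h : Par c) {S : Finset ι} {i0 : ι}
    (hi : i0 ∉ S) (δ : J → (ι → ℝ) → D) (hδ : ∀ j, Dep S (δ j)) :
    Par fun x => (c x, δ (c x) x) := by
  classical
  obtain ⟨u, hu, e1⟩ := h
  refine ⟨fun j i x => u j.1 i x * if i = i0 then (if δ j.1 x = j.2 then 1 else 0) else 1,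
    fun j => ⟨fun i x => ?_, fun i x a => ?_⟩, fun j x => ?_⟩
  · rw [norm_mul]
    refine mul_le_one₀ ((hu _).1 i x) (norm_nonneg _) ?_
    split_ifs <;> simp
  · by_cases h0 : i = i0
    · subst h0
      have : δ j.1 (update x i a) = δ j.1 x :=
        hδ _ _ _ fun k hk => update_of_ne (by rintro rfl; exact hi hk) _ _
      simp only [(hu _).2 i x a, this]
    · simp only [(hu _).2 i x a, if_neg h0]
  · rw [prod_mul_distrib, e1, prod_ite_eq' univ i0]
    by_cases h1 : c x = j.1
    · by_cases h2 : δ j.1 x = j.2 <;> simp [h1, h2, Prod.ext_iff]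
    · simp [h1, Prod.ext_iff]

/-- the invariant of the structural induction -/
def Inv (K : ℕ) (m : ι → ℕ) (z : ι → ℝ) (S : Finset ι) (n : ℕ) (F : (ι → ℝ) → ℝ) : Prop :=
  ∃ (J : Type) (_ : Fintype J) (c : (ι → ℝ) → J) (G : J → ι → (ι → ℝ) → ℝ),
    Fintype.card J ≤ K ^ n ∧ Par c ∧ (∀ j i, Dep (S.erase i) (G j i)) ∧
    ∀ x, F (fun i => m i * x i + z i) - (∏ i ∈ S, (m i : ℝ)) * F x = ∑ i ∈ S, G (c x) i x

omit [DecidableEq ι] [Fintype ι] in
theorem defect {a b : ℝ} {S : Finset ι} {g : ι → ℝ} {μ : ℕ} (h : a - μ * b = ∑ i ∈ S, g i) :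
    2 * |round a - μ * round b - ∑ i ∈ S, round (g i)| ≤ (1 + μ + #S : ℕ) := by
  have h1 := abs_sub_round a
  have h2 := abs_sub_round b
  have h3 : |∑ i ∈ S, (g i - round (g i))| ≤ #S * (1 / 2) := by
    refine (abs_sum_le_sum_abs _ _).trans ?_
    simpa using sum_le_card_nsmul S _ (1 / 2 : ℝ) fun i _ => abs_sub_round (g i)
  have h4 : |(μ : ℝ) * (b - round b)| ≤ μ * (1 / 2) := by
    rw [abs_mul, Nat.abs_cast]; exact mul_le_mul_of_nonneg_left h2 (Nat.cast_nonneg _)
  have e1 : ((round a - μ * round b - ∑ i ∈ S, round (g i) : ℤ) : ℝ) =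
      -(a - round a) + μ * (b - round b) + ∑ i ∈ S, (g i - round (g i)) := by
    rw [sum_sub_distrib, ← h]; push_cast; ring
  have : (2 * |((round a - μ * round b - ∑ i ∈ S, round (g i) : ℤ) : ℝ)|) ≤ (1 + μ + #S : ℝ) := by
    rw [e1]
    have := abs_add_three (-(a - round a)) (μ * (b - round b)) (∑ i ∈ S, (g i - round (g i)))
    rw [abs_neg] at this
    linarith
  exact_mod_cast this

theorem inv {r M : ℕ} {m : ι → ℕ} (z : ι → ℝ) (hr : r < Fintype.card ι) (hm : ∀ i, 1 ≤ m i)
    (hM : ∏ i, m i ≤ M) {n : ℕ} {S : Finset ι} {F : (ι → ℝ) → ℝ} (h : Ty r S n F) :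
    Inv (M + Fintype.card ι + 3) m z S n F := by
  classical
  have hK : 1 ≤ M + Fintype.card ι + 3 := by omega
  induction h with
  | const c => exact ⟨Unit, inferInstance, _, fun _ _ _ => 0, by simp, Par.unit,
      fun _ _ _ _ _ => rfl, fun x => by simp⟩
  | var i => exact ⟨Unit, inferInstance, _, fun _ k _ => z k, by simp, Par.unit,
      fun _ _ _ _ _ => rfl, fun x => by simp⟩
  | add _ _ h1 h2 =>
    obtain ⟨J, _, c, A, hJ, hc, hA, eA⟩ := h1
    obtain ⟨J', _, c', B, hJ', hc', hB, eB⟩ := h2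
    refine ⟨J × J', inferInstance, _, fun j i x => A j.1 i x + B j.2 i x, ?_, hc.prod hc',
      fun j i x y hxy => ?_, fun x => ?_⟩
    · rw [Fintype.card_prod, pow_add]; exact Nat.mul_le_mul hJ hJ'
    · simp only [hA _ i x y hxy, hB _ i x y hxy]
    · rw [sum_add_distrib, ← eA, ← eB]; ring
  | @mul S T n n' F G hd t1 t2 h1 h2 =>
    obtain ⟨J, _, c, A, hJ, hc, hA, eA⟩ := h1
    obtain ⟨J', _, c', B, hJ', hc', hB, eB⟩ := h2
    refine ⟨J × J', inferInstance, _, fun j i x => if i ∈ S then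
      A j.1 i x * G (fun i => m i * x i + z i) else (∏ i ∈ S, (m i : ℝ)) * F x * B j.2 i x, ?_,
      hc.prod hc', fun j i x y hxy => ?_, fun x => ?_⟩
    · rw [Fintype.card_prod, pow_add]; exact Nat.mul_le_mul hJ hJ'
    · by_cases hi : i ∈ S
      · have a1 := (hA j.1 i).mono (erase_subset_erase i (subset_union_left (s₂ := T))) x y hxy
        have a2 := ((dep t2).aff m z).mono (T := (S ∪ T).erase i) (fun k hk => mem_erase.2
          ⟨fun e => disjoint_left.1 hd hi (e ▸ hk), mem_union_right _ hk⟩) x y hxy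
        simp only [if_pos hi, a1]
        exact congrArg _ a2
      · have a1 := (hB j.2 i).mono (erase_subset_erase i (subset_union_right (s₁ := S))) x y hxy
        have a2 := (dep t1).mono (T := (S ∪ T).erase i) (fun k hk => mem_erase.2
          ⟨fun e => hi (e ▸ hk), mem_union_left _ hk⟩) x y hxy
        simp only [if_neg hi, a1, a2]
    · rw [sum_union hd, prod_union hd, sum_congr rfl fun i hi => if_pos hi,
        sum_congr rfl fun i hi => if_neg (disjoint_right.1 hd hi), ← sum_mul, ← mul_sum, ← eA, ← eB]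
      ring
  | @rnd S n F hS t1 h1 =>
    obtain ⟨J, _, c, A, hJ, hc, hA, eA⟩ := h1
    rcases S.eq_empty_or_nonempty with rfl | ⟨i1, hi1⟩
    · refine ⟨J, inferInstance, c, fun _ _ _ => 0,
        hJ.trans (Nat.pow_le_pow_right hK (Nat.le_succ n)), hc, fun _ _ _ _ _ => rfl, fun x => ?_⟩
      have := eA x
      simp only [prod_empty, sum_empty, one_mul, sub_eq_zero] at this ⊢
      rw [this]
    obtain ⟨i0, hi0⟩ : ∃ i0, i0 ∉ S := by
      by_contra hc
      push Not at hc
      have : S = univ := eq_univ_of_forall hc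
      rw [this, card_univ] at hS
      omega
    set μ : ℕ := ∏ i ∈ S, m i with hμ
    have hμM : μ ≤ M := le_trans (prod_le_prod_of_subset_of_one_le' (subset_univ S)
      fun i _ _ => hm i) hM
    have hSc : #S ≤ Fintype.card ι := card_le_univ S
    set b : ℕ := (1 + M + Fintype.card ι) / 2 with hb
    let d : J → (ι → ℝ) → ℤ := fun j x =>
      round (F fun i => m i * x i + z i) - μ * round (F x) - ∑ i ∈ S, round (A j i x)
    let δ : J → (ι → ℝ) → (Icc (-(b : ℤ)) b : Finset ℤ) := fun j x =>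
      if h : d j x ∈ (Icc (-(b : ℤ)) b : Finset ℤ) then ⟨d j x, h⟩ else ⟨0, by simp⟩
    have hd : ∀ j, Dep S (d j) := fun j x y hxy => by
      have a1 := (dep t1).aff m z x y hxy
      have a2 := dep t1 x y hxy
      simp only at a1
      simp only [d, a1, a2]
      rw [sum_congr rfl fun i _ => by rw [(hA j i).mono (erase_subset i S) x y hxy]]
    have hδ : ∀ j, Dep S (δ j) := fun j x y hxy => by simp only [δ, hd j x y hxy]
    have hx : ∀ x, (δ (c x) x : ℤ) = d (c x) x := fun x => by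
      have h0 := defect (μ := μ) (S := S) (g := fun i => A (c x) i x)
        (a := F fun i => m i * x i + z i) (b := F x) (by rw [hμ]; push_cast; exact eA x)
      have h1 : d (c x) x ∈ (Icc (-(b : ℤ)) b : Finset ℤ) := by
        have h2 : 2 * |d (c x) x| ≤ (1 + μ + #S : ℕ) := h0
        rw [mem_Icc, ← abs_le]
        omega
      simp only [δ, dif_pos h1]
    refine ⟨J × (Icc (-(b : ℤ)) b : Finset ℤ), inferInstance, _,
      fun j i x => round (A j.1 i x) + if i = i1 then ((j.2 : ℤ) : ℝ) else 0, ?_,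
      hc.refine hi0 δ hδ, fun j i x y hxy => ?_, fun x => ?_⟩
    · rw [Fintype.card_prod, pow_succ, Fintype.card_coe, Int.card_Icc]
      exact Nat.mul_le_mul hJ (by omega)
    · simp only [hA _ i x y hxy]
    · rw [sum_add_distrib, sum_ite_eq' S i1, if_pos hi1]
      simp only [hx x, d, hμ]
      push_cast
      ring
  | @mono S T n n' F hs hn t1 h1 =>
    by_cases hT : T ⊆ S
    · obtain rfl : S = T := Subset.antisymm hs hT
      obtain ⟨J, _, c, A, hJ, hc, hA, eA⟩ := h1
      exact ⟨J, inferInstance, c, A, hJ.trans (Nat.pow_le_pow_right hK hn), hc, hA, eA⟩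
    obtain ⟨i1, hi1, hi2⟩ := not_subset.1 hT
    refine ⟨Unit, inferInstance, _, fun _ i x => if i = i1 then
      F (fun i => m i * x i + z i) - (∏ i ∈ T, (m i : ℝ)) * F x else 0, ?_, Par.unit,
      fun j i x y hxy => ?_, fun x => ?_⟩
    · simpa using Nat.one_le_pow _ _ hK
    · by_cases hi : i = i1
      · subst hi
        have hs' : S ⊆ T.erase i := fun k hk => mem_erase.2 ⟨fun e => hi2 (e ▸ hk), hs hk⟩
        have a1 := ((dep t1).aff m z).mono hs' x y hxy
        have a2 := (dep t1).mono hs' x y hxy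
        simp only at a1
        simp only [a1, a2]
      · simp only [if_neg hi]
    · rw [sum_ite_eq' T i1, if_pos hi1]

theorem e_sum {κ : Type} (S : Finset κ) (g : κ → ℝ) : e (∑ i ∈ S, g i) = ∏ i ∈ S, e (g i) := by
  simp only [e]
  rw [← Complex.exp_sum]
  congr 1
  push_cast
  rw [mul_sum, sum_mul]

theorem norm_e (x : ℝ) : ‖e x‖ = 1 := by
  have : (2 * Real.pi * x * Complex.I : ℂ) = ((2 * Real.pi * x : ℝ) : ℂ) * Complex.I := by
    push_cast; ring
  rw [e, this, Complex.norm_exp_ofReal_mul_I]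

end Af

/-- affine substitutions change a typed form by a negligible phase -/
theorem aff (ι : Type) [Fintype ι] [DecidableEq ι] : AFF ι := by
  classical
  intro r n M F m z hr hF hm hM
  obtain ⟨J, _, c, G, hJ, ⟨u, hu, e1⟩, hG, eG⟩ := Af.inv z hr hm hM hF
  refine ⟨J, inferInstance, fun _ => 1, fun j i x => u j i x * e (G j i x), ?_,
    fun j => ⟨fun i x => ?_, fun i x a => ?_⟩, fun x => ?_⟩
  · simp only [norm_one, sum_const, card_univ, nsmul_eq_mul, mul_one]
    exact_mod_cast hJ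
  · rw [norm_mul, Af.norm_e, mul_one]; exact (hu j).1 i x
  · have : G j i (update x i a) = G j i x :=
      hG j i _ _ fun k hk => update_of_ne (mem_erase.1 hk).1 _ _
    simp only [(hu j).2 i x a, this]
  · simp only [one_mul, prod_mul_distrib, e1, ite_mul, zero_mul, sum_ite_eq, mem_univ, if_true]
    rw [← Af.e_sum, ← eG]
    push_cast
    rfl

end Crest.Agent.N49.Iv
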