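import Crest.Agent.N49.Iv.St

/-!
# Row 49 (helper63): biased typed phases are negligible, division
-/

set_option autoImplicit false
set_option linter.unusedSectionVars false
open Finset Function
open scoped BigOperators ComplexConjugate

namespace Crest.Agent.N49.Iv

namespace Bi
variable {ι α β : Type} [Fintype ι] [DecidableEq ι] {K K' : ℝ} {F G : (ι → α) → ℂ}

theorem e_add (x y : ℝ) : e (x + y) = e x * e y := by
  simp only [e, ← Complex.exp_add]; congr 1; push_cast; ring

theorem conj_e (x : ℝ) : conj (e x) = e (-x) := by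
  simp only [e, ← Complex.exp_conj, map_mul, Complex.conj_ofReal, Complex.conj_I, map_ofNat]
  congr 1; push_cast; ring

theorem e_zero : e 0 = 1 := by simp [e]

theorem mono (h : Neg K F) (hK : K ≤ K') (e : ∀ x, F x = G x) : Neg K' G :=
  let ⟨J, i, c, u, h1, h2, h3⟩ := h
  ⟨J, i, c, u, h1.trans hK, h2, fun x => e x ▸ h3 x⟩

theorem of_cy {u : ι → (ι → α) → ℂ} (h : Cy u) : Neg 1 fun x => ∏ i, u i x :=
  ⟨Unit, inferInstance, fun _ => 1, fun _ => u, by simp, fun _ => h, by simp⟩

theorem mul (h : Neg K F) (h' : Neg K' G) : Neg (K * K') fun x => F x * G x := by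
  obtain ⟨J, _, c, u, h1, h2, h3⟩ := h
  obtain ⟨J', _, c', u', k1, k2, k3⟩ := h'
  refine ⟨J × J', inferInstance, fun j => c j.1 * c' j.2, fun j i x => u j.1 i x * u' j.2 i x, ?_,
    fun j => ⟨fun i x => ?_, fun i x a => by simp only [(h2 _).2, (k2 _).2]⟩, fun x => ?_⟩
  · simp only [Fintype.sum_prod_type, norm_mul, ← sum_mul_sum]
    exact mul_le_mul h1 k1 (by positivity) (le_trans (by positivity) h1)
  · rw [norm_mul]
    exact mul_le_one₀ ((h2 _).1 _ _) (norm_nonneg _) ((k2 _).1 _ _)
  · beta_reduce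
    rw [h3, k3, sum_mul_sum, Fintype.sum_prod_type]
    exact sum_congr rfl fun _ _ => sum_congr rfl fun _ _ => by rw [prod_mul_distrib]; ring

theorem sum {I : Type} [Fintype I] {a : I → ℂ} {H : I → (ι → α) → ℂ} (h : ∀ i, Neg K (H i)) :
    Neg ((∑ i, ‖a i‖) * K) fun x => ∑ i, a i * H i x := by
  choose J fJ c u h1 h2 h3 using h
  refine ⟨Σ i, J i, inferInstance, fun j => a j.1 * c j.1 j.2, fun j => u j.1 j.2, ?_,
    fun j => h2 _ _, fun x => ?_⟩
  · simp only [Fintype.sum_sigma, norm_mul, ← mul_sum, sum_mul]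
    exact sum_le_sum fun i _ => mul_le_mul_of_nonneg_left (h1 i) (norm_nonneg _)
  · simp only [Fintype.sum_sigma, h3, mul_sum, mul_assoc]

theorem cy_conj {u : ι → (ι → α) → ℂ} (h : Cy u) : Cy fun i x => conj (u i x) :=
  ⟨fun i x => by simpa using h.1 i x, fun i x a => by simp only [h.2]⟩

theorem conj' (h : Neg K F) : Neg K fun x => conj (F x) :=
  let ⟨J, i, c, u, h1, h2, h3⟩ := h
  ⟨J, i, fun j => conj (c j), fun j i x => conj (u j i x), by simpa using h1,
    fun j => cy_conj (h2 j), fun x => by simp only [h3, map_sum, map_mul, map_prod]⟩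

theorem cy_pull {u : ι → (ι → α) → ℂ} (h : Cy u) (g : ι → β → α) :
    Cy fun i (x : ι → β) => u i fun k => g k (x k) :=
  ⟨fun i x => h.1 _ _, fun i x a => by
    beta_reduce
    rw [← h.2 i (fun k => g k (x k)) (g i a)]
    congr 1
    funext k
    by_cases hk : k = i
    · subst hk; simp
    · simp [hk]⟩

theorem pull (h : Neg K F) (g : ι → β → α) : Neg K fun x : ι → β => F fun k => g k (x k) :=
  let ⟨J, i, c, u, h1, h2, h3⟩ := h
  ⟨J, i, c, fun j i x => u j i fun k => g k (x k), h1, fun j => cy_pull (h2 j) g, fun _ => h3 _⟩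

/-- products of bounded functions of one letter -/
theorem unary (h2 : 2 ≤ Fintype.card ι) {w : ι → α → ℂ} (hw : ∀ i a, ‖w i a‖ ≤ 1) :
    Neg 1 fun x : ι → α => ∏ i, w i (x i) := by
  have := Fintype.one_lt_card_iff_nontrivial.1 h2
  choose s hs using fun i : ι => exists_ne i
  refine mono (of_cy (u := fun j x => ∏ i ∈ univ.filter fun i => s i = j, w i (x i))
    ⟨fun j x => ?_, fun j x a => prod_congr rfl fun i hi => ?_⟩) le_rfl
    fun x => prod_fiberwise _ _ _
  · rw [norm_prod]
    exact prod_le_one (fun _ _ => norm_nonneg _) fun _ _ => hw _ _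
  · rw [update_of_ne fun e => hs i ((mem_filter.1 hi).2.trans e.symm)]

theorem exists_cy [Fintype α] (h : Neg K F) (hK : 0 < K) {d : ℝ} (hd : 0 < d)
    (H : d ≤ ‖𝔼 x, F x * G x‖) : ∃ u : ι → (ι → α) → ℂ, Cy u ∧
      d / K ≤ ‖𝔼 x, (∏ i, u i x) * G x‖ := by
  obtain ⟨J, _, c, u, h1, h2, h3⟩ := h
  by_contra hc
  push Not at hc
  have e : 𝔼 x, F x * G x = ∑ j, c j * 𝔼 x, (∏ i, u j i x) * G x := by
    simp only [h3, sum_mul, expect_sum_comm, mul_expect, mul_assoc]
  have k : ∀ t, t < d / K → (∀ j, ‖𝔼 x, (∏ i, u j i x) * G x‖ ≤ t) → 0 ≤ t → False :=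
    fun t ht hj t0 => by
    have : d ≤ K * t := H.trans <| e ▸ (norm_sum_le _ _).trans <|
      (sum_le_sum fun j _ => (norm_mul _ _).le.trans
        (mul_le_mul_of_nonneg_left (hj j) (norm_nonneg _))).trans <| by
        rw [← sum_mul]; exact mul_le_mul_of_nonneg_right h1 t0
    rw [lt_div_iff₀ hK] at ht
    linarith
  rcases isEmpty_or_nonempty J with hJ | hJ
  · exact k 0 (div_pos hd hK) (fun j => hJ.elim j) le_rfl
  · obtain ⟨j, -, hj⟩ := exists_max_image univ (fun j => ‖𝔼 x, (∏ i, u j i x) * G x‖) univ_nonempty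
    exact k _ (hc _ (h2 j)) (fun i => hj i (mem_univ _)) (norm_nonneg _)

end Bi

open Bi

variable {ι : Type} [Fintype ι] [DecidableEq ι]

theorem bias (hA : AFF ι) : BIAS ι := by
  intro r n N _ F u b h2 hr hF hu hb H
  set B := 𝔼 y : ι → ZMod N, (∏ i, u i y) * e (F (vl y)) with hB
  have B0 : B ≠ 0 := norm_pos_iff.1 (hb.trans_le H)
  let wr : ZMod N → ZMod N → Bool := fun a z => decide (N ≤ a.val + z.val)
  have hv : ∀ a z : ZMod N, (((a + z).val : ℕ) : ℝ) =
      a.val + ((z.val : ℝ) - if wr a z then (N : ℝ) else 0) := fun a z => by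
    by_cases h : N ≤ a.val + z.val
    · rw [ZMod.val_add_of_le h]; simp [wr, h]; ring
    · rw [ZMod.val_add_of_lt (not_le.1 h)]; simp [wr, h]
  have k1 : ∀ z : ι → ZMod N, Neg ((2 ^ Fintype.card ι : ℝ) * (Fintype.card ι + 4) ^ n)
      fun h : ι → ZMod N => (∏ i, u i (h + z)) * e (F (vl (h + z)) - F (vl h)) := fun z => by
    have k := Bi.sum (a := fun _ : ι → Bool => 1) fun w => mul (mul
      (of_cy (cy_pull hu fun k a => a + z k))
      (unary (w := fun i a => if wr a (z i) = w i then 1 else 0) h2 fun i a => by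
        split_ifs <;> simp))
      (pull (hA r n 1 F (fun _ => 1) (fun i => ((z i).val : ℝ) - if w i then (N : ℝ) else 0) hr hF
        (fun _ => le_rfl) (by simp)) fun _ (a : ZMod N) => (a.val : ℝ))
    refine mono k (le_of_eq ?_) fun h => ?_
    · simp only [norm_one, sum_const, card_univ, Fintype.card_fun, Fintype.card_bool, nsmul_eq_mul]
      push_cast; ring
    · rw [sum_eq_single fun i => wr (h i) (z i)]
      · simp only [if_true, prod_const_one, mul_one, one_mul, Nat.cast_one, ← hv]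
        rfl
      · intro w _ hw
        obtain ⟨i, hi⟩ := Function.ne_iff.1 hw
        rw [prod_eq_zero (f := fun i => if wr (h i) (z i) = w i then (1 : ℂ) else 0) (mem_univ i)
          (if_neg hi.symm)]
        simp
      · simp
  have k2 := conj' (Bi.sum (a := fun _ : ι → ZMod N => B⁻¹ / Fintype.card (ι → ZMod N)) k1)
  refine mono k2 ?_ fun h => ?_
  · rw [sum_const, card_univ, nsmul_eq_mul, norm_div, norm_inv, Complex.norm_natCast,
      mul_div_cancel₀ _ (by positivity), mul_comm, ← div_eq_mul_inv]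
    exact div_le_div_of_nonneg_left (by positivity) hb H
  · have c0 : (Fintype.card (ι → ZMod N) : ℂ) ≠ 0 := Nat.cast_ne_zero.2 Fintype.card_ne_zero
    have : ∑ z : ι → ZMod N, (∏ i, u i (h + z)) * e (F (vl (h + z)) - F (vl h)) =
        B * Fintype.card (ι → ZMod N) * e (-F (vl h)) := by
      rw [hB, expect_eq_sum_div_card, card_univ, div_mul_cancel₀ _ c0, sum_mul]
      exact Fintype.sum_equiv (Equiv.addLeft h) _ _ fun z => by
        rw [sub_eq_add_neg, e_add, mul_assoc]; rfl
    rw [← mul_sum, this, show B⁻¹ / Fintype.card (ι → ZMod N) * (B * Fintype.card (ι → ZMod N) *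
      e (-F (vl h))) = e (-F (vl h)) by field_simp, conj_e, neg_neg]

theorem div (hA : AFF ι) (hB : BIAS ι) : DIV ι := by
  intro r n N m _ F K h2 hr hF hm hK H
  have := Fintype.one_lt_card_iff_nontrivial.1 h2
  obtain ⟨i0⟩ : Nonempty ι := inferInstance
  have m0 : (0 : ℝ) < m := by exact_mod_cast hm
  obtain ⟨c, -, hc⟩ : ∃ c ∈ range m, (1 / m : ℝ) ≤
      𝔼 y : ι → ZMod N, if (y i0).val % m = c then (1 : ℝ) else 0 := by
    refine exists_le_of_sum_le (nonempty_range_iff.2 (by omega)) (le_of_eq ?_)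
    rw [← expect_sum_comm]
    simp [Nat.mod_lt _ hm, m0.ne']
  let mm : ι → ℕ := fun i => if i = i0 then m else 1
  have hp : ∏ i, mm i = m := by simp [mm]
  let g : ι → ZMod N → ZMod N := fun i a => if i = i0 then ((a.val / m : ℕ) : ZMod N) else a
  have k1 := conj' (mul (unary (w := fun i (a : ZMod N) =>
      if i = i0 → a.val % m = c then 1 else 0) h2 fun i a => by split_ifs <;> simp)
    (pull (mul (pull (hA r n m F mm (fun i => if i = i0 then c else 0) hr hF
      (fun i => by simp only [mm]; split_ifs <;> omega) hp.le) fun _ (a : ZMod N) => (a.val : ℝ)) H) g))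
  have K0 : (0 : ℝ) < 1 * ((((m + Fintype.card ι + 3) ^ n : ℕ) : ℝ) * K) := by positivity
  obtain ⟨u, hu, k2⟩ := exists_cy (G := fun y => e (F (vl y))) k1 K0 (one_div_pos.2 m0) (by
    refine hc.trans (le_trans (le_of_eq ?_) (Complex.re_le_norm _))
    rw [Complex.re_expect]
    refine expect_congr rfl fun y _ => ?_
    by_cases hy : (y i0).val % m = c
    · have e1 : (fun i => (mm i : ℝ) * ((g i (y i)).val : ℝ) + if i = i0 then (c : ℝ) else 0) =
          vl y := by
        funext i
        by_cases hi : i = i0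
        · subst hi
          simp only [mm, g, if_true, vl]
          rw [ZMod.val_cast_of_lt ((Nat.div_le_self _ _).trans_lt (ZMod.val_lt _)), ← hy]
          exact_mod_cast Nat.div_add_mod _ _
        · simp [mm, g, hi, vl]
      rw [if_pos hy, prod_eq_one fun i _ => if_pos fun hi => hi ▸ hy, one_mul, e1, hp, ← e_add,
        conj_e, ← e_add]
      refine (congrArg Complex.re e_zero).symm.trans (congrArg (fun t => (e t).re) ?_)
      change 0 = -(F (vl y) - m * F (vl fun k => g k (y k)) + m * F (vl fun k => g k (y k))) + _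
      ring
    · rw [if_neg hy, prod_eq_zero (mem_univ i0) (if_neg fun h => hy (h rfl))]
      simp)
  refine mono (hB r n N F u _ h2 hr hF hu (div_pos (one_div_pos.2 m0) K0) k2) (le_of_eq ?_)
    fun _ => rfl
  push_cast
  field_simp

end Crest.Agent.N49.Iv
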