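import Crest.Agent.N49.Iv.St

/-!
# Row 49 (helper64): a base point with all mixed points in a dense set
-/

set_option autoImplicit false
open Finset Function
open scoped BigOperators

namespace Crest.Agent.N49.Iv

namespace Bpa

variable {ι α : Type} [Fintype ι] [DecidableEq ι] [Fintype α]

/-- resampling one coordinate -/
theorem resample (j : ι) (F : (ι → α) → ℝ) :
    ∑ p : ι → α, ∑ a, F (update p j a) = Fintype.card α * ∑ p, F p := by
  have h : ∑ x : (ι → α) × α, F (update x.1 j x.2) = ∑ x : (ι → α) × α, F x.1 := by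
    refine sum_nbij' (fun x => (update x.1 j x.2, x.1 j)) (fun x => (update x.1 j x.2, x.1 j))
      (fun _ _ => mem_univ _) (fun _ _ => mem_univ _) (fun x _ => ?_) (fun x _ => ?_)
      fun _ _ => rfl <;> simp
  rw [Fintype.sum_prod_type, Fintype.sum_prod_type] at h
  rw [h, mul_sum]
  simp

/-- one coordinate -/
theorem one [DecidableEq α] [Nonempty α] (j : ι) (A : Finset (ι → α)) (K : ℕ)
    (h : Fintype.card (ι → α) ≤ K * #A) :
    ∃ c, Fintype.card (ι → α) ≤ K ^ 2 * #(A.filter fun p => update p j c ∈ A) := by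
  obtain ⟨c, -, hc⟩ := exists_max_image univ (fun c => #(A.filter fun p => update p j c ∈ A))
    univ_nonempty
  refine ⟨c, ?_⟩
  set m := #(A.filter fun p => update p j c ∈ A)
  let f : (ι → α) → ℝ := fun p => if p ∈ A then 1 else 0
  let g : (ι → α) → ℝ := fun p => ∑ a, f (update p j a)
  have f1 : ∑ p, f p = #A := by simp [f]
  have g1 : ∑ p, g p = Fintype.card α * #A := by rw [← f1]; exact resample j f
  have g2 : ∑ p, g p ^ 2 = Fintype.card α * ∑ p, f p * g p := by
    rw [← resample j fun p => f p * g p]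
    refine sum_congr rfl fun p _ => ?_
    simp only [g, update_idem]
    rw [← sum_mul, sq]
  have g3 : ∑ p, f p * g p ≤ Fintype.card α * m := by
    simp only [g, mul_sum]
    rw [sum_comm]
    refine (sum_le_card_nsmul _ _ (m : ℝ) fun a _ => ?_).trans (by simp)
    refine le_trans (le_of_eq ?_) (Nat.cast_le.2 (hc a (mem_univ _)))
    rw [card_filter, ← sum_filter_add_sum_filter_not univ (· ∈ A), filter_mem_eq_inter, univ_inter,
      sum_eq_zero (s := filter _ _) fun p hp => by simp [f, (mem_filter.1 hp).2], add_zero]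
    push_cast
    exact sum_congr rfl fun p hp => by simp [f, hp]
  have cs := sq_sum_le_card_mul_sum_sq (s := univ) (f := g)
  rw [g1, g2, card_univ] at cs
  have a0 : (0 : ℝ) < Fintype.card α := Nat.cast_pos.2 Fintype.card_pos
  have x0 : (0 : ℝ) < Fintype.card (ι → α) := Nat.cast_pos.2 Fintype.card_pos
  have h1 : (#A : ℝ) ^ 2 ≤ Fintype.card (ι → α) * m := by
    refine le_of_mul_le_mul_left ?_ (pow_pos a0 2)
    calc _ = (Fintype.card α * #A : ℝ) ^ 2 := by ring
      _ ≤ _ := cs
      _ ≤ Fintype.card (ι → α) * (Fintype.card α * (Fintype.card α * m) : ℝ) := by gcongr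
      _ = _ := by ring
  have h2 : (Fintype.card (ι → α) : ℝ) ≤ K * #A := by exact_mod_cast h
  have h3 : (Fintype.card (ι → α) : ℝ) ≤ K ^ 2 * m := by
    refine le_of_mul_le_mul_left ?_ x0
    calc _ = (Fintype.card (ι → α) : ℝ) ^ 2 := by ring
      _ ≤ (K * #A : ℝ) ^ 2 := by gcongr
      _ = K ^ 2 * (#A : ℝ) ^ 2 := by ring
      _ ≤ K ^ 2 * (Fintype.card (ι → α) * m : ℝ) := by gcongr
      _ = _ := by ring
  exact_mod_cast h3

theorem ind [DecidableEq α] [Nonempty α] (L : ℕ) (A : Finset (ι → α))
    (h : Fintype.card (ι → α) ≤ 2 ^ L * #A) (S : Finset ι) :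
    ∃ (b : ι → α) (A' : Finset (ι → α)), Fintype.card (ι → α) ≤ 2 ^ (2 ^ #S * L) * #A' ∧
      ∀ p ∈ A', ∀ U : Finset ι, (∀ i, i ∉ U → i ∈ S) → U.piecewise p b ∈ A := by
  induction S using Finset.induction_on with
  | empty =>
    refine ⟨fun _ => Classical.arbitrary α, A, by simpa using h, fun p hp U hU => ?_⟩
    have : U = univ := eq_univ_of_forall fun i => by_contra fun k => by simpa using hU i k
    rwa [this, piecewise_univ]
  | insert j S hj ih =>
    obtain ⟨b, A', h1, h2⟩ := ih
    obtain ⟨c, hc⟩ := one j A' _ h1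
    refine ⟨update b j c, _, by
      rwa [card_insert_of_notMem hj, pow_succ, mul_right_comm, pow_mul], fun p hp U hU => ?_⟩
    obtain ⟨p1, p2⟩ := mem_filter.1 hp
    by_cases e : j ∈ U
    · have := h2 p p1 U fun i k => (mem_insert.1 (hU i k)).resolve_left fun q => k (q ▸ e)
      convert this using 1
      funext i
      by_cases k : i ∈ U
      · simp [k]
      · have : i ≠ j := fun q => k (q ▸ e)
        simp [k, this]
    · have := h2 _ p2 (insert j U) fun i k =>
        (mem_insert.1 (hU i fun q => k (mem_insert_of_mem q))).resolve_left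
          fun q => k (q ▸ mem_insert_self _ _)
      convert this using 1
      funext i
      by_cases q : i = j
      · subst q
        simp [e]
      · by_cases k : i ∈ U <;> simp [k, q, piecewise]

end Bpa

/-- **base point** -/
theorem bp (ι : Type) [Fintype ι] [DecidableEq ι] : BP ι :=
  ⟨fun L => 2 ^ Fintype.card ι * L, (Poly.const _).mul Poly.id, fun _ _ _ L A _ h =>
    let ⟨b, A', h1, h2⟩ := Bpa.ind L A h univ
    ⟨b, A', h1, fun p hp U => h2 p hp U fun _ _ => mem_univ _⟩⟩

end Crest.Agent.N49.Iv
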