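import Crest.Agent.N49.Iv.St

/-!
# Row 49 (helper86): fibrewise pigeonhole (`abs_fib`, `abs_int`) and the leaf `CF`
-/

set_option autoImplicit false
open Finset Function
open scoped BigOperators

namespace Crest.Agent.N49.Iv

/-- pigeonhole with a representative -/
theorem abs_fib {α β : Type} [DecidableEq β] (Y : Finset α) (f : α → β) (B : Finset β)
    (h : ∀ y ∈ Y, f y ∈ B) (hY : Y.Nonempty) :
    ∃ y0 ∈ Y, #Y ≤ #B * #{y ∈ Y | f y = f y0} := by
  obtain ⟨y0, h0, hm⟩ := Y.exists_max_image (fun a => #{y ∈ Y | f y = f a}) hY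
  refine ⟨y0, h0, (card_le_mul_card_image (f := f) Y #{y ∈ Y | f y = f y0} fun b hb => ?_).trans ?_⟩
  · obtain ⟨a, ha, rfl⟩ := mem_image.1 hb
    exact hm a ha
  · rw [mul_comm]
    exact Nat.mul_le_mul_right _ (card_le_card (image_subset_iff.2 h))

/-- ABS: a bounded integer vector is constant on a dense part -/
theorem abs_int {α J : Type} [Fintype J] (Y : Finset α) (u : α → J → ℤ) {a b n L : ℕ}
    (hJ : Fintype.card J ≤ a) (hu : ∀ y ∈ Y, ∀ j, |u y j| ≤ 2 ^ b) (hn : 0 < n)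
    (hY : n ≤ 2 ^ L * #Y) :
    ∃ y0 ∈ Y, ∃ Y' ⊆ Y, n ≤ 2 ^ (L + a * (b + 2)) * #Y' ∧ ∀ y ∈ Y', u y = u y0 := by
  classical
  obtain ⟨y0, h0, h1⟩ := abs_fib Y u (Fintype.piFinset fun _ => Icc (-2 ^ b) (2 ^ b))
    (fun y hy => Fintype.mem_piFinset.2 fun j => mem_Icc.2 (abs_le.1 (hu y hy j)))
    (card_pos.1 (Nat.pos_of_mul_pos_left (hn.trans_le hY)))
  refine ⟨y0, h0, _, filter_subset _ Y, hY.trans ?_, fun y hy => (mem_filter.1 hy).2⟩
  have h2 : #(Icc (-2 ^ b : ℤ) (2 ^ b)) ≤ 2 ^ (b + 2) := by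
    rw [Int.card_Icc, Int.toNat_le]
    have : (1 : ℤ) ≤ 2 ^ b := one_le_pow₀ (by norm_num)
    push_cast
    rw [pow_add]; linarith
  rw [Fintype.card_piFinset, prod_const, card_univ] at h1
  rw [pow_add, mul_assoc, mul_comm a, pow_mul]
  refine Nat.mul_le_mul_left _ (h1.trans (Nat.mul_le_mul_right _ ?_))
  exact (Nat.pow_le_pow_left h2 _).trans (Nat.pow_le_pow_right (by positivity) hJ)

/-- the defect of `round` along an integer combination -/
theorem round_dot {κ : Type} [Fintype κ] (k : κ → ℤ) (v : κ → ℝ) {L : ℕ}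
    (hκ : Fintype.card κ ≤ L) (hk : ∀ r, |k r| ≤ 2 ^ L) :
    |∑ r, k r * round (v r) - round (dot k v)| ≤ 2 ^ (2 * L) := by
  have h1 : |∑ r, (k r : ℝ) * (round (v r) - v r)| ≤ ∑ _r : κ, (2 : ℝ) ^ L * (1 / 2) :=
    (abs_sum_le_sum_abs _ _).trans (sum_le_sum fun r _ => by
      rw [abs_mul, abs_sub_comm]
      exact mul_le_mul (by exact_mod_cast hk r) (abs_sub_round _) (abs_nonneg _) (by positivity))
  have h2 := abs_sub_round (dot k v)
  have h3 : (Fintype.card κ : ℝ) ≤ 2 ^ L := by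
    exact_mod_cast hκ.trans Nat.lt_two_pow_self.le
  have h4 : (1 : ℝ) ≤ 2 ^ L := one_le_pow₀ (by norm_num)
  rw [sum_const, card_univ, nsmul_eq_mul] at h1
  have e : ((∑ r, k r * round (v r) - round (dot k v) : ℤ) : ℝ) =
      ∑ r, (k r : ℝ) * (round (v r) - v r) + (dot k v - round (dot k v)) := by
    simp only [dot, mul_sub, sum_sub_distrib]; push_cast; ring
  have h5 : |((∑ r, k r * round (v r) - round (dot k v) : ℤ) : ℝ)| ≤ 2 ^ (2 * L) := by
    rw [e, two_mul, pow_add]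
    refine (abs_add_le _ _).trans ?_
    nlinarith
  exact_mod_cast h5

theorem abs_dot_le {κ : Type} [Fintype κ] (k : κ → ℤ) (v : κ → ℝ) {L : ℕ}
    (hκ : Fintype.card κ ≤ L) (hk : ∀ r, |k r| ≤ 2 ^ L) (hv : ∀ r, |v r| ≤ 2 ^ L) :
    |dot k v| ≤ 2 ^ (3 * L) := by
  have h3 : (Fintype.card κ : ℝ) ≤ 2 ^ L := by
    exact_mod_cast hκ.trans Nat.lt_two_pow_self.le
  refine (abs_sum_le_sum_abs _ _).trans ((sum_le_sum (g := fun _ => (2 : ℝ) ^ L * 2 ^ L)
    fun r _ => ?_).trans ?_)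
  · rw [abs_mul]
    exact mul_le_mul (by exact_mod_cast hk r) (hv r) (abs_nonneg _) (by positivity)
  · rw [sum_const, card_univ, nsmul_eq_mul, show 3 * L = L + (L + L) by ring, pow_add, pow_add]
    exact mul_le_mul_of_nonneg_right h3 (by positivity)

/-- coordinates of an element of `L1 W q` -/
theorem L1_coord {κ : Type} {W : Finset (κ → ℤ)} {q : ℕ} {v : κ → ℝ} (h : v ∈ L1 W q) :
    ∃ (z : κ → ℤ) (c : (κ → ℤ) → ℝ), ∀ r, v r = (z r : ℝ) / q + ∑ k ∈ W, c k * k r := by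
  obtain ⟨z, hz⟩ := h
  obtain ⟨c, hc⟩ := (Submodule.mem_span_image_finset_iff_exists_fun' ℝ).1 hz
  refine ⟨z, c, fun r => ?_⟩
  have := congrFun hc r
  simp only [Finset.sum_apply, Pi.smul_apply, La.ci_apply, smul_eq_mul, Pi.sub_apply] at this
  linarith

theorem cf (ι : Type) [Fintype ι] [DecidableEq ι] : CF ι := by
  classical
  refine ⟨fun L => L + (L + L) * (2 * L + 2) + 3 * L + 1, ((Poly.id.add ((Poly.id.add Poly.id).mul
    (((Poly.const 2).mul Poly.id).add (Poly.const 2)))).add ((Poly.const 3).mul Poly.id)).add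
    (Poly.const 1), fun N _ Δ _ A φ L _ s W q hs hr hW ht => ?_⟩
  have key : ∀ p, ∃ (Y' : Finset (ZMod N)) (β : Δ → ℝ) (c : Δ → (s.κ → ℤ) → ℝ), p ∈ s.P →
      Y' ⊆ s.Y p ∧ N ≤ 2 ^ (L + (L + L) * (2 * L + 2)) * #Y' ∧ ∀ y ∈ Y', ∀ l,
        Iz (∑ r, s.t p l r * (round (s.γ p r * (y.val : ℝ)) : ℝ) - β l -
          ∑ k ∈ W, c l k * (round (dot k (s.γ p) * (y.val : ℝ)) : ℝ)) := fun p => by
    by_cases hp : p ∈ s.P
    swap
    · exact ⟨∅, 0, 0, fun h => absurd h hp⟩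
    choose z c hc using fun l => L1_coord (ht p hp l (Set.mem_univ l))
    set d : (s.κ → ℤ) → ZMod N → ℤ := fun k y =>
      ∑ r, k r * round (s.γ p r * (y.val : ℝ)) - round (dot k (s.γ p) * (y.val : ℝ)) with hd
    have q0 : (0 : ℤ) < q := by exact_mod_cast hW.2.2.1
    obtain ⟨y0, -, Y', h1, h2, h3⟩ := abs_int (J := W ⊕ s.κ) (s.Y p)
      (fun y => Sum.elim (fun k => d k y) fun r => round (s.γ p r * (y.val : ℝ)) % q)
      (a := L + L) (b := 2 * L) (by simpa using add_le_add hW.1 hs.card) (fun y _ j => by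
        rcases j with k | r
        · have := round_dot k.1 (fun r => s.γ p r * (y.val : ℝ)) hs.card (hW.2.1 k k.2)
          simpa only [hd, dot, sum_mul, mul_assoc, Sum.elim_inl] using this
        · rw [Sum.elim_inr, abs_of_nonneg (Int.emod_nonneg _ q0.ne')]
          refine (Int.emod_lt_of_pos _ q0).le.trans ?_
          exact_mod_cast hW.2.2.2.trans (Nat.pow_le_pow_right (by norm_num) (by omega)))
      (NeZero.pos N) (hs.fib p hp)
    refine ⟨Y', fun l => ∑ r, (z l r : ℝ) / q * round (s.γ p r * (y0.val : ℝ)) +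
      ∑ k ∈ W, c l k * d k y0, c, fun _ => ⟨h1, h2, fun y hy l => ?_⟩⟩
    have e1 : ∀ k ∈ W, c l k * (d k y0 : ℝ) = c l k * d k y := fun k hk =>
      congrArg (fun a : ℤ => c l k * (a : ℝ)) (congrFun (h3 y hy) (Sum.inl ⟨k, hk⟩)).symm
    choose n hn using fun r => (Int.emod_emod_of_dvd _ dvd_rfl ▸ Int.emod_eq_emod_iff_emod_sub_eq_zero.1
      (congrFun (h3 y hy) (Sum.inr r)) |> Int.dvd_of_emod_eq_zero :
        (q : ℤ) ∣ round (s.γ p r * (y.val : ℝ)) - round (s.γ p r * (y0.val : ℝ)))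
    refine ⟨∑ r, z l r * n r, ?_⟩
    have q1 : (q : ℝ) ≠ 0 := by exact_mod_cast q0.ne'
    have e2 : ∀ r, (z l r : ℝ) * n r = (z l r : ℝ) / q * round (s.γ p r * (y.val : ℝ)) -
        (z l r : ℝ) / q * round (s.γ p r * (y0.val : ℝ)) := fun r => by
      have := congrArg (Int.cast : ℤ → ℝ) (hn r)
      push_cast at this
      rw [← mul_sub, this]; field_simp
    beta_reduce
    rw [sum_congr rfl e1]
    simp only [hc, hd, add_mul, sum_add_distrib, sum_mul, mul_sum, mul_sub, sum_sub_distrib,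
      Int.cast_sum, Int.cast_mul, Int.cast_sub, e2, mul_assoc]
    rw [sum_comm (s := univ) (t := W)]
    ring
  choose Y β c hk using key
  beta_reduce
  refine ⟨St.mk (Option W) none s.P Y (fun p l => s.β p l + β p l)
    (fun p l r => r.elim 0 fun k => c p l k) fun p r => r.elim 1 fun k => dot k.1 (s.γ p),
    ⟨hs.dn.trans (Nat.mul_le_mul_right _ (Nat.pow_le_pow_right two_pos (by omega))),
      fun p hp => (hk p hp).2.1.trans
        (Nat.mul_le_mul_right _ (Nat.pow_le_pow_right two_pos (by omega))), ?_,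
      fun p hp r => ?_, fun p hp r => ?_, fun _ => rfl⟩, fun p hp y hy => ?_, rfl, fun r => ?_⟩
  · have := hW.1
    simp only [Fintype.card_option, Fintype.card_coe]
    omega
  · rcases r with _ | k
    · simpa using one_le_pow₀ (M₀ := ℝ) one_le_two
    · exact (abs_dot_le _ _ hs.card (hW.2.1 k k.2) (hs.bd p hp)).trans
        (pow_le_pow_right₀ one_le_two (by omega))
  · rcases r with _ | k
    · exact ⟨N, by simp⟩
    · choose n hn using hs.rat p hp
      refine ⟨∑ r, k.1 r * n r, ?_⟩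
      simp only [Option.elim_some, dot, mul_sum, mul_left_comm (N : ℝ), hn, Int.cast_sum,
        Int.cast_mul]
  · obtain ⟨h1, h2⟩ := hr p hp y ((hk p hp).1 hy)
    refine ⟨h1, fun l => ?_⟩
    obtain ⟨a, ha⟩ := h2 l
    obtain ⟨b, hb⟩ := (hk p hp).2.2 y hy l
    refine ⟨a + b, ?_⟩
    rw [← sum_coe_sort W] at hb
    simp only [Fintype.sum_option, Option.elim_none, Option.elim_some, zero_mul, zero_add]
    push_cast
    linarith
  · rcases r with _ | k
    · exact Or.inl rfl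
    · exact Or.inr ⟨k, k.2, fun _ => rfl⟩

end Crest.Agent.N49.Iv
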