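import Crest.Agent.N49.Iv.St
import Crest.Agent.N49.Gw.Mh

/-!
# Row 49 (helper31): the leaves `cor : MH (Fin d) → COR d` and `swap : SWAP d`
-/

set_option autoImplicit false
open Finset Function
open scoped BigOperators ComplexConjugate

namespace Crest.Agent.N49.Iv

open Gw

namespace Cr

theorem e_add (x y : ℝ) : e (x + y) = e x * e y := by
  rw [e, e, e, ← Complex.exp_add]; push_cast; ring_nf

theorem e_int (z : ℤ) : e z = 1 := by
  rw [e, ← Complex.exp_int_mul_two_pi_mul_I z]; push_cast; ring_nf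

theorem norm_e (x : ℝ) : ‖e x‖ = 1 := by
  rw [e, ← Complex.norm_exp_ofReal_mul_I (2 * Real.pi * x)]; push_cast; rfl

theorem conj_e (x : ℝ) : conj (e x) = e (-x) := by
  rw [e, e, ← Complex.exp_conj]; simp [map_ofNat]

theorem e_congr {x y : ℝ} (h : Iz (x - y)) : e x = e y := by
  obtain ⟨z, hz⟩ := h
  rw [show x = y + z by linarith, e_add, e_int, mul_one]

variable {N : ℕ} [NeZero N]

theorem val_rel {z : ℤ} (h : (z : ZMod N) = 0) : Iz (z / N) := by
  obtain ⟨c, rfl⟩ := (ZMod.intCast_zmod_eq_zero_iff_dvd z N).1 h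
  have : (N : ℝ) ≠ 0 := Nat.cast_ne_zero.2 (NeZero.ne N)
  exact ⟨c, by push_cast; field_simp⟩

theorem e_sub_val {θ : ℝ} (h : Iz (N * θ)) (a b : ZMod N) :
    e (-(θ * (a - b).val)) = e (-(θ * a.val)) * conj (e (-(θ * b.val))) := by
  obtain ⟨z, hz⟩ := h
  obtain ⟨c, hc⟩ := val_rel (N := N)
    (z := (a.val : ℤ) - b.val - (a - b).val) (by simp)
  have hN : (N : ℝ) ≠ 0 := Nat.cast_ne_zero.2 (NeZero.ne N)
  rw [conj_e, ← e_add]
  refine e_congr ⟨z * c, ?_⟩
  push_cast at hc ⊢
  rw [← hz, ← hc]; field_simp; ring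

theorem char_eq (r a : ZMod N) :
    (AddChar.zmodAddEquiv r : AddChar (ZMod N) ℂ) a = e (r.val / N * a.val) := by
  have := AddChar.zmod_intCast N (r.val : ℤ) (a.val : ℤ)
  simp only [Int.cast_natCast, ZMod.natCast_zmod_val] at this
  change ((AddChar.zmod N r a : Circle) : ℂ) = _
  rw [this, Circle.coe_exp, e]; push_cast; ring_nf

omit [NeZero N] in
theorem top_cons {d : ℕ} (Θ : (Fin d → ℝ) → ℝ) (a : ZMod N) (p : Fin d → ZMod N) :
    top Θ (vl (Fin.cons a p : Fin (d + 1) → ZMod N)) = Θ (vl p) * a.val := rfl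

theorem cons_swap {α : Type} {d : ℕ} (j : Fin (d + 1)) (a b : α) (p : Fin d → α) :
    (Fin.cons b (j.insertNth a p) : Fin (d + 2) → α) ∘ Equiv.swap 0 j.succ =
      Fin.cons a (j.insertNth b p) := by
  funext k
  refine Fin.cases ?_ (fun k => ?_) k
  · simp
  · refine Fin.succAboveCases j ?_ (fun k => ?_) k
    · simp
    · rw [comp_apply, Equiv.swap_apply_of_ne_of_ne (Fin.succ_ne_zero _)
        fun h => Fin.succAbove_ne j k (Fin.succ_injective _ h)]
      simp

/-- the symmetry argument -/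
theorem sym_core {X G : Type} [Fintype X] [AddCommGroup G] [Fintype G] (g : X → G → ℂ)
    (hg : ∀ p, B1 (g p)) (χ : X → G → G → ℂ) (h1 : ∀ p b, B1 (χ p b))
    (hχ : ∀ p b a a', χ p b (a - a') = χ p b a * conj (χ p b a')) :
    ∃ w w' : X → G → ℂ, (∀ p, B1 (w p)) ∧ (∀ p, B1 (w' p)) ∧
      ‖𝔼 p, 𝔼 b, 𝔼 a, 𝔼 x, D a (D b (g p)) x * χ p b a‖ ^ 2 ≤
        ‖𝔼 p, 𝔼 a, 𝔼 b, w p a * w' p b * (χ p b a * conj (χ p a b))‖ := by
  set c : X → G → ℂ := fun p b => conj (𝔼 x, D b (g p) x * χ p b x) with hc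
  have hc1 : ∀ p, B1 (c p) := fun p b => by
    rw [hc, Complex.norm_conj]
    refine (norm_expect _).trans (expect_le univ_nonempty fun x _ => ?_)
    rw [norm_mul]
    exact mul_le_one₀ ((hg p).D b x) (norm_nonneg _) (h1 p b x)
  clear_value c
  set v : X × G → G → ℂ := fun q x => c q.1 (q.2 - x) * conj (g q.1 x) * χ q.1 (q.2 - x) x with hv
  have e1 : 𝔼 p, 𝔼 b, 𝔼 a, 𝔼 x, D a (D b (g p)) x * χ p b a =
      𝔼 q : X × G, g q.1 q.2 * 𝔼 x, v q x := by
    rw [← univ_product_univ, expect_product]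
    refine expect_congr rfl fun p _ => ?_
    have e2 : ∀ b, 𝔼 a, 𝔼 x, D a (D b (g p)) x * χ p b a =
        𝔼 x, D b (g p) x * χ p b x * c p b := fun b => by
      simp only [hc, conj_expect, mul_expect]
      rw [expect_comm, expect_comm univ univ fun x y => D b (g p) x * χ p b x * _]
      refine expect_congr rfl fun x _ => ?_
      rw [← expect_shift x fun y => D b (g p) y * χ p b y * _]
      refine expect_congr rfl fun a _ => ?_
      have := hχ p b (x + a) x
      rw [add_sub_cancel_left] at this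
      rw [this, map_mul, D]; ring
    simp only [e2, mul_expect]
    rw [expect_comm, expect_comm univ univ fun y x => g p y * v (p, y) x]
    refine expect_congr rfl fun x _ => ?_
    rw [← expect_shift x fun y => g p y * v (p, y) x]
    refine expect_congr rfl fun b _ => ?_
    simp only [hv, D, add_sub_cancel_left]; ring
  set R : G → ℂ := fun z => 𝔼 p, 𝔼 a, 𝔼 b, (conj (g p (a - z)) * conj (c p a) * χ p a z) *
    (c p b * g p (b - z) * conj (χ p b z)) * (χ p b a * conj (χ p a b)) with hR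
  have e3 : ((𝔼 q, ‖𝔼 x, v q x‖ ^ 2 : ℝ) : ℂ) = 𝔼 z, R z := by
    rw [Complex.ofReal_expect, ← univ_product_univ, expect_product]
    simp only [hR]
    symm
    rw [expect_comm]
    refine expect_congr rfl fun p _ => ?_
    simp only [normSq_expect]
    have e4 : ∀ z, 𝔼 a, 𝔼 b, (conj (g p (a - z)) * conj (c p a) * χ p a z) *
        (c p b * g p (b - z) * conj (χ p b z)) * (χ p b a * conj (χ p a b)) =
        𝔼 x, 𝔼 x', v (p, z + x + x') x * conj (v (p, z + x + x') x') := fun z => by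
      rw [← expect_shift z]
      refine expect_congr rfl fun x _ => ?_
      rw [← expect_shift z]
      refine expect_congr rfl fun x' _ => ?_
      have a1 := hχ p (z + x') (z + x) z
      have a2 := hχ p (z + x) (z + x') z
      rw [add_sub_cancel_left] at a1 a2
      have a3 : z + x + x' - x = z + x' := by abel
      have a4 : z + x + x' - x' = z + x := by abel
      simp only [hv, add_sub_cancel_left, a3, a4, a1, a2, map_mul, Complex.conj_conj]
      ring
    simp only [e4]
    rw [expect_comm]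
    symm
    rw [expect_comm]
    refine expect_congr rfl fun x _ => ?_
    rw [expect_comm]
    symm
    rw [expect_comm]
    refine expect_congr rfl fun x' _ => ?_
    simp only [add_assoc]
    exact expect_shift' (x + x') fun y => v (p, y) x * conj (v (p, y) x')
  have h2 : 𝔼 q, ‖𝔼 x, v q x‖ ^ 2 ≤ 𝔼 z, ‖R z‖ := by
    refine le_trans ?_ (norm_expect _)
    rw [← e3, Complex.norm_real]
    exact le_abs_self _
  obtain ⟨z, -, hz⟩ := exists_le_of_le_expect univ_nonempty h2
  refine ⟨fun p a => conj (g p (a - z)) * conj (c p a) * χ p a z,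
    fun p b => c p b * g p (b - z) * conj (χ p b z), fun p a => ?_, fun p b => ?_, ?_⟩
  · simp only [norm_mul, Complex.norm_conj]
    exact mul_le_one₀ (mul_le_one₀ (hg _ _) (norm_nonneg _) (hc1 _ _)) (norm_nonneg _) (h1 _ _ _)
  · simp only [norm_mul, Complex.norm_conj]
    exact mul_le_one₀ (mul_le_one₀ (hc1 _ _) (norm_nonneg _) (hg _ _)) (norm_nonneg _) (h1 _ _ _)
  · rw [e1]
    exact (cs_bdd fun q : X × G => hg q.1 q.2).trans hz

end Cr

open Cr

theorem cor {d : ℕ} (hM : MH (Fin d)) : COR d := by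
  obtain ⟨P, hP, hM⟩ := hM
  obtain ⟨C, hC⟩ := mh.{0} d 2
  have hQ : Poly fun L => C * (L + 1) + 1 :=
    ((Poly.const C).mul (Poly.id.add (Poly.const 1))).add (Poly.const 1)
  refine ⟨fun L => P (C * (L + 1) + 1) + (L + 2), (hP.comp hQ).add (Poly.id.add (Poly.const 2)),
    fun N _ L f hf hU => ?_⟩
  obtain ⟨A, φ, h1, h2, h3⟩ := hC f (L + 1) (by omega) hf (by
    rw [one_div, inv_pow, inv_le_iff_one_le_mul₀' (by positivity), pow_succ]
    nlinarith [U_nonneg (d + 1) f, pow_pos (two_pos (α := ℝ)) L])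
  set r : (Fin d → ZMod N) → ZMod N := fun p => AddChar.zmodAddEquiv.symm (φ p) with hr
  obtain ⟨A', g1, g2, F, g3, g4⟩ := hM N Unit (C * (L + 1) + 1) A (fun p _ => (r p).val / N)
    (by simp) (half_le_dn.1 ((half_anti (by omega)).trans h1)) fun j p a b c c' e0 ha hb hc hc' _ => by
      have h4 := (h3 j p).add_eq_add ha hb hc hc' e0
      have h5 := congrArg AddChar.zmodAddEquiv.symm h4
      rw [map_add, map_add] at h5
      obtain ⟨z, hz⟩ := val_rel (N := N) (z := ((r (update p j a)).val : ℤ) +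
        (r (update p j b)).val - (r (update p j c)).val - (r (update p j c')).val) (by
          simp only [Int.cast_sub, Int.cast_add, Int.cast_natCast, ZMod.natCast_zmod_val, hr]
          rw [h5]; ring)
      exact ⟨z, by rw [← hz]; simp only [Pi.sub_apply, Pi.add_apply]; push_cast; ring⟩
  have hN : (N : ℝ) ≠ 0 := Nat.cast_ne_zero.2 (NeZero.ne N)
  refine ⟨A', F (), ?_, fun p hp => ?_, ?_⟩
  · have := g3 ()
    rw [Fintype.card_fin] at this
    exact this.mono Subset.rfl (Nat.le_add_right _ _)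
  · obtain ⟨z, hz⟩ := g4 p hp ()
    refine ⟨(r p).val - N * z, ?_⟩
    push_cast
    rw [← hz]; field_simp; ring
  · have e1 : 𝔼 h : Fin (d + 1) → ZMod N, 𝔼 x : ZMod N, Dv h f x *
        (if Fin.tail h ∈ A' then 1 else 0) * e (-top (F ()) (vl h)) =
        ((𝔼 p, if p ∈ A' then ‖ft (Dv p f) (φ p)‖ ^ 2 else 0 : ℝ) : ℂ) := by
      rw [expect_cons, expect_comm, Complex.ofReal_expect]
      refine expect_congr rfl fun p _ => ?_
      simp only [Fin.tail_cons, top_cons, Dv_cons, Dv_D]
      split_ifs with hp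
      · rw [normSq_ft]
        refine expect_congr rfl fun a _ => ?_
        obtain ⟨z, hz⟩ := g4 p hp ()
        have e2 : φ p = AddChar.zmodAddEquiv (r p) := by simp [hr]
        rw [expect_mul, e2, char_eq, conj_e, e_congr (x := -(F () (vl p) * a.val))
          (y := -((r p).val / N * a.val)) ⟨z * a.val, by push_cast; rw [← hz]; ring⟩]
        simp only [mul_one]
      · simp
    have h4 : (1 / 2 : ℝ) ^ (L + 1 + 1) * dn A' ≤
        𝔼 p, if p ∈ A' then ‖ft (Dv p f) (φ p)‖ ^ 2 else 0 := by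
      rw [← expect_mem, mul_expect]
      refine expect_le_expect fun p _ => ?_
      split_ifs with hp
      · rw [mul_one]; exact h2 p (g1 hp)
      · rw [mul_zero]
    rw [e1, Complex.norm_real]
    calc (1 : ℝ) = 2 ^ (P (C * (L + 1) + 1) + (L + 2)) *
          ((1 / 2) ^ (L + 1 + 1) * (1 / 2) ^ P (C * (L + 1) + 1)) := by
          rw [← pow_add, add_comm (L + 1 + 1), ← mul_pow]; simp
      _ ≤ _ := by
          gcongr
          exact le_trans (mul_le_mul_of_nonneg_left (half_le_dn.2 g2) (by positivity))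
            (h4.trans (le_abs_self _))

theorem swap (d : ℕ) : SWAP d := by
  intro N _ L f A Θ i hf hC
  refine Fin.cases ?_ (fun j => ?_) i
  · refine ⟨fun _ _ => 1, ⟨by simp, by simp⟩, ?_⟩
    have : e 0 = 1 := by simp [e]
    simp [this, one_le_pow₀]
  obtain ⟨d, rfl⟩ : ∃ d', d = d' + 1 := ⟨d - 1, by have := j.pos; omega⟩
  set I : (Fin d → ZMod N) → ZMod N → ℂ := fun p b => if j.insertNth b p ∈ A then 1 else 0 with hI
  have hI1 : ∀ p b, ‖I p b‖ ≤ 1 := fun p b => by simp only [hI]; split_ifs <;> simp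
  have hI2 : ∀ p b, conj (I p b) = I p b := fun p b => by simp only [hI]; split_ifs <;> simp
  obtain ⟨w, w', h1, h2, h3⟩ := sym_core (fun p : Fin d → ZMod N => Dv p f) (fun p => hf.Dv p)
    (fun p b a => I p b * e (-(Θ (vl (j.insertNth b p)) * a.val)))
    (fun p b a => by rw [norm_mul, norm_e, mul_one]; exact hI1 p b) fun p b a a' => by
      simp only [hI]
      split_ifs with hp
      · rw [e_sub_val (hC.1 _ hp), one_mul, one_mul, one_mul]
      · simp
  have e1 : 𝔼 h : Fin (d + 2) → ZMod N, 𝔼 x : ZMod N, Dv h f x *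
      (if Fin.tail h ∈ A then 1 else 0) * e (-top Θ (vl h)) = 𝔼 p, 𝔼 b, 𝔼 a, 𝔼 x,
        D a (D b (Dv p f)) x * (I p b * e (-(Θ (vl (j.insertNth b p)) * a.val))) := by
    rw [expect_cons, expect_comm, expect_ins j]
    simp only [Fin.tail_cons, top_cons, Dv_cons, Dv_D, Dv_ins, mul_assoc, hI]
  have h4 := hC.2
  rw [e1] at h4
  set u : Fin (d + 2) → (Fin (d + 2) → ZMod N) → ℂ := fun k y =>
    if k = 0 then w (j.removeNth (Fin.tail y)) (y j.succ) * I (j.removeNth (Fin.tail y)) (y j.succ)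
    else if k = j.succ then w' (j.removeNth (Fin.tail y)) (y 0) * I (j.removeNth (Fin.tail y)) (y 0)
    else 1 with hu
  refine ⟨u, ⟨fun k y => ?_, fun k y a => ?_⟩, ?_⟩
  · simp only [hu]
    split_ifs
    · rw [norm_mul]; exact mul_le_one₀ (h1 _ _) (norm_nonneg _) (hI1 _ _)
    · rw [norm_mul]; exact mul_le_one₀ (h2 _ _) (norm_nonneg _) (hI1 _ _)
    · simp
  · simp only [hu]
    split_ifs with c1 c2
    · subst c1; rw [Fin.tail_update_zero, update_of_ne (Fin.succ_ne_zero j)]
    · subst c2; rw [Fin.tail_update_succ, Fin.removeNth_update, update_of_ne (Fin.succ_ne_zero j).symm]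
    · rfl
  · have e2 : 𝔼 y : Fin (d + 2) → ZMod N, (∏ k, u k y) *
        e (top Θ (vl y) - top Θ (vl y ∘ Equiv.swap 0 j.succ)) = 𝔼 p, 𝔼 a, 𝔼 b, w p a * w' p b *
          (I p b * e (-(Θ (vl (j.insertNth b p)) * a.val)) *
            conj (I p a * e (-(Θ (vl (j.insertNth a p)) * b.val)))) := by
      rw [expect_cons, expect_comm, expect_ins j]
      refine expect_congr rfl fun p _ => expect_congr rfl fun a _ => expect_congr rfl fun b _ => ?_
      have e3 : vl (Fin.cons b (j.insertNth a p) : Fin (d + 2) → ZMod N) ∘ Equiv.swap 0 j.succ =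
          vl (Fin.cons a (j.insertNth b p) : Fin (d + 2) → ZMod N) := by
        rw [← Cr.cons_swap j a b p]; rfl
      rw [e3, top_cons, top_cons, prod_eq_mul 0 j.succ (Fin.succ_ne_zero j).symm
        (fun k _ hk => by simp only [hu, if_neg hk.1, if_neg hk.2]) (by simp) (by simp),
        map_mul, hI2, conj_e, neg_neg, sub_eq_add_neg, e_add]
      simp only [hu, if_true, if_neg (Fin.succ_ne_zero j), Fin.tail_cons, Fin.cons_succ,
        Fin.cons_zero, Fin.removeNth_insertNth, Fin.insertNth_apply_same]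
      ring
    rw [e2]
    calc (1 : ℝ) ≤ (2 ^ L * _) ^ 2 := one_le_pow₀ h4
      _ ≤ _ := by
        rw [mul_pow, ← pow_mul, mul_comm L]
        exact mul_le_mul_of_nonneg_left h3 (by positivity)

end Crest.Agent.N49.Iv
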