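import Crest.Agent.N49.Iv.St

/-!
# Row 49 (helper10): the diagonal of a typed form, `diag : DIAG ι`
-/

set_option autoImplicit false
set_option linter.unusedSectionVars false
open Finset Function
open scoped BigOperators

namespace Crest.Agent.N49.Iv

namespace Dia

theorem e_add (a b : ℝ) : e (a + b) = e a * e b := by
  unfold e; rw [← Complex.exp_add]; congr 1; push_cast; ring

theorem e_zero : e 0 = 1 := by simp [e]

theorem e_norm (a : ℝ) : ‖e a‖ = 1 := by
  have : (2 * Real.pi * a * Complex.I : ℂ) = ((2 * Real.pi * a : ℝ) : ℂ) * Complex.I := by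
    push_cast; ring
  unfold e; rw [this, Complex.norm_exp_ofReal_mul_I]

theorem e_nat (t : ℕ) (a : ℝ) : e (t * a) = e a ^ t := by
  unfold e; rw [← Complex.exp_nat_mul]; congr 1; push_cast; ring

theorem e_int (z : ℤ) : e z = 1 := by
  unfold e
  have := Complex.exp_int_mul_two_pi_mul_I z
  rw [← this]; congr 1; push_cast; ring

/-- orthogonality of characters modulo `M` -/
theorem orth (M : ℕ) (z : ℤ) (hz : |z| < M) :
    ∑ t : Fin M, e ((t : ℕ) * ((z : ℝ) / M)) = if z = 0 then (M : ℂ) else 0 := by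
  have hM : (0 : ℝ) < M := by
    have : (0 : ℤ) < M := lt_of_le_of_lt (abs_nonneg z) hz
    exact_mod_cast this
  split_ifs with h
  · simp [h, e_zero]
  · simp_rw [e_nat]
    rw [Fin.sum_univ_eq_sum_range (fun t => e ((z : ℝ) / M) ^ t) M]
    have h1 : e ((z : ℝ) / M) ≠ 1 := by
      intro h1
      unfold e at h1
      obtain ⟨k, hk⟩ := Complex.exp_eq_one_iff.1 h1
      have h2 : ((z : ℝ) / M : ℝ) = k := by
        have h3 : (((z : ℝ) / M : ℝ) : ℂ) = k := by
          have hp : (2 * Real.pi * Complex.I : ℂ) ≠ 0 := Complex.two_pi_I_ne_zero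
          apply mul_right_cancel₀ hp
          rw [← hk]; ring
        exact_mod_cast h3
      have h4 : z = k * M := by
        have : (z : ℝ) = k * M := by rw [← h2]; field_simp
        exact_mod_cast this
      have hk0 : k ≠ 0 := by rintro rfl; exact h (by simpa using h4)
      have : (1 : ℤ) ≤ |k| := Int.one_le_abs hk0
      rw [h4, abs_mul, abs_of_nonneg (by positivity : (0 : ℤ) ≤ (M : ℤ))] at hz
      nlinarith [Int.natCast_nonneg M]
    rw [geom_sum_eq h1, ← e_nat]
    have : (M : ℝ) * ((z : ℝ) / M) = z := by field_simp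
    rw [this, e_int]; simp

section neg
variable {ι α : Type} [Fintype ι] [DecidableEq ι]

theorem nmono {K K' : ℝ} {F : (ι → α) → ℂ} (h : Neg K F) (hK : K ≤ K') : Neg K' F :=
  let ⟨J, i, c, u, h1, h2, h3⟩ := h; ⟨J, i, c, u, h1.trans hK, h2, h3⟩

theorem none' : Neg 1 (fun _ : ι → α => (1 : ℂ)) :=
  ⟨Unit, inferInstance, fun _ => 1, fun _ _ _ => 1, by simp, fun _ => ⟨by simp, by simp⟩, by simp⟩

theorem nzero : Neg 0 (fun _ : ι → α => (0 : ℂ)) :=
  ⟨Empty, inferInstance, fun _ => 1, fun _ _ _ => 1, by simp, fun _ => ⟨by simp, by simp⟩, by simp⟩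

theorem nmul {K K' : ℝ} {F G : (ι → α) → ℂ} (h : Neg K F) (h' : Neg K' G) :
    Neg (K * K') fun x => F x * G x := by
  obtain ⟨J, i, c, u, h1, h2, h3⟩ := h
  obtain ⟨J', i', c', u', h1', h2', h3'⟩ := h'
  refine ⟨J × J', inferInstance, fun j => c j.1 * c' j.2, fun j k x => u j.1 k x * u' j.2 k x, ?_,
    fun j => ⟨fun k x => ?_, fun k x a => ?_⟩, fun x => ?_⟩
  · simp_rw [norm_mul]
    rw [Fintype.sum_prod_type]
    dsimp only
    rw [← Finset.sum_mul_sum]
    exact mul_le_mul h1 h1' (sum_nonneg fun _ _ => norm_nonneg _)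
      ((sum_nonneg fun _ _ => norm_nonneg _).trans h1)
  · rw [norm_mul]
    exact mul_le_one₀ ((h2 _).1 _ _) (norm_nonneg _) ((h2' _).1 _ _)
  · simp only [(h2 _).2, (h2' _).2]
  · dsimp only
    rw [h3, h3', Fintype.sum_prod_type, Finset.sum_mul_sum]
    refine sum_congr rfl fun j _ => sum_congr rfl fun j' _ => ?_
    rw [prod_mul_distrib]; ring

theorem nadd {K K' : ℝ} {F G : (ι → α) → ℂ} (h : Neg K F) (h' : Neg K' G) :
    Neg (K + K') fun x => F x + G x := by
  obtain ⟨J, i, c, u, h1, h2, h3⟩ := h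
  obtain ⟨J', i', c', u', h1', h2', h3'⟩ := h'
  refine ⟨J ⊕ J', inferInstance, Sum.elim c c', Sum.elim u u', ?_, fun j => ?_, fun x => ?_⟩
  · rw [Fintype.sum_sum_type]; exact add_le_add h1 h1'
  · cases j with
    | inl j => exact h2 j
    | inr j => exact h2' j
  · dsimp only
    rw [h3, h3', Fintype.sum_sum_type]; rfl

theorem nsum {β : Type} (s : Finset β) (F : β → (ι → α) → ℂ) (h : ∀ b, Neg 1 (F b)) :
    Neg (#s : ℝ) fun x => ∑ b ∈ s, F b x := by
  classical
  induction s using Finset.induction_on with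
  | empty => simpa using nzero
  | insert b s hb ih =>
    simp_rw [sum_insert hb, card_insert_of_notMem hb]
    have := nadd (h b) ih
    refine nmono this (le_of_eq ?_)
    push_cast; ring

theorem nind (i : ι) (g : (ι → α) → ℂ) (h1 : ∀ x, ‖g x‖ ≤ 1)
    (h2 : ∀ x a, g (update x i a) = g x) : Neg 1 g := by
  refine ⟨Unit, inferInstance, fun _ => 1, fun _ k x => if k = i then g x else 1, by simp,
    fun _ => ⟨fun k x => ?_, fun k x a => ?_⟩, fun x => by simp⟩
  · by_cases hk : k = i <;> simp [hk, h1]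
  · by_cases hk : k = i
    · subst hk; simp [h2]
    · simp [hk]

theorem nsmul {F : (ι → α) → ℂ} (h : Neg 1 F) (a : ℂ) (ha : ‖a‖ ≤ 1) :
    Neg 1 fun x => a * F x := by
  obtain ⟨J, i, c, u, h1, h2, h3⟩ := h
  refine ⟨J, i, fun j => a * c j, u, ?_, h2, fun x => ?_⟩
  · simp_rw [norm_mul]
    rw [← mul_sum]
    exact mul_le_one₀ ha (sum_nonneg fun _ _ => norm_nonneg _) h1
  · dsimp only
    rw [h3, mul_sum]; simp_rw [mul_assoc]

end neg

section ty
variable {ι : Type} [DecidableEq ι]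

/-- `g` depends on the letters in `U` only -/
def Dp (U : Finset ι) (g : (ι → ℝ) → ℝ) : Prop := ∀ x y, (∀ i ∈ U, x i = y i) → g x = g y

theorem dep {r : ℕ} {S : Finset ι} {n : ℕ} {F : (ι → ℝ) → ℝ} (h : Ty r S n F) : Dp S F := by
  induction h with
  | const c => intro _ _ _; rfl
  | var i => intro x y h; exact h i (mem_singleton_self i)
  | add _ _ ih1 ih2 => intro x y h; simp only [ih1 x y h, ih2 x y h]
  | mul _ _ _ ih1 ih2 =>
    intro x y h
    simp only [ih1 x y fun i hi => h i (mem_union_left _ hi),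
      ih2 x y fun i hi => h i (mem_union_right _ hi)]
  | rnd _ _ ih => intro x y h; simp only [ih x y h]
  | mono h1 _ _ ih => intro x y h; exact ih x y fun i hi => h i (h1 hi)

theorem dg {r : ℕ} {S : Finset ι} {n : ℕ} {F : (ι → ℝ) → ℝ} (h : Ty r S n F) :
    Dg #S n fun t => F fun _ => t := by
  induction h with
  | const c => exact Dg.const c
  | var i => exact Dg.var
  | add _ _ ih1 ih2 => exact ih1.add ih2
  | mul h _ _ ih1 ih2 => rw [card_union_of_disjoint h]; exact ih1.mul ih2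
  | rnd _ _ ih => exact ih.rnd
  | mono h1 h2 _ ih => exact ih.mono (card_le_card h1) h2

/-- sums of functions on fewer than `k` letters -/
inductive Low (k : ℕ) : ((ι → ℝ) → ℝ) → Prop
  | zero : Low k fun _ => 0
  | dp (U : Finset ι) (g : (ι → ℝ) → ℝ) : #U < k → Dp U g → Low k g
  | add {g g' : (ι → ℝ) → ℝ} : Low k g → Low k g' → Low k fun x => g x + g' x

theorem Low.mono {k k' : ℕ} {g : (ι → ℝ) → ℝ} (h : Low k g) (hk : k ≤ k') : Low k' g := by
  induction h with
  | zero => exact .zero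
  | dp U g h1 h2 => exact .dp U g (h1.trans_le hk) h2
  | add _ _ ih1 ih2 => exact ih1.add ih2

theorem Low.congr {k : ℕ} {g g' : (ι → ℝ) → ℝ} (h : Low k g) (he : ∀ x, g' x = g x) :
    Low k g' := by rw [show g' = g from funext he]; exact h

theorem Low.neg {k : ℕ} {g : (ι → ℝ) → ℝ} (h : Low k g) : Low k fun x => -g x := by
  induction h with
  | zero => exact Low.zero.congr fun _ => by simp
  | dp U g h1 h2 => exact .dp U _ h1 fun x y h => by simp only [h2 x y h]
  | add _ _ ih1 ih2 => exact (ih1.add ih2).congr fun _ => by ring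

theorem Low.sum {k : ℕ} {β : Type} (s : Finset β) (g : β → (ι → ℝ) → ℝ)
    (h : ∀ b ∈ s, Low k (g b)) : Low k fun x => ∑ b ∈ s, g b x := by
  classical
  induction s using Finset.induction_on with
  | empty => exact Low.zero.congr fun _ => by simp
  | insert b s hb ih =>
    exact ((h b (mem_insert_self _ _)).add (ih fun c hc => h c (mem_insert_of_mem hc))).congr
      fun _ => sum_insert hb

theorem Low.mul {k k' l : ℕ} {g g' : (ι → ℝ) → ℝ} (h : Low k g) (h' : Low k' g')
    (hl : k + k' ≤ l + 1) : Low l fun x => g x * g' x := by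
  induction h with
  | zero => exact Low.zero.congr fun _ => by simp
  | dp U g h1 h2 =>
    induction h' with
    | zero => exact Low.zero.congr fun _ => by simp
    | dp U' g' h1' h2' =>
      refine .dp (U ∪ U') _ ?_ fun x y h => ?_
      · have := card_union_le U U'
        omega
      · simp only [h2 x y fun i hi => h i (mem_union_left _ hi),
          h2' x y fun i hi => h i (mem_union_right _ hi)]
    | add _ _ ih1 ih2 => exact (ih1.add ih2).congr fun _ => by ring
  | add _ _ ih1 ih2 => exact (ih1.add ih2).congr fun _ => by ring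

variable [Fintype ι]

theorem Low.nf {k : ℕ} {G : (ι → ℝ) → ℝ} (h : Low k G) :
    ∃ g : Finset ι → (ι → ℝ) → ℝ, (∀ U, Dp U (g U)) ∧ (∀ U, k ≤ #U → ∀ x, g U x = 0) ∧
      ∀ x, G x = ∑ U, g U x := by
  induction h with
  | zero => exact ⟨fun _ _ => 0, fun _ _ _ _ => rfl, fun _ _ _ => rfl, by simp⟩
  | dp U g h1 h2 =>
    refine ⟨fun W x => if W = U then g x else 0, fun W x y h => ?_, fun W hW x => ?_, by simp⟩
    · by_cases hW : W = U
      · subst hW; simp [h2 x y h]
      · simp [hW]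
    · have : W ≠ U := by rintro rfl; omega
      simp [this]
  | add _ _ ih1 ih2 =>
    obtain ⟨g, a1, a2, a3⟩ := ih1
    obtain ⟨g', b1, b2, b3⟩ := ih2
    exact ⟨fun U x => g U x + g' U x, fun U x y h => by simp only [a1 U x y h, b1 U x y h],
      fun U hU x => by simp [a2 U hU, b2 U hU], fun x => by simp only [a3, b3, sum_add_distrib]⟩

theorem Low.round {k : ℕ} {G : (ι → ℝ) → ℝ} (h : Low k G) :
    ∃ R : (ι → ℝ) → ℤ, Low k (fun x => (R x : ℝ)) ∧
      ∀ x, |G x - R x| ≤ Fintype.card (Finset ι) := by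
  obtain ⟨g, a1, a2, a3⟩ := h.nf
  refine ⟨fun x => ∑ U, _root_.round (g U x), ?_, fun x => ?_⟩
  · refine (Low.sum univ (fun U x => (_root_.round (g U x) : ℝ)) fun U _ => ?_).congr
      fun _ => by push_cast; rfl
    by_cases hU : #U < k
    · exact .dp U _ hU fun x y h => by simp only [a1 U x y h]
    · exact Low.zero.congr fun x => by simp [a2 U (not_lt.1 hU) x]
  · rw [a3]; push_cast
    rw [← sum_sub_distrib]
    refine (abs_sum_le_sum_abs _ _).trans ?_
    refine (sum_le_card_nsmul _ _ 1 fun U _ => (abs_sub_round _).trans (by norm_num)).trans ?_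
    simp

theorem Low.ne {k : ℕ} {G : (ι → ℝ) → ℝ} (h : Low k G) (hk : k ≤ Fintype.card ι) :
    Neg 1 fun x => e (G x) := by
  induction h with
  | zero => simpa [e_zero] using none'
  | dp U g h1 h2 =>
    obtain ⟨i, -, hi⟩ := exists_mem_notMem_of_card_lt_card (s := U) (t := univ)
      (by rw [card_univ]; omega)
    refine nind i _ (fun x => (e_norm _).le) fun x a => ?_
    rw [h2 (update x i a) x fun j hj => update_of_ne (by rintro rfl; exact hi hj) _ _]
  | add _ _ ih1 ih2 => simpa [e_add] using nmul ih1 ih2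

/-- substitutions that fix the letters outside `S` -/
def Om (S : Finset ι) : Finset (ι → ι) := univ.filter fun τ => ∀ i, i ∉ S → τ i = i

/-- the polarised sum -/
noncomputable def A (S : Finset ι) (F : (ι → ℝ) → ℝ) (h : ι → ℝ) : ℝ := ∑ τ ∈ Om S, F (h ∘ τ)

theorem dp_comp {S : Finset ι} {F : (ι → ℝ) → ℝ} (hF : Dp S F) (τ : ι → ι) :
    Dp (S.image τ) fun h => F (h ∘ τ) :=
  fun _ _ h => hF _ _ fun _ hi => h _ (mem_image_of_mem τ hi)

theorem low_A {S : Finset ι} (T : Finset ι) {F : (ι → ℝ) → ℝ} (hF : Dp S F) :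
    Low (#S + 1) (A T F) :=
  Low.sum _ _ fun τ _ => .dp _ _ (Nat.lt_succ_of_le card_image_le) (dp_comp hF τ)

theorem A_empty (F : (ι → ℝ) → ℝ) (h : ι → ℝ) : A ∅ F h = F h := by
  have : Om (∅ : Finset ι) = {id} := by
    ext τ; simp [Om, funext_iff]
  simp [A, this]

theorem A_var (i : ι) (h : ι → ℝ) : A {i} (fun x => x i) h = ∑ a, h a := by
  unfold A
  refine sum_nbij' (fun τ => τ i) (fun a => update id i a) (by simp) ?_ ?_ (by simp) (by simp)
  · intro a _
    simp only [Om, mem_filter, mem_univ, true_and, mem_singleton]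
    intro j hj; simp [update_of_ne hj]
  · intro τ hτ
    simp only [Om, mem_filter, mem_univ, true_and, mem_singleton] at hτ
    funext j
    by_cases hj : j = i
    · subst hj; simp
    · simp [update_of_ne hj, hτ j hj]

theorem A_mul {S T : Finset ι} (hd : Disjoint S T) {F G : (ι → ℝ) → ℝ} (hF : Dp S F)
    (hG : Dp T G) (h : ι → ℝ) : A (S ∪ T) (fun x => F x * G x) h = A S F h * A T G h := by
  unfold A
  rw [sum_mul_sum, ← sum_product']
  refine sum_nbij' (fun τ => (S.piecewise τ id, T.piecewise τ id)) (fun p => S.piecewise p.1 p.2)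
    ?_ ?_ ?_ ?_ ?_
  · intro τ _
    simp only [Om, mem_product, mem_filter, mem_univ, true_and]
    exact ⟨fun i hi => by simp [piecewise, hi], fun i hi => by simp [piecewise, hi]⟩
  · intro p hp
    simp only [Om, mem_product, mem_filter, mem_univ, true_and, mem_union, not_or] at hp ⊢
    intro i hi
    simp [piecewise, hi.1, hp.2 i hi.2]
  · intro τ hτ
    simp only [Om, mem_filter, mem_univ, true_and, mem_union, not_or] at hτ
    funext i
    by_cases h1 : i ∈ S
    · simp [piecewise, h1]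
    · by_cases h2 : i ∈ T
      · simp [piecewise, h1, h2]
      · simp [piecewise, h1, h2, hτ i ⟨h1, h2⟩]
  · intro p hp
    simp only [Om, mem_product, mem_filter, mem_univ, true_and] at hp
    refine Prod.ext (funext fun i => ?_) (funext fun i => ?_)
    · by_cases h1 : i ∈ S
      · simp [piecewise, h1]
      · simp [piecewise, h1, hp.1 i h1]
    · by_cases h2 : i ∈ T
      · have h1 : i ∉ S := fun h1 => disjoint_left.1 hd h1 h2
        simp [piecewise, h1, h2]
      · simp [piecewise, h2, hp.2 i h2]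
  · intro τ _
    dsimp only
    rw [hF (h ∘ τ) (h ∘ S.piecewise τ id) fun i hi => by simp [piecewise, hi],
      hG (h ∘ τ) (h ∘ T.piecewise τ id) fun i hi => by simp [piecewise, hi]]

theorem A_round (S : Finset ι) (F : (ι → ℝ) → ℝ) (h : ι → ℝ) :
    |A S F h - A S (fun x => (round (F x) : ℝ)) h| ≤ Fintype.card (ι → ι) := by
  unfold A
  rw [← sum_sub_distrib]
  refine (abs_sum_le_sum_abs _ _).trans ?_
  refine (sum_le_card_nsmul _ _ 1 fun U _ => (abs_sub_round _).trans (by norm_num)).trans ?_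
  rw [nsmul_eq_mul, mul_one]
  exact_mod_cast card_le_univ _

open Classical in
/-- indicator of equality -/
noncomputable def ind {J : Type} (a b : J) : ℂ := if a = b then 1 else 0

theorem ind_prod {J J' : Type} (a b : J) (a' b' : J') :
    ind (a, a') (b, b') = ind a b * ind a' b' := by
  unfold ind
  by_cases h : a = b <;> by_cases h' : a' = b' <;> simp [h, h']

theorem sum_ind {J : Type} [Fintype J] (a : J) (f : J → ℂ) : ∑ b, ind a b * f b = f a := by
  classical
  rw [sum_eq_single a (fun b _ hb => by simp [ind, hb.symm]) (by simp)]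
  simp [ind]

/-- the invariant -/
def Inv (M r : ℕ) (S : Finset ι) (n : ℕ) (F : (ι → ℝ) → ℝ) : Prop :=
  ∃ (J : Type) (_ : Fintype J) (Q : J → ℝ → ℝ), Fintype.card J ≤ M ^ n ∧
    (∀ j, Dg r (n * n) (Q j)) ∧ ∀ x : ℝ, ∃ (p : (ι → ℝ) → J) (G : J → (ι → ℝ) → ℝ)
      (w : J → J → (ι → ℝ) → ℂ), (∀ π, Low #S (G π)) ∧ (∀ π j, Neg 1 (w π j)) ∧
      ∀ h : ι → ℝ, F (fun _ => x + ∑ i, h i) = A S F h + G (p h) h ∧
        ∀ π, ind (p h) π = ∑ j, e (Q j (x + ∑ i, h i)) * w π j h

theorem Inv.of_low {M r : ℕ} (hM : 1 ≤ M) {S : Finset ι} (n : ℕ) {F : (ι → ℝ) → ℝ}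
    (h : ∀ x : ℝ, Low #S fun h : ι → ℝ => F (fun _ => x + ∑ i, h i) - A S F h) :
    Inv M r S n F :=
  ⟨Unit, inferInstance, fun _ _ => 0, by simpa using Nat.one_le_pow _ _ hM,
    fun _ => (Dg.const 0).mono (Nat.zero_le _) (Nat.zero_le _), fun x =>
    ⟨fun _ => (), fun _ h => F (fun _ => x + ∑ i, h i) - A S F h, fun _ _ _ => 1, fun _ => h x,
      fun _ _ => none', fun h => ⟨by ring, fun _ => by simp [ind, e_zero]⟩⟩⟩

theorem Inv.two {M r : ℕ} {S T U : Finset ι} {n m : ℕ} {F G H : (ι → ℝ) → ℝ}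
    (h1 : Inv M r S n F) (h2 : Inv M r T m G)
    (hc : ∀ G1 G2, Low #S G1 → Low #T G2 → ∃ G3, Low #U G3 ∧ ∀ (L : ℝ) (h : ι → ℝ),
      F (fun _ => L) = A S F h + G1 h → G (fun _ => L) = A T G h + G2 h →
        H (fun _ => L) = A U H h + G3 h) : Inv M r U (n + m) H := by
  obtain ⟨J, i, Q, c1, d1, h1⟩ := h1
  obtain ⟨J', i', Q', c2, d2, h2⟩ := h2
  choose! G3 l3 e3 using hc
  refine ⟨J × J', inferInstance, fun j t => Q j.1 t + Q' j.2 t, ?_, fun j => ?_, fun x => ?_⟩
  · rw [Fintype.card_prod, pow_add]; exact Nat.mul_le_mul c1 c2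
  · exact ((d1 j.1).add (d2 j.2)).mono le_rfl (by nlinarith)
  · obtain ⟨p, G1, w, a1, a2, a3⟩ := h1 x
    obtain ⟨p', G2, w', b1, b2, b3⟩ := h2 x
    refine ⟨fun h => (p h, p' h), fun π => G3 (G1 π.1) (G2 π.2),
      fun π j h => w π.1 j.1 h * w' π.2 j.2 h, fun π => l3 _ _ (a1 _) (b1 _),
      fun π j => by simpa using nmul (a2 π.1 j.1) (b2 π.2 j.2), fun h =>
      ⟨e3 _ _ (a1 _) (b1 _) _ h (a3 h).1 (b3 h).1, fun π => ?_⟩⟩
    obtain ⟨π, π'⟩ := π
    rw [ind_prod, (a3 h).2, (b3 h).2, Fintype.sum_prod_type, sum_mul_sum]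
    refine sum_congr rfl fun j _ => sum_congr rfl fun j' _ => ?_
    rw [e_add]; ring

theorem Inv.rnd {B r : ℕ} (hB : Fintype.card (ι → ι) + Fintype.card (Finset ι) + 1 ≤ B)
    (hr : r < Fintype.card ι) {S : Finset ι} {n : ℕ} {F : (ι → ℝ) → ℝ} (hS : #S ≤ r)
    (hT : Ty r S n F) (h1 : Inv (2 * B + 1) r S n F) :
    Inv (2 * B + 1) r S (n + 1) fun x => (round (F x) : ℝ) := by
  have hF := dep hT
  have hF' : Dp S fun x => (round (F x) : ℝ) := fun x y h => by simp only [hF x y h]
  rcases S.eq_empty_or_nonempty with rfl | hne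
  · refine Inv.of_low (by omega) _ fun x => Low.zero.congr fun h => ?_
    rw [A_empty, hF _ h (by simp), sub_self]
  have hpos : 0 < #S := hne.card_pos
  obtain ⟨J, i, Q, c1, d1, h1⟩ := h1
  set M := 2 * B + 1 with hM
  have hM0 : (0 : ℝ) < M := by positivity
  refine ⟨J × Fin M, inferInstance,
    fun j t => Q j.1 t + ((j.2 : ℕ) / (M : ℝ)) * (round (F fun _ => t) : ℝ), ?_, fun j => ?_,
    fun x => ?_⟩
  · rw [Fintype.card_prod, Fintype.card_fin, pow_succ]; exact Nat.mul_le_mul_right _ c1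
  · have := (Dg.const (((j.2 : ℕ) : ℝ) / (M : ℝ))).mul (dg hT).rnd
    exact ((d1 j.1).add (this.mono (by omega) le_rfl)).mono le_rfl (by nlinarith)
  obtain ⟨p, G, w, a1, a2, a3⟩ := h1 x
  choose R r1 r2 using fun π => (a1 π).round
  -- the integer main term
  set Z : (ι → ℝ) → ℤ := fun h => ∑ τ ∈ Om S, round (F (h ∘ τ)) with hZ
  have hZA : ∀ h, (Z h : ℝ) = A S (fun x => (round (F x) : ℝ)) h := fun h => by
    simp [hZ, A]
  set ε : J → (ι → ℝ) → ℤ := fun π h => round (F fun _ => x + ∑ i, h i) - Z h - R π h with hε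
  have hb : ∀ h, |ε (p h) h| ≤ B := fun h => by
    have k1 := abs_sub_round (F fun _ => x + ∑ i, h i)
    have k2 := A_round S F h
    have k3 := r2 (p h) h
    have k4 := (a3 h).1
    have k5 : ((Fintype.card (ι → ι) : ℝ) + Fintype.card (Finset ι) + 1) ≤ B := by
      exact_mod_cast hB
    have : |(ε (p h) h : ℝ)| ≤ B := by
      simp only [hε]; push_cast; rw [hZA]
      rw [abs_le] at k1 k2 k3 ⊢
      constructor <;> linarith [k1.1, k1.2, k2.1, k2.2, k3.1, k3.2]
    exact_mod_cast this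
  have hk : ∀ h, (ε (p h) h + B).toNat < M := fun h => by
    have := abs_le.1 (hb h); omega
  refine ⟨fun h => (p h, ⟨_, hk h⟩), fun π h => R π.1 h + (((π.2 : ℕ) : ℝ) - B),
    fun π j h => ((M : ℂ)⁻¹ * w π.1 j.1 h) * e (-((j.2 : ℕ) / (M : ℝ)) *
      (A S (fun x => (round (F x) : ℝ)) h + (R π.1 h + (((π.2 : ℕ) : ℝ) - B)))),
    fun π => (r1 π.1).add (.dp ∅ _ (by simpa using hpos) fun _ _ _ => rfl), fun π j => ?_,
    fun h => ⟨?_, fun π => ?_⟩⟩
  · have l1 : Low (#S + 1) fun h => A S (fun x => (round (F x) : ℝ)) h +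
        (R π.1 h + (((π.2 : ℕ) : ℝ) - B)) :=
      (low_A S hF').add (((r1 π.1).mono (Nat.le_succ _)).add
        (.dp ∅ _ (by simp) fun _ _ _ => rfl))
    have l2 : Low 1 fun _ : ι → ℝ => -(((j.2 : ℕ) : ℝ) / (M : ℝ)) :=
      .dp ∅ _ (by simp) fun _ _ _ => rfl
    have l3 := (l2.mul l1 (l := #S + 1) (by omega)).ne (by omega)
    have l4 : ‖(M : ℂ)⁻¹‖ ≤ 1 := by
      rw [norm_inv, Complex.norm_natCast]
      exact inv_le_one_of_one_le₀ (by exact_mod_cast (by omega : 1 ≤ M))
    simpa using nmul (nsmul (a2 π.1 j.1) _ l4) l3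
  · have := abs_le.1 (hb h)
    have h0 : (((ε (p h) h + B).toNat : ℕ) : ℝ) = (ε (p h) h : ℝ) + B := by
      have : (((ε (p h) h + B).toNat : ℕ) : ℤ) = ε (p h) h + B := Int.toNat_of_nonneg (by omega)
      exact_mod_cast this
    simp only [h0]
    simp only [hε]; push_cast; rw [hZA]; ring
  · obtain ⟨π, k⟩ := π
    rw [ind_prod, Fintype.sum_prod_type]
    have key : ∀ (j : J) (t : Fin M),
        e (Q j (x + ∑ i, h i) + ((t : ℕ) / (M : ℝ)) * (round (F fun _ => x + ∑ i, h i) : ℝ)) *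
          (((M : ℂ)⁻¹ * w π j h) * e (-((t : ℕ) / (M : ℝ)) *
            (A S (fun x => (round (F x) : ℝ)) h + (R π h + (((k : ℕ) : ℝ) - B))))) =
        (e (Q j (x + ∑ i, h i)) * w π j h) *
          ((M : ℂ)⁻¹ * e ((t : ℕ) * (((ε π h + B - (k : ℕ) : ℤ) : ℝ) / M))) := fun j t => by
      have : ((t : ℕ) : ℝ) * (((ε π h + B - (k : ℕ) : ℤ) : ℝ) / M) =
          ((t : ℕ) / (M : ℝ)) * (round (F fun _ => x + ∑ i, h i) : ℝ) + -((t : ℕ) / (M : ℝ)) *
            (A S (fun x => (round (F x) : ℝ)) h + (R π h + (((k : ℕ) : ℝ) - B))) := by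
        simp only [hε]; push_cast; rw [hZA]; ring
      rw [this, e_add, e_add]; ring
    simp only [key]
    simp_rw [← mul_sum]
    rw [← sum_mul, ← (a3 h).2]
    by_cases hp : p h = π
    · subst hp
      congr 1
      have := abs_le.1 (hb h)
      have hk2 := k.2
      rw [orth M _ (by rw [abs_lt]; constructor <;> omega)]
      have hMc : (M : ℂ) ≠ 0 := by exact_mod_cast (by omega : M ≠ 0)
      unfold ind
      by_cases hz : ε (p h) h + B - (k : ℕ) = 0
      · rw [if_pos hz, if_pos (Fin.ext (by simp only; omega)), inv_mul_cancel₀ hMc]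
      · rw [if_neg hz, if_neg fun hh => hz (by have := congrArg Fin.val hh; simp only at this; omega),
          mul_zero]
    · simp [ind, hp]

theorem inv {B r : ℕ} (hB : Fintype.card (ι → ι) + Fintype.card (Finset ι) + 1 ≤ B)
    (hr : r < Fintype.card ι) {S : Finset ι} {n : ℕ} {F : (ι → ℝ) → ℝ} (h : Ty r S n F) :
    Inv (2 * B + 1) r S n F := by
  induction h with
  | const c =>
    exact Inv.of_low (by omega) _ fun x => Low.zero.congr fun h => by rw [A_empty, sub_self]
  | var i =>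
    refine Inv.of_low (by omega) _ fun x =>
      (Low.dp ∅ (fun _ => x) (by simp) fun _ _ _ => rfl).congr fun h => ?_
    rw [A_var]; ring
  | add _ _ ih1 ih2 =>
    refine ih1.two ih2 fun G1 G2 l1 l2 => ⟨_, l1.add l2, fun L h e1 e2 => ?_⟩
    rw [e1, e2]; simp only [A, sum_add_distrib]; ring
  | @mul S T n m F G hd t1 t2 ih1 ih2 =>
    refine ih1.two ih2 fun G1 G2 l1 l2 => ⟨fun h => A S F h * G2 h + G1 h * A T G h + G1 h * G2 h,
      ?_, fun L h e1 e2 => ?_⟩
    · rw [card_union_of_disjoint hd]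
      exact (((low_A S (dep t1)).mul l2 (by omega)).add
        (l1.mul (low_A T (dep t2)) (by omega))).add (l1.mul l2 (by omega))
    · rw [e1, e2, A_mul hd (dep t1) (dep t2)]; ring
  | rnd hS t ih => exact ih.rnd hB hr hS t
  | @mono S T n m F hST hnm t ih =>
    have h0 : Inv (2 * B + 1) r (∅ : Finset ι) (m - n) fun _ => 0 :=
      Inv.of_low (by omega) _ fun x => Low.zero.congr fun h => by rw [A_empty, sub_self]
    rw [show m = n + (m - n) by omega]
    refine ih.two h0 fun G1 G2 l1 _ => ?_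
    rcases hST.eq_or_ssubset with rfl | hlt
    · exact ⟨G1, l1, fun L h e1 _ => e1⟩
    · have := card_lt_card hlt
      refine ⟨fun h => G1 h + (A S F h + -A T F h), (l1.mono this.le).add
        (((low_A S (dep t)).add (low_A T (dep t)).neg).mono this), fun L h e1 _ => ?_⟩
      rw [e1]; ring

theorem A_univ (F : (ι → ℝ) → ℝ) : ∃ G, Low (Fintype.card ι) G ∧
    ∀ h, A univ F h = ∑ σ : Equiv.Perm ι, F (h ∘ σ) + G h := by
  classical
  refine ⟨fun h => ∑ τ ∈ univ.filter fun τ : ι → ι => ¬ Bijective τ, F (h ∘ τ),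
    Low.sum _ _ fun τ hτ => .dp (univ.image τ) _ ?_
      (dp_comp (S := univ) (fun x y h => by rw [funext fun i => h i (mem_univ i)]) τ), fun h => ?_⟩
  · rw [mem_filter] at hτ
    refine lt_of_le_of_ne (card_le_univ _) fun hc => hτ.2 ?_
    have hu := eq_univ_of_card _ hc
    have hs : Surjective τ := fun b => by
      have : b ∈ univ.image τ := by rw [hu]; exact mem_univ b
      simpa using this
    exact Finite.surjective_iff_bijective.1 hs
  · have : Om (univ : Finset ι) = univ := by ext τ; simp [Om]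
    unfold A
    rw [this, ← sum_filter_add_sum_filter_not univ (fun τ : ι → ι => Bijective τ)]
    congr 1
    symm
    refine sum_bij (fun σ _ => (σ : ι → ι)) (fun σ _ => mem_filter.2 ⟨mem_univ _, σ.bijective⟩)
      (fun _ _ _ _ h => DFunLike.coe_injective h)
      (fun τ hτ => ⟨Equiv.ofBijective τ (mem_filter.1 hτ).2, mem_univ _, rfl⟩) fun _ _ => rfl

end ty

end Dia

open Dia in
/-- the diagonal of a typed form along `x + ∑ h` -/
theorem diag (ι : Type) [Fintype ι] [DecidableEq ι] : DIAG ι := by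
  refine ⟨2 * (Fintype.card (ι → ι) + Fintype.card (Finset ι) + 1) + 1, fun r n F hr hF => ?_⟩
  obtain ⟨J, i, Q, c1, d1, h1⟩ := inv le_rfl hr hF
  obtain ⟨G0, l0, e0⟩ := A_univ F
  refine ⟨J, i, Q, c1, d1, fun x => ?_⟩
  obtain ⟨p, G, w, a1, a2, a3⟩ := h1 x
  refine ⟨fun j h => ∑ π, w π j h * e (G0 h + G π h), fun j => ?_, fun h => ?_⟩
  · refine nmono (nsum univ (fun π h => w π j h * e (G0 h + G π h)) fun π => ?_) ?_
    · simpa using nmul (a2 π j) ((l0.add (a1 π)).ne le_rfl)
    · rw [card_univ]; exact_mod_cast c1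
  · rw [(a3 h).1, e0]
    have : ∑ σ : Equiv.Perm ι, F (h ∘ σ) + G0 h + G (p h) h - ∑ σ : Equiv.Perm ι, F (h ∘ σ) =
        G0 h + G (p h) h := by ring
    rw [this, ← sum_ind (p h) fun π => e (G0 h + G π h)]
    simp_rw [(a3 h).2, sum_mul, mul_sum]
    rw [sum_comm]
    simp_rw [mul_assoc]

end Crest.Agent.N49.Iv
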