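import Crest.Agent.N49.Iv.St
import Crest.Agent.N49.Fr.Upg

/-! Row 49, Iv (helper42): `frw : FRW` and its four-function version `frw4`. -/

set_option autoImplicit false
open Finset Function

namespace Crest.Agent.N49.Iv

/-- four-function form of `FRW` -/
theorem frw4 : ∃ P, Poly P ∧ ∀ (ι G V : Type) [Fintype ι] [DecidableEq ι] [AddCommGroup G]
    [Fintype G] [DecidableEq G] [AddCommGroup V] (H : AddSubgroup V) (j : ι) (L : ℕ)
    (A : Finset (ι → G)) (ψ₁ ψ₂ ψ₃ ψ₄ : (ι → G) → V) (c : V) (Q : Finset ((ι → G) × G × G)),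
    Fintype.card ((ι → G) × G × G) ≤ 2 ^ L * #Q →
    (∀ x ∈ Q, x.1 ∈ A ∧ ψ₁ x.1 + ψ₂ (update x.1 j (x.2.1 + x.2.2 - x.1 j)) +
        ψ₃ (update x.1 j x.2.1) + ψ₄ (update x.1 j x.2.2) - c ∈ H) →
    ∃ A' ⊆ A, Fintype.card (ι → G) ≤ 2 ^ P L * #A' ∧ Fr H j A' ψ₁ := by
  refine ⟨fun L => (L + 1) * (5 * Fr.Cf 2 + 1), (Poly.id.add (Poly.const 1)).mul (Poly.const _),
    fun ι G V _ _ _ _ _ _ H j L A ψ₁ ψ₂ ψ₃ ψ₄ c Q hQ h => ?_⟩
  classical
  set X : Finset (ι → G) := {p | p j = 0} with hX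
  have mX : ∀ p : ι → G, update p j 0 ∈ X := fun p => mem_filter.2 ⟨mem_univ _, update_self ..⟩
  have uX : ∀ x ∈ X, ∀ a, update (update x j a) j 0 = x := fun x hx a => by
    rw [update_idem, ← (mem_filter.1 hx).2, update_eq_self]
  have c1 : #X * Fintype.card G = Fintype.card (ι → G) := by
    rw [← card_univ (α := G), ← card_product, ← card_univ]
    refine card_nbij' (fun x => update x.1 j x.2) (fun p => (update p j 0, p j))
      (fun _ _ => mem_coe.2 (mem_univ _)) (fun p _ => mem_coe.2 (mem_product.2 ⟨mX p, mem_univ _⟩))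
      (fun x hx => Prod.ext (uX _ (mem_product.1 hx).1 _) (update_self ..)) fun p _ => ?_
    simp only [update_idem, update_eq_self]
  let g : (ι → G) × G × G → G × G × G × G := fun x => (x.1 j, x.2.1 + x.2.2 - x.1 j, x.2)
  let m : ((ι → G) → V) → (ι → G) → G → V ⧸ H := fun ψ x a => (ψ (update x j a) : V ⧸ H)
  obtain ⟨A', hA', c2⟩ := Fr.upgL 2 X (fun x => {a | update x j a ∈ A}) univ
    (fun x _ => card_le_univ _) (m ψ₁) (m ψ₂) (m ψ₃) (m ψ₄) (fun _ => (c : V ⧸ H))
    (fun x => ({y ∈ Q | update y.1 j 0 = x}).image g) (fun x _ y hy => by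
      obtain ⟨z, hz, rfl⟩ := mem_image.1 hy
      obtain ⟨hq, rfl⟩ := mem_filter.1 hz
      refine ⟨mem_filter.2 ⟨mem_univ _, ?_⟩, mem_univ _, mem_univ _, mem_univ _,
        add_sub_cancel _ _, ?_⟩
      · simp only [g, update_idem, update_eq_self]; exact (h z hq).1
      · simp only [g, m, update_idem, update_eq_self, ← QuotientAddGroup.mk_add]
        exact QuotientAddGroup.eq_iff_sub_mem.2 (h z hq).2) (t := 2 ^ L) (one_le_pow₀ one_le_two)
    (by
      have e : ∑ x ∈ X, #(({y ∈ Q | update y.1 j 0 = x}).image g) = #Q := by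
        rw [card_eq_sum_card_fiberwise (s := Q) (t := X) (f := fun y => update y.1 j 0)
          fun y _ => mX _]
        refine sum_congr rfl fun x _ => card_image_of_injOn fun y hy z hz e => ?_
        have e1 : update y.1 j 0 = update z.1 j 0 :=
          (mem_filter.1 hy).2.trans (mem_filter.1 hz).2.symm
        have e2 : y.1 j = z.1 j := congrArg Prod.fst e
        refine Prod.ext ?_ (congrArg (fun w => w.2.2) e)
        rw [← update_eq_self j y.1, ← update_idem 0, e1, e2, update_idem, update_eq_self]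
      rw [← Nat.cast_sum, e, card_univ]
      rw [Fintype.card_prod, Fintype.card_prod, ← c1] at hQ
      exact_mod_cast le_of_eq_of_le (by ring) hQ)
  refine ⟨{p ∈ A | p j ∈ A' (update p j 0)}, filter_subset _ _, ?_, fun p a b c d e ha hb hc hd => ?_⟩
  · have e : ∑ x ∈ X, #(A' x) ≤ #{p ∈ A | p j ∈ A' (update p j 0)} := by
      rw [card_eq_sum_card_fiberwise (s := {p ∈ A | p j ∈ A' (update p j 0)}) (t := X)
        (f := fun p => update p j 0) fun y _ => mX _]
      refine sum_le_sum fun x hx => card_le_card_of_injOn (update x j) (fun a ha => ?_)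
        (update_injective x j).injOn
      refine mem_coe.2 (mem_filter.2 ⟨mem_filter.2 ⟨(mem_filter.1 ((hA' x).1 ha)).2, ?_⟩, uX x hx a⟩)
      rwa [uX x hx, update_self]
    rw [← Nat.cast_sum, card_univ, ← pow_succ', ← pow_mul] at c2
    rw [← c1]
    exact_mod_cast c2.trans (mul_le_mul_of_nonneg_left (Nat.cast_le.2 e) (by positivity))
  · have k : ∀ {a}, update p j a ∈ ({p ∈ A | p j ∈ A' (update p j 0)} : Finset _) →
        a ∈ A' (update p j 0) := fun ha => by
      simpa only [update_idem, update_self] using (mem_filter.1 ha).2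
    have := (hA' (update p j 0)).2 ![a, b] ![c, d]
      (Fin.forall_fin_two.2 ⟨k ha, k hb⟩) (Fin.forall_fin_two.2 ⟨k hc, k hd⟩) (by simpa using e)
    simp only [Fin.sum_univ_two, Matrix.cons_val_zero, Matrix.cons_val_one, m, update_idem,
      ← QuotientAddGroup.mk_add] at this
    rw [sub_sub]
    exact QuotientAddGroup.eq_iff_sub_mem.1 this

theorem frw : FRW := by
  obtain ⟨P, hP, h⟩ := frw4
  refine ⟨P, hP, fun ι G V _ _ _ _ _ _ H j L A ψ Q hQ hA => h ι G V H j L A ψ ψ (-ψ) (-ψ) 0 Q hQ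
    fun x hx => ⟨(hA x hx).1, ?_⟩⟩
  simpa only [Pi.neg_apply, ← sub_eq_add_neg, sub_zero] using (hA x hx).2.2.2.2

end Crest.Agent.N49.Iv
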