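import Crest.Agent.N49.Iv.St
import Crest.Agent.N49.La.Gi

/-!
# Row 49 (helper17): the leaf `GI`
-/

set_option autoImplicit false
open Finset Function
open scoped BigOperators

namespace Crest.Agent.N49.Iv

theorem Gi.fact_pow_le (L : ℕ) : L.factorial * (2 ^ L) ^ L ≤ 2 ^ (2 * (L * L)) := by
  have h1 : L.factorial ≤ (2 ^ L) ^ L :=
    (Nat.factorial_le_pow L).trans (Nat.pow_le_pow_left Nat.lt_two_pow_self.le L)
  calc _ ≤ (2 ^ L) ^ L * (2 ^ L) ^ L := Nat.mul_le_mul_right _ h1
    _ = _ := by rw [← pow_add, ← pow_mul]; congr 1; ring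

theorem Gi.dot_add {κ : Type} [Fintype κ] (k : κ → ℤ) (v w : κ → ℝ) :
    dot k (v + w) = dot k v + dot k w := by simp [dot, mul_add, sum_add_distrib]

theorem Gi.dot_smul {κ : Type} [Fintype κ] (k : κ → ℤ) (c : ℝ) (v : κ → ℝ) :
    dot k (c • v) = c * dot k v := by simp [dot, mul_sum, mul_left_comm]

open Gi in
/-- **GI** -/
theorem gi : GI := by
  classical
  refine ⟨fun L => 2 * (L * L), (Poly.const 2).mul (Poly.id.mul Poly.id), fun κ _ L W hκ hW => ?_⟩
  obtain ⟨q, C, h1, h2, h3, h4⟩ := La.gi (Matrix.of fun (r : κ) (k : W) => k.1 r) (K := 2 ^ L)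
    (R := L) Nat.one_le_two_pow (Or.inl hκ) fun r k => by simpa using hW.2.1 k.1 k.2 r
  refine ⟨q, fun k r => if h : k ∈ W then C ⟨k, h⟩ r else 0, h1, h2.trans (fact_pow_le L),
    fun k r => ?_, fun v hv => ?_⟩
  · beta_reduce
    split_ifs
    · exact (h3 _ _).trans (by exact_mod_cast fact_pow_le L)
    · simp
  · induction hv using Submodule.span_induction with
    | mem x hx =>
      obtain ⟨k0, hk, rfl⟩ := hx
      funext r
      have := congrArg (fun z : ℤ => (z : ℝ)) (congrFun (congrFun h4 r) ⟨k0, hk⟩)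
      rw [Matrix.mul_assoc] at this
      simp only [Matrix.mul_apply, Matrix.of_apply, Matrix.smul_apply, smul_eq_mul] at this
      push_cast at this
      rw [← sum_coe_sort W]
      simp only [Pi.smul_apply, smul_eq_mul, Finset.sum_apply, dot, La.ci_apply]
      rw [← this]
      exact sum_congr rfl fun k _ => by simp only [dif_pos k.2]; exact mul_comm _ _
    | zero => simp [dot]
    | add x y _ _ hx hy => simp only [smul_add, hx, hy, dot_add, add_smul, sum_add_distrib]
    | smul c x _ hx => simp only [smul_comm (q : ℝ) c, hx, dot_smul, smul_sum, smul_smul]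

end Crest.Agent.N49.Iv
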