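import Crest.Agent.N49.Iv.St
import Crest.Agent.N49.La.Gn

/-!
# Row 49 (helper67): the leaf `GN`
-/

set_option autoImplicit false
open Finset Function
open scoped BigOperators

namespace Crest.Agent.N49.Iv

theorem gn : GN := by
  classical
  refine ⟨fun L => (L + 3) * (L + 1) + (3 * L + 1), ((Poly.id.add (.const 3)).mul
    (Poly.id.add (.const 1))).add (((Poly.const 3).mul .id).add (.const 1)),
    fun κ _ L N g Ω u hκ hN hΩ hg h => ?_⟩
  have hN' : (0 : ℝ) < N := by exact_mod_cast hN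
  have h2 : ∀ a b : ℕ, a ≤ b → (2 : ℝ) ^ a ≤ 2 ^ b := fun a b h => pow_le_pow_right₀ one_le_two h
  by_cases h0 : ∃ w ∈ Ω, w ≠ 0
  · obtain ⟨q, k0, k, q1, q2, -, k1, k2, k3⟩ := La.gn1 g (W := N) Ω u h0
      (fun w hw => by exact_mod_cast (h w hw).1) (fun w hw i => by
        rw [abs_sub_comm]; exact (h w hw).2 i) (Nat.succ_le_succ hκ)
    have hc : (0 : ℝ) < #Ω := by
      obtain ⟨w, hw, -⟩ := h0
      exact_mod_cast card_pos.2 ⟨w, hw⟩
    have hΩ' : (N : ℝ) ≤ 2 ^ L * #Ω := by exact_mod_cast hΩ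
    have a0 : L + 1 ≤ 2 ^ (L + 1) := Nat.lt_two_pow_self.le
    have a1 : (((L + 1).factorial : ℕ) * 3 ^ (L + 1) : ℝ) ≤ 2 ^ ((L + 3) * (L + 1)) := by
      have : (L + 1).factorial * 3 ^ (L + 1) ≤ 2 ^ ((L + 3) * (L + 1)) := by
        refine (Nat.mul_le_mul_right _ (Nat.factorial_le_pow _)).trans ?_
        rw [← mul_pow, pow_mul]
        exact Nat.pow_le_pow_left (by rw [show L + 3 = L + 1 + 2 from rfl, pow_add]; omega) _
      exact_mod_cast this
    have a2 : ((2 * (L + 1 : ℕ) + 3) ^ (L + 1) : ℝ) ≤ 2 ^ ((L + 3) * (L + 1)) := by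
      have : (2 * (L + 1) + 3) ^ (L + 1) ≤ 2 ^ ((L + 3) * (L + 1)) := by
        rw [pow_mul]
        exact Nat.pow_le_pow_left (by rw [show L + 3 = L + 1 + 2 from rfl, pow_add]; omega) _
      exact_mod_cast this
    set X : ℝ := 2 ^ ((L + 3) * (L + 1))
    have hX : 0 < X := by positivity
    have b0 : ∀ x Y : ℝ, 0 ≤ Y → Y ≤ X → x * #Ω ≤ Y * N → x ≤ X * 2 ^ L := fun x Y h0 h1 h2 =>
      le_of_mul_le_mul_right (h2.trans (by rw [mul_assoc]; gcongr)) hc
    have b1 : ∀ a i, |(k a i : ℝ)| ≤ X * 2 ^ L := fun a i => b0 _ _ (by positivity) a1 (k1 a i)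
    have b2 : ∀ a, |k0 a + ∑ i, k a i * g i| ≤ X * 2 ^ L / N := fun a => by
      rw [le_div_iff₀ hN']
      refine b0 _ _ (by positivity) a1 ?_
      rw [mul_right_comm]
      exact mul_le_mul_of_nonneg_right (k2 a) hN'.le
    have b3 : X * 2 ^ L ≤ 2 ^ ((L + 3) * (L + 1) + (3 * L + 1)) := by
      rw [pow_add]; gcongr <;> [norm_num; omega]
    have b4 : ∀ a, |(k0 a : ℝ)| ≤ 2 ^ ((L + 3) * (L + 1) + (3 * L + 1)) := fun a => by
      have c1 : |∑ i, k a i * g i| ≤ L * (X * 2 ^ L * 2 ^ L) :=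
        (abs_sum_le_sum_abs _ _).trans ((sum_le_card_nsmul _ _ (X * 2 ^ L * 2 ^ L) fun i _ => by
          rw [abs_mul]; gcongr; exacts [b1 a i, hg i]).trans (by
            rw [nsmul_eq_mul, card_univ]; gcongr))
      have c2 : X * 2 ^ L / N ≤ X * 2 ^ L * 2 ^ L := (div_le_self (by positivity)
        (by exact_mod_cast hN)).trans (le_mul_of_one_le_right (by positivity) (one_le_pow₀ one_le_two))
      have c3 := abs_sub (k0 a + ∑ i, k a i * g i) (∑ i, k a i * g i)
      rw [add_sub_cancel_right] at c3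
      have c4 : (L + 1 : ℝ) ≤ 2 ^ (L + 1) := by exact_mod_cast a0
      calc _ ≤ (L + 1) * (X * 2 ^ L * 2 ^ L) := by linarith [b2 a]
        _ ≤ 2 ^ (L + 1) * (X * 2 ^ L * 2 ^ L) := by gcongr
        _ = _ := by rw [pow_add _ _ (3 * L + 1)]; ring
    let K : κ → Option κ → ℤ := fun a o => o.elim (k0 a) (k a)
    refine ⟨univ.image K, q, ⟨card_image_le.trans (hκ.trans (by nlinarith)), ?_, q1, ?_⟩, ?_,
      fun ξ hξ => ?_⟩
    · simp only [forall_mem_image]
      rintro a - (_ | i)
      · exact_mod_cast b4 a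
      · exact_mod_cast (b1 a i).trans b3
    · exact_mod_cast (b0 _ _ (by positivity) a2 q2).trans b3
    · simp only [forall_mem_image]
      intro a _
      refine le_trans (le_of_eq ?_) ((b2 a).trans (by gcongr))
      simp [dot, K, Fintype.sum_option]
    · obtain ⟨m0, m, c, e0, e⟩ := k3 (ξ none) (fun r => ξ (some r)) hξ
      have hq : (q : ℝ) ≠ 0 := by positivity
      refine ⟨fun o => o.elim m0 m, ?_⟩
      rw [show (ξ - fun r : Option κ => ((r.elim m0 m : ℤ) : ℝ) / q) =
        ∑ a, (c a / q) • La.ci (K a) from funext fun o => by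
          simp only [Pi.sub_apply, Finset.sum_apply, Pi.smul_apply, La.ci_apply, smul_eq_mul,
            div_mul_eq_mul_div, ← sum_div]
          rw [eq_div_iff hq, sub_mul, div_mul_cancel₀ _ hq, mul_comm]
          rcases o with _ | i
          · exact sub_eq_of_eq_add' e0
          · exact sub_eq_of_eq_add' (e i)]
      exact Submodule.sum_mem _ fun a _ => Submodule.smul_mem _ _
        (Submodule.subset_span ⟨_, mem_coe.2 (mem_image_of_mem _ (mem_univ a)), rfl⟩)
  · push Not at h0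
    have a0 : #Ω ≤ 1 := card_le_one.2 fun a ha b hb => (h0 a ha).trans (h0 b hb).symm
    have a1 : (N : ℝ) ≤ 2 ^ L := by
      exact_mod_cast hΩ.trans (by simpa using Nat.mul_le_mul_left (2 ^ L) a0)
    refine ⟨univ.image fun o => Pi.single o 1, 1, ⟨card_image_le.trans ?_, ?_, le_rfl,
      Nat.one_le_two_pow⟩, ?_, fun ξ _ => ⟨0, ?_⟩⟩
    · rw [card_univ, Fintype.card_option]; nlinarith
    · simp only [forall_mem_image]
      intro o _ r
      refine le_trans ?_ (one_le_pow₀ one_le_two)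
      rw [Pi.single_apply]; split_ifs <;> simp
    · simp only [forall_mem_image]
      intro o _
      have : |o.elim 1 g| ≤ 2 ^ L := by
        rcases o with _ | i
        · simpa using one_le_pow₀ one_le_two
        · exact hg i
      rw [le_div_iff₀ hN']
      simp only [dot, Pi.single_apply, Int.cast_ite, Int.cast_one, Int.cast_zero, ite_mul, one_mul,
        zero_mul, sum_ite_eq', mem_univ, if_true]
      exact (mul_le_mul this a1 hN'.le (by positivity)).trans
        (by rw [← pow_add]; exact h2 _ _ (by omega))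
    · rw [show (ξ - fun r : Option κ => (((0 : Option κ → ℤ) r : ℤ) : ℝ) / (1 : ℕ)) =
        ∑ o, ξ o • La.ci (Pi.single o 1) from funext fun o => by simp [Pi.single_apply]]
      exact Submodule.sum_mem _ fun a _ => Submodule.smul_mem _ _
        (Submodule.subset_span ⟨_, mem_coe.2 (mem_image_of_mem _ (mem_univ a)), rfl⟩)

end Crest.Agent.N49.Iv
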