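import Crest.Agent.N49.Iv.St
import Crest.Agent.N49.Gw.Mh

/-!
# Row 49 (helper32): geometry of numbers on quadruples
-/

set_option autoImplicit false
open Finset Function
open scoped BigOperators

namespace Crest.Agent.N49.Iv

namespace Gq

theorem bd_mono {κ : Type} {L M : ℕ} {W : Finset (κ → ℤ)} {q : ℕ} (h : Bd L W q) (e : L ≤ M) :
    Bd M W q :=
  ⟨h.1.trans e, fun k hk r => (h.2.1 k hk r).trans (pow_le_pow_right₀ (by norm_num) e), h.2.2.1,
    h.2.2.2.trans (Nat.pow_le_pow_right (by norm_num) e)⟩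

theorem div_mono {L M : ℕ} (N : ℕ) (e : L ≤ M) : (2 : ℝ) ^ L / N ≤ 2 ^ M / N :=
  div_le_div_of_nonneg_right (pow_le_pow_right₀ (by norm_num) e) (Nat.cast_nonneg _)

/-- the exponent of the number of bounded pairs `(W, q)` -/
def ex (c M : ℕ) : ℕ := 2 * M + ((M + 2) * c + 1) * M

theorem poly_ex {P Q : ℕ → ℕ} (hP : Poly P) (hQ : Poly Q) : Poly fun L => ex (P L) (Q L) :=
  ((Poly.const 2).mul hQ).add (((((hQ.add (Poly.const 2)).mul hP).add (Poly.const 1))).mul hQ)

/-- pigeonholing the relation lattice -/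
theorem pig_bd {X κ : Type} [Fintype κ] {c M : ℕ} (hc : Fintype.card κ ≤ c) (Q : Finset X)
    (W : X → Finset (κ → ℤ)) (q : X → ℕ) (h : ∀ x ∈ Q, Bd M (W x) (q x)) :
    ∃ W0 q0, ∃ Q' ⊆ Q, Bd M W0 q0 ∧ #Q ≤ 2 ^ ex c M * #Q' ∧ ∀ x ∈ Q', W x = W0 ∧ q x = q0 := by
  classical
  set B : Finset (κ → ℤ) := Fintype.piFinset fun _ => Icc (-(2 : ℤ) ^ M) (2 ^ M) with hB
  set S : Finset (Finset (κ → ℤ)) := (range (M + 1)).biUnion fun i => powersetCard i B with hS
  have cB : #B + 1 ≤ 2 ^ ((M + 2) * c + 1) := by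
    have h1 : #(Icc (-(2 : ℤ) ^ M) (2 ^ M)) ≤ 2 ^ (M + 2) := by
      rw [Int.card_Icc, Int.toNat_le]
      push_cast
      have : (1 : ℤ) ≤ 2 ^ M := one_le_pow₀ (by norm_num)
      rw [pow_add]; linarith
    have h2 : #B ≤ 2 ^ ((M + 2) * c) := by
      rw [hB, Fintype.card_piFinset, prod_const, card_univ, pow_mul]
      exact (Nat.pow_le_pow_left h1 _).trans (Nat.pow_le_pow_right (by positivity) hc)
    have h3 : 1 ≤ 2 ^ ((M + 2) * c) := Nat.one_le_two_pow
    rw [pow_succ]; omega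
  have cS : #S ≤ 2 ^ M * 2 ^ (((M + 2) * c + 1) * M) := by
    refine card_biUnion_le.trans ((sum_le_card_nsmul _ _ (2 ^ (((M + 2) * c + 1) * M))
      fun i hi => ?_).trans ?_)
    · rw [card_powersetCard, pow_mul]
      refine (Nat.choose_le_pow _ _).trans ((Nat.pow_le_pow_left ((Nat.le_succ _).trans cB) _).trans
        (Nat.pow_le_pow_right (by positivity) ?_))
      have := mem_range.1 hi; omega
    · rw [card_range, smul_eq_mul]
      exact Nat.mul_le_mul_right _ Nat.lt_two_pow_self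
  obtain ⟨y, hy⟩ := Fr.pigeon Q (S ×ˢ Icc 1 (2 ^ M)) ⟨(∅, 1), by
      simp only [mem_product, hS, mem_biUnion, mem_Icc]
      exact ⟨⟨0, by simp, by simp⟩, le_rfl, Nat.one_le_two_pow⟩⟩ (fun x => (W x, q x))
    fun x hx => by
      obtain ⟨h1, h2, h3, h4⟩ := h x hx
      simp only [mem_product, hS, mem_biUnion, mem_Icc, mem_powersetCard]
      refine ⟨⟨#(W x), mem_range.2 (by omega), fun k hk => ?_, rfl⟩, h3, h4⟩
      exact Fintype.mem_piFinset.2 fun r => mem_Icc.2 (abs_le.1 (h2 k hk r))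
  have cT : #(S ×ˢ Icc 1 (2 ^ M)) ≤ 2 ^ ex c M := by
    rw [card_product, Nat.card_Icc, Nat.add_sub_cancel, ex, two_mul, pow_add, pow_add]
    nlinarith [Nat.mul_le_mul_right (2 ^ M) cS]
  rcases (Q.filter fun x => (W x, q x) = y).eq_empty_or_nonempty with h0 | ⟨x, hx⟩
  · refine ⟨∅, 1, ∅, empty_subset _, ⟨by simp, by simp, le_rfl, Nat.one_le_two_pow⟩, ?_, by simp⟩
    rw [h0] at hy
    simpa using hy
  · refine ⟨y.1, y.2, _, filter_subset _ _, ?_, hy.trans (Nat.mul_le_mul_right _ cT),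
      fun z hz => ?_⟩
    · rw [← (mem_filter.1 hx).2]; exact h x (mem_filter.1 hx).1
    · rw [← (mem_filter.1 hz).2]; exact ⟨rfl, rfl⟩

section cnt
variable {G : Type} [AddCommGroup G] [Fintype G]

theorem energy (g : G → ℝ) :
    (𝔼 c, g c) ^ 4 ≤ 𝔼 c, 𝔼 a, 𝔼 b, g c * g (a + b - c) * g a * g b := by
  have h1 : (𝔼 c, g c) ^ 2 = 𝔼 s, 𝔼 a, g a * g (s - a) := by
    rw [expect_comm, sq, expect_mul]
    refine expect_congr rfl fun a _ => ?_
    rw [← mul_expect, ← Gw.expect_shift' a fun s => g (s - a)]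
    simp
  have h2 : 𝔼 s, (𝔼 a, g a * g (s - a)) ^ 2 =
      𝔼 c, 𝔼 a, 𝔼 b, g c * g (a + b - c) * g a * g b := by
    have : ∀ s, (𝔼 a, g a * g (s - a)) ^ 2 = 𝔼 c, 𝔼 a, g c * g (s - c) * (g a * g (s - a)) :=
      fun s => by rw [sq, expect_mul_expect]
    simp only [this]
    rw [expect_comm]
    refine expect_congr rfl fun c _ => ?_
    rw [expect_comm]
    refine expect_congr rfl fun a _ => ?_
    rw [← Gw.expect_shift a fun s => g c * g (s - c) * (g a * g (s - a))]
    refine expect_congr rfl fun b _ => ?_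
    rw [add_sub_cancel_left]; ring
  calc (𝔼 c, g c) ^ 4 = ((𝔼 c, g c) ^ 2) ^ 2 := by ring
    _ ≤ _ := by rw [h1, ← h2]; exact Gw.sq_expect_le _

omit [AddCommGroup G] in
/-- resampling one coordinate -/
theorem expect_update {ι : Type} [Fintype ι] [DecidableEq ι] [Nonempty G] (j : ι)
    (F : (ι → G) → ℝ) : 𝔼 p, F p = 𝔼 p, 𝔼 c, F (update p j c) := by
  have hi : Involutive fun z : (ι → G) × G => (update z.1 j z.2, z.1 j) := fun z => by simp
  rw [← expect_product', univ_product_univ,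
    Fintype.expect_equiv hi.toPerm (fun z => F (update z.1 j z.2)) (fun z => F z.1) fun z => rfl,
    ← univ_product_univ, expect_product' _ _ fun p _ => F p]
  simp

/-- many quadruples along `j`-lines -/
theorem quads {ι Y : Type} [Fintype ι] [DecidableEq ι] [Fintype Y] (j : ι)
    (f : (ι → G) → Y → ℝ) (hf : ∀ p y, 0 ≤ f p y) :
    (𝔼 p, 𝔼 y, f p y) ^ 4 ≤ 𝔼 x : (ι → G) × G × G, 𝔼 y, f x.1 y *
      f (update x.1 j (x.2.1 + x.2.2 - x.1 j)) y * f (update x.1 j x.2.1) y *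
        f (update x.1 j x.2.2) y := by
  have h1 : 𝔼 p, 𝔼 y, f p y = 𝔼 z : (ι → G) × Y, 𝔼 c, f (update z.1 j c) z.2 := by
    rw [expect_update j, ← univ_product_univ,
      expect_product' _ _ fun p y => 𝔼 c, f (update p j c) y]
    exact expect_congr rfl fun p _ => expect_comm ..
  have h2 := Gw.pow_expect_le (u := fun z : (ι → G) × Y => 𝔼 c, f (update z.1 j c) z.2)
    (fun z => expect_nonneg fun c _ => hf _ _) 2
  rw [h1]
  refine h2.trans ((expect_le_expect fun z _ => energy fun c => f (update z.1 j c) z.2).trans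
    (le_of_eq ?_))
  rw [← univ_product_univ (α := ι → G) (β := G × G), expect_product' _ _ fun p (w : G × G) =>
    𝔼 y, f p y * f (update p j (w.1 + w.2 - p j)) y * f (update p j w.1) y * f (update p j w.2) y,
    expect_update j fun p => 𝔼 w : G × G, 𝔼 y, f p y * f (update p j (w.1 + w.2 - p j)) y *
      f (update p j w.1) y * f (update p j w.2) y, ← univ_product_univ (α := ι → G) (β := Y),
    expect_product' _ _ fun p y => 𝔼 c, 𝔼 a, 𝔼 b, f (update p j c) y *
      f (update p j (a + b - c)) y * f (update p j a) y * f (update p j b) y]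
  refine expect_congr rfl fun p _ => ?_
  rw [expect_comm]
  refine expect_congr rfl fun c _ => ?_
  rw [expect_comm (s := (univ : Finset (G × G)))]
  refine expect_congr rfl fun y _ => ?_
  rw [← univ_product_univ (α := G) (β := G), expect_product' _ _ fun a b =>
    f (update p j c) y * f (update (update p j c) j (a + b - update p j c j)) y *
      f (update (update p j c) j a) y * f (update (update p j c) j b) y]
  simp

end cnt

variable {ι : Type} [Fintype ι] [DecidableEq ι] {N : ℕ} [NeZero N] {Δ : Type}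

/-- the common fibre of a quadruple -/
def Om (s : St ι N Δ) (j : ι) (x : (ι → ZMod N) × ZMod N × ZMod N) : Finset (ZMod N) :=
  {y | ∀ i, qp j x i ∈ s.P ∧ y ∈ s.Y (qp j x i)}

/-- many quadruples have a large common fibre -/
theorem many (s : St ι N Δ) (j : ι) {L : ℕ} (h : s.Good L) :
    ∃ Q : Finset ((ι → ZMod N) × ZMod N × ZMod N),
      Fintype.card ((ι → ZMod N) × ZMod N × ZMod N) ≤ 2 ^ (8 * L + 1) * #Q ∧
      ∀ x ∈ Q, N ≤ 2 ^ (8 * L + 1) * #(Om s j x) := by
  classical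
  set f : (ι → ZMod N) → ZMod N → ℝ := fun p y => if p ∈ s.P ∧ y ∈ s.Y p then 1 else 0 with hf
  have f0 : ∀ p y, 0 ≤ f p y := fun p y => by simp only [hf]; split_ifs <;> norm_num
  have h1 : (1 / 2 : ℝ) ^ (2 * L) ≤ 𝔼 p, 𝔼 y, f p y := by
    have a : ∀ p, (if p ∈ s.P then (1 : ℝ) else 0) * (1 / 2) ^ L ≤ 𝔼 y, f p y := fun p => by
      by_cases hp : p ∈ s.P
      · simp only [hf, hp, true_and, if_true, one_mul, Gw.expect_mem]
        exact Gw.half_le_dn.2 (by simpa using h.fib p hp)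
      · simp [hf, hp]
    refine le_trans ?_ (expect_le_expect fun p _ => a p)
    rw [← expect_mul, Gw.expect_mem, two_mul, pow_add]
    exact mul_le_mul_of_nonneg_right (Gw.half_le_dn.2 h.dn) (by positivity)
  have h2 : ∀ x : (ι → ZMod N) × ZMod N × ZMod N, 𝔼 y, f x.1 y *
      f (update x.1 j (x.2.1 + x.2.2 - x.1 j)) y * f (update x.1 j x.2.1) y *
        f (update x.1 j x.2.2) y = Gw.dn (Om s j x) := fun x => by
    rw [← Gw.expect_mem]
    refine expect_congr rfl fun y _ => ?_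
    simp only [hf, Om, mem_filter, mem_univ, true_and, Fin.forall_fin_succ, qp, ite_mul, one_mul,
      zero_mul]
    simp only [Matrix.cons_val_zero, Matrix.cons_val_succ, IsEmpty.forall_iff, and_true]
    split_ifs <;> tauto
  have h3 : (1 / 2 : ℝ) ^ (8 * L) ≤ 𝔼 x, Gw.dn (Om s j x) := by
    have := (pow_le_pow_left₀ (by positivity) h1 4).trans (quads j f f0)
    simp only [h2] at this
    rwa [← pow_mul, show 2 * L * 4 = 8 * L by ring] at this
  have h4 := Gw.markov (fun x => Gw.dn_le_one (Om s j x)) (by positivity) h3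
  have e : (1 / 2 : ℝ) ^ (8 * L) / 2 = (1 / 2) ^ (8 * L + 1) := by rw [pow_succ]; ring
  refine ⟨_, Gw.half_le_dn.1 (e ▸ h4), fun x hx => ?_⟩
  have := (mem_filter.1 hx).2
  simpa using Gw.half_le_dn.1 this

theorem iz_sub {x y : ℝ} (hx : Iz x) (hy : Iz y) : Iz (x - y) :=
  let ⟨a, ha⟩ := hx; let ⟨b, hb⟩ := hy; ⟨a - b, by simp [ha, hb]⟩

theorem iz_add {x y : ℝ} (hx : Iz x) (hy : Iz y) : Iz (x + y) :=
  let ⟨a, ha⟩ := hx; let ⟨b, hb⟩ := hy; ⟨a + b, by simp [ha, hb]⟩

/-- the signed coefficients are integral on the common fibre up to a constant -/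
theorem iz_quad {s : St ι N Δ} {A : Finset ((ι → ZMod N) × ZMod N)}
    {φ : (ι → ZMod N) × ZMod N → Δ → ℝ} (hR : s.Rep A φ) (hF : FrP A φ) (j : ι)
    {x : (ι → ZMod N) × ZMod N × ZMod N} {y : ZMod N} (hy : y ∈ Om s j x) (l : Δ) :
    Iz (∑ i : Fin 4, (![1, 1, -1, -1] i : ℝ) * s.β (qp j x i) l + ∑ v : Fin 4 × s.κ,
      (![1, 1, -1, -1] v.1 : ℝ) * s.t (qp j x v.1) l v.2 *
        (round (s.γ (qp j x v.1) v.2 * (y.val : ℝ)) : ℝ)) := by
  have h := fun i => hR _ ((mem_filter.1 hy).2 i).1 y ((mem_filter.1 hy).2 i).2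
  have h0 := hF j x.1 y (x.1 j) (x.2.1 + x.2.2 - x.1 j) x.2.1 x.2.2 (by ring)
    (by simpa [qp] using (h 0).1) (h 1).1 (h 2).1 (h 3).1 l
  rw [update_eq_self] at h0
  have := iz_add (iz_add (iz_sub (iz_sub h0 ((h 0).2 l)) ((h 1).2 l)) ((h 2).2 l)) ((h 3).2 l)
  convert this using 1
  simp only [Fintype.sum_prod_type, Fin.sum_univ_four, qp, Pi.add_apply, Pi.sub_apply]
  simp
  ring

end Gq

open Gq

/-- **geometry of numbers on quadruples** -/
theorem gq (hGN : GN) (ι : Type) [Fintype ι] [DecidableEq ι] : GQ ι := by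
  classical
  obtain ⟨P, hP, hG⟩ := hGN
  have p1 : Poly fun L => 8 * L + 1 := ((Poly.const 8).mul Poly.id).add (Poly.const 1)
  have p2 : Poly fun L => P (8 * L + 1) := hP.comp p1
  refine ⟨fun L => P (8 * L + 1) + (8 * L + 1 + ex (8 * L + 1) (P (8 * L + 1))),
    p2.add (p1.add (poly_ex p1 p2)), fun N _ Δ _ A φ L _ s j hs hR hF => ?_⟩
  obtain ⟨Q, hQ, hO⟩ := many s j hs
  have hN : 0 < N := Nat.pos_of_ne_zero (NeZero.ne N)
  have key : ∀ x ∈ Q, ∃ (W : Finset (Option (Fin 4 × s.κ) → ℤ)) (q : ℕ), Bd (P (8 * L + 1)) W q ∧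
      (∀ i, qp j x i ∈ s.P) ∧
      (∀ k ∈ W, |dot k fun o => o.elim 1 fun v => s.γ (qp j x v.1) v.2| ≤ 2 ^ P (8 * L + 1) / N) ∧
      ∀ l, (fun o : Option (Fin 4 × s.κ) => o.elim (0 : ℝ) fun v =>
        (![1, 1, -1, -1] v.1 : ℝ) * s.t (qp j x v.1) l v.2) ∈ L1 W q := fun x hx => by
    have hc := hO x hx
    obtain ⟨y0, hy0⟩ : (Om s j x).Nonempty := card_pos.1 (by
      rcases Nat.eq_zero_or_pos #(Om s j x) with h | h
      · rw [h] at hc; omega
      · exact h)
    have hp := fun i => ((mem_filter.1 hy0).2 i).1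
    have hinj : Injective fun y : ZMod N => (y.val : ℤ) - (y0.val : ℤ) := fun a b e =>
      ZMod.val_injective N (by have := sub_left_injective e; exact_mod_cast this)
    obtain ⟨W, q, hb, hk, hξ⟩ := hG (Fin 4 × s.κ) (8 * L + 1) N (fun v => s.γ (qp j x v.1) v.2)
      ((Om s j x).image fun y : ZMod N => (y.val : ℤ) - (y0.val : ℤ))
      (fun w v => round (s.γ (qp j x v.1) v.2 * ((w + y0.val : ℤ) : ℝ)) -
        round (s.γ (qp j x v.1) v.2 * (y0.val : ℝ)))
      (by have := hs.card; simp only [Fintype.card_prod, Fintype.card_fin]; omega) hN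
      (by rwa [card_image_of_injective _ hinj])
      (fun v => (hs.bd _ (hp v.1) v.2).trans (pow_le_pow_right₀ (by norm_num) (by omega)))
      (fun w hw => by
        obtain ⟨y, -, rfl⟩ := mem_image.1 hw
        have a := ZMod.val_lt y
        have b := ZMod.val_lt y0
        refine ⟨abs_le.2 ⟨by omega, by omega⟩, fun v => ?_⟩
        have c := abs_le.1 (abs_sub_round (s.γ (qp j x v.1) v.2 * (y.val : ℝ)))
        have d := abs_le.1 (abs_sub_round (s.γ (qp j x v.1) v.2 * (y0.val : ℝ)))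
        rw [sub_add_cancel]
        push_cast
        rw [mul_sub]
        exact abs_le.2 ⟨by linarith, by linarith⟩)
    refine ⟨W, q, hb, hp, hk, fun l => hξ _ fun w hw => ?_⟩
    obtain ⟨y, hy, rfl⟩ := mem_image.1 hw
    convert iz_sub (iz_quad hR hF j hy l) (iz_quad hR hF j hy0 l) using 1
    simp only [Option.elim_none, Option.elim_some, sub_add_cancel, zero_mul, zero_add,
      add_sub_add_left_eq_sub, ← sum_sub_distrib]
    refine sum_congr rfl fun v _ => ?_
    push_cast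
    ring
  choose! W q hW using key
  obtain ⟨W0, q0, Q', hs', hb, hc, he⟩ := pig_bd (c := 8 * L + 1)
    (by have := hs.card
        simp only [Fintype.card_option, Fintype.card_prod, Fintype.card_fin]; omega)
    Q W q fun x hx => (hW x hx).1
  refine ⟨W0, q0, Q', bd_mono hb (Nat.le_add_right _ _), ?_, fun x hx => ?_⟩
  · refine hQ.trans ((Nat.mul_le_mul_left _ hc).trans ?_)
    rw [← mul_assoc, ← pow_add]
    exact Nat.mul_le_mul_right _ (Nat.pow_le_pow_right (by norm_num) (Nat.le_add_left _ _))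
  · obtain ⟨-, h1, h2, h3⟩ := hW x (hs' hx)
    rw [(he x hx).1] at h2 h3
    rw [(he x hx).2] at h3
    exact ⟨h1, fun k hk => (h2 k hk).trans (div_mono N (Nat.le_add_right _ _)), h3⟩

end Crest.Agent.N49.Iv
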