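import Crest.Agent.N49.Iv.Gi

/-!
# Row 49 (helper17): the leaf `IL`
-/

set_option autoImplicit false
open Finset Function Matrix
open scoped BigOperators

namespace Crest.Agent.N49.Iv

namespace Il

variable {a b c : Type}

/-- entries at most `2^n` -/
def Bm (n : ℕ) (A : Matrix a b ℤ) : Prop := ∀ i j, |A i j| ≤ 2 ^ n

theorem Bm.mono {n m : ℕ} {A : Matrix a b ℤ} (h : Bm n A) (e : n ≤ m) : Bm m A := fun i j =>
  (h i j).trans (pow_le_pow_right₀ (by norm_num) e)

theorem Bm.mul [Fintype b] {n m k : ℕ} {A : Matrix a b ℤ} {B : Matrix b c ℤ} (h : Bm n A)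
    (h' : Bm m B) (hk : Fintype.card b ≤ 2 ^ k) : Bm (k + (n + m)) (A * B) := fun i j => by
  rw [mul_apply]
  refine (abs_sum_le_sum_abs _ _).trans ((sum_le_card_nsmul _ _ (2 ^ (n + m)) fun l _ => ?_).trans ?_)
  · rw [abs_mul, pow_add]
    exact mul_le_mul (h i l) (h' l j) (abs_nonneg _) (by positivity)
  · rw [nsmul_eq_mul, pow_add 2 k]
    exact mul_le_mul_of_nonneg_right (by exact_mod_cast hk) (by positivity)

theorem Bm.smul {n m q : ℕ} {A : Matrix a b ℤ} (h : Bm n A) (hq : q ≤ 2 ^ m) :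
    Bm (m + n) ((q : ℤ) • A) := fun i j => by
  rw [Matrix.smul_apply, smul_eq_mul, abs_mul, pow_add, Nat.abs_cast]
  exact mul_le_mul (by exact_mod_cast hq) (h i j) (abs_nonneg _) (by positivity)

theorem Bm.dia [DecidableEq a] {n q : ℕ} {A : Matrix a a ℤ} (h : Bm n A) (hq : q ≤ 2 ^ n) :
    Bm (n + 1) ((q : ℤ) • (1 : Matrix a a ℤ) - A) := fun i j => by
  have h1 : |((q : ℤ) • (1 : Matrix a a ℤ)) i j| ≤ 2 ^ n := by
    rw [Matrix.smul_apply, one_apply]
    split_ifs
    · simpa using (by exact_mod_cast hq : (q : ℤ) ≤ 2 ^ n)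
    · simp
  rw [Matrix.sub_apply, pow_succ]
  linarith [abs_sub ((((q : ℤ) • (1 : Matrix a a ℤ))) i j) (A i j), h i j]

theorem fact_le (L n : ℕ) : L.factorial * (2 ^ n) ^ L ≤ 2 ^ (L * L + n * L) := by
  rw [pow_add, pow_mul, pow_mul]
  exact Nat.mul_le_mul_right _
    ((Nat.factorial_le_pow L).trans (Nat.pow_le_pow_left Nat.lt_two_pow_self.le L))

theorem gi' [Fintype a] [Fintype b] {B : Matrix a b ℤ} {n L : ℕ} (h : Bm n B)
    (hR : Fintype.card a ≤ L ∨ Fintype.card b ≤ L) : ∃ (q : ℕ) (C : Matrix b a ℤ), 1 ≤ q ∧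
      q ≤ 2 ^ (L * L + n * L) ∧ Bm (L * L + n * L) C ∧ B * C * B = (q : ℤ) • B := by
  obtain ⟨q, C, h1, h2, h3, h4⟩ := La.gi B (K := 2 ^ n) Nat.one_le_two_pow hR
    fun i j => by simpa using h i j
  exact ⟨q, C, h1, h2.trans (fact_le L n),
    fun i j => (h3 i j).trans (by exact_mod_cast fact_le L n), h4⟩

theorem prod_le {ι : Type} [Fintype ι] {f : ι → ℕ} {n : ℕ} (h : ∀ i, f i ≤ 2 ^ n) (s : Finset ι) :
    ∏ i ∈ s, f i ≤ 2 ^ (Fintype.card ι * n) := by
  refine (prod_le_pow_card s f _ fun i _ => h i).trans ?_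
  rw [← pow_mul, mul_comm]
  exact Nat.pow_le_pow_right (by norm_num) (Nat.mul_le_mul_right _ (card_le_univ s))

/-- a matrix killing `W` kills its span -/
theorem kill [Fintype b] {W : Finset (b → ℤ)} {M : Matrix a b ℤ}
    (h : M * (of fun (r : b) (k : W) => k.1 r) = 0) {v : b → ℝ} (hv : v ∈ sp W) (i : a) :
    ∑ r, (M i r : ℝ) * v r = 0 := by
  induction hv using Submodule.span_induction with
  | mem x hx =>
    obtain ⟨k, hk, rfl⟩ := hx
    have := congrArg (fun z : ℤ => (z : ℝ)) (congrFun (congrFun h i) ⟨k, hk⟩)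
    simpa [mul_apply] using this
  | zero => simp
  | add x y _ _ hx hy => simp only [Pi.add_apply, mul_add, sum_add_distrib, hx, hy, add_zero]
  | smul t x _ hx =>
    simp only [Pi.smul_apply, smul_eq_mul, mul_left_comm _ t, ← mul_sum, hx, mul_zero]

end Il

open Il in
/-- **IL** -/
theorem il (ι : Type) [Fintype ι] [DecidableEq ι] : IL ι := by
  classical
  obtain ⟨n, hn⟩ : ∃ n, n = Fintype.card ι := ⟨_, rfl⟩
  let b0 : ℕ → ℕ := fun L => L * L + L * L
  let b1 : ℕ → ℕ := fun L => L + (L + b0 L) + 1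
  let b2 : ℕ → ℕ := fun L => L * L + b1 L * L
  let b3 : ℕ → ℕ := fun L => n + L + (b2 L + b1 L) + 1
  have p0 : Poly b0 := (Poly.id.mul Poly.id).add (Poly.id.mul Poly.id)
  have p1 : Poly b1 := (Poly.id.add (Poly.id.add p0)).add (Poly.const 1)
  have p2 : Poly b2 := (Poly.id.mul Poly.id).add (p1.mul Poly.id)
  have p3 : Poly b3 := (((Poly.const n).add Poly.id).add (p2.add p1)).add (Poly.const 1)
  refine ⟨fun L => n * b0 L + (L + (b0 L + b3 L)) + (b2 L + n * L), (((Poly.const n).mul p0).add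
    (Poly.id.add (p0.add p3))).add (p2.add ((Poly.const n).mul Poly.id)),
    fun κ _ L W q T hκ hW => ?_⟩
  have hL : L ≤ 2 ^ L := Nat.lt_two_pow_self.le
  let B : ∀ j, Matrix κ (W j) ℤ := fun j => of fun r k => k.1 r
  have hB : ∀ j, Bm L (B j) := fun j r k => (hW j).2.1 k.1 k.2 r
  choose m C m1 m2 hC e using fun j => gi' (hB j) (Or.inl hκ)
  have cW : ∀ j, Fintype.card (W j) ≤ 2 ^ L := fun j => by simpa using (hW j).1.trans hL
  let M : ι → Matrix κ κ ℤ := fun j => (m j : ℤ) • 1 - B j * C j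
  have hM : ∀ j, Bm (b1 L) (M j) := fun j => ((hB j).mul (hC j) (cW j)).dia
    ((m2 j).trans (Nat.pow_le_pow_right (by norm_num) (by omega)))
  have MB : ∀ j, M j * B j = 0 := fun j => by
    simp only [M]; rw [Matrix.sub_mul, e, Matrix.smul_mul, Matrix.one_mul, sub_self]
  let S : Matrix (ι × κ) κ ℤ := of fun x c => if x.1 ∈ T then M x.1 x.2 c else 0
  have hS : Bm (b1 L) S := fun x c => by
    simp only [S, of_apply]
    split_ifs
    exacts [hM _ _ _, by simp]
  obtain ⟨m', C', n1, n2, hC', e'⟩ := gi' hS (Or.inr hκ)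
  have cS : Fintype.card (ι × κ) ≤ 2 ^ (n + L) := by
    rw [Fintype.card_prod, pow_add, hn]
    exact Nat.mul_le_mul Nat.lt_two_pow_self.le (hκ.trans hL)
  obtain ⟨E, hE⟩ : ∃ E : Matrix κ κ ℤ, E = (m' : ℤ) • 1 - C' * S := ⟨_, rfl⟩
  have bE : Bm (b3 L) E := hE ▸ (hC'.mul hS cS).dia
    (n2.trans (Nat.pow_le_pow_right (by norm_num) (by omega)))
  have SE : S * E = 0 := by
    rw [hE, Matrix.mul_sub, ← Matrix.mul_assoc, e', Matrix.mul_smul, Matrix.mul_one, sub_self]
  have q1 : ∀ j, 1 ≤ q j := fun j => (hW j).2.2.1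
  have Q1 : 1 ≤ ∏ j, q j := one_le_prod' fun j _ => q1 j
  have M1 : 1 ≤ ∏ j, m j := one_le_prod' fun j _ => m1 j
  refine ⟨fun c r => (((∏ j, m j : ℕ) : ℤ) • E) r c, m' * ∏ j, m j, m' * ∏ j, q j,
    Nat.mul_le_mul n1 M1, Nat.mul_le_mul n1 Q1, ?_, fun c r => ?_, fun c j hj => ?_, fun v hv => ?_⟩
  · refine (Nat.mul_le_mul n2 (prod_le (fun j => (hW j).2.2.2) univ)).trans ?_
    rw [← pow_add, ← hn]
    exact Nat.pow_le_pow_right (by norm_num) (Nat.le_add_left _ _)
  · exact ((bE.smul (prod_le m2 univ)).mono (by simp only [← hn, b0]; omega)) r c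
  · have h1 := ((hC j).mul bE (hκ.trans hL)).smul (prod_le m2 (univ.erase j))
    have h2 : (m j : ℤ) • E = B j * (C j * E) := by
      have : M j * E = 0 := by
        ext r c
        simpa [S, mul_apply, hj] using congrFun (congrFun SE (j, r)) c
      simp only [M] at this
      rwa [Matrix.sub_mul, Matrix.smul_mul, Matrix.one_mul, Matrix.mul_assoc, sub_eq_zero] at this
    refine ⟨fun k => if h : k ∈ W j then
      (((∏ i ∈ univ.erase j, m i : ℕ) : ℤ) • (C j * E)) ⟨k, h⟩ c else 0, fun k => ?_, ?_⟩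
    · beta_reduce
      split_ifs
      exacts [(h1.mono (by simp only [← hn, b0]; omega)) _ _, by simp]
    · funext r
      beta_reduce
      rw [← prod_erase_mul _ _ (mem_univ j), Nat.cast_mul, mul_smul, h2, ← Matrix.mul_smul,
        mul_apply, ← sum_coe_sort (W j), Finset.sum_apply]
      exact sum_congr rfl fun k _ => by simp only [dif_pos k.2]; exact mul_comm _ _
  · choose! z hz using hv
    have hq : ∀ j, (q j : ℝ) ≠ 0 := fun j => by have := q1 j; positivity
    have k1 : ∀ x : ι × κ, ∑ c, (S x c : ℝ) * v c = (((∏ i ∈ univ.erase x.1, q i : ℕ) *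
        ∑ c, S x c * z x.1 c : ℤ) : ℝ) / (∏ j, q j : ℕ) := by
      rintro ⟨j, r⟩
      by_cases hj : j ∈ T
      · have := kill (MB j) (hz j hj) r
        simp only [Pi.sub_apply, mul_sub, sum_sub_distrib, sub_eq_zero] at this
        simp only [S, of_apply, if_pos hj, this]
        rw [← prod_erase_mul _ _ (mem_univ j)]
        have : ((∏ i ∈ univ.erase j, q i : ℕ) : ℝ) ≠ 0 := by
          rw [Nat.cast_prod]; exact prod_ne_zero_iff.2 fun i _ => hq i
        push_cast at this ⊢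
        rw [mul_div_mul_left _ _ this, sum_div]
        simp only [mul_div_assoc]
      · simp [S, hj]
    refine ⟨fun r => ∑ x, C' r x * ((∏ i ∈ univ.erase x.1, q i : ℕ) * ∑ c, S x c * z x.1 c), ?_⟩
    refine Set.mem_of_eq_of_mem (y := (0 : κ → ℝ)) ?_ (sp ∅).zero_mem
    funext r
    have a1 : (m' : ℝ) ≠ 0 := by positivity
    have a2 : ((∏ j, m j : ℕ) : ℝ) ≠ 0 := by positivity
    have a3 : ∀ c, v c / ((m' * ∏ j, m j : ℕ) : ℝ) * (((((∏ j, m j : ℕ) : ℤ) • E) r c : ℤ) : ℝ) =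
        (if r = c then v c else 0) - (∑ x, (C' r x : ℝ) * (S x c * v c)) / m' := fun c => by
      rw [Matrix.smul_apply, hE, Matrix.sub_apply, Matrix.smul_apply, one_apply, mul_apply,
        smul_eq_mul, smul_eq_mul, Nat.cast_mul, Int.cast_mul, Int.cast_natCast]
      simp only [← mul_assoc, ← sum_mul]
      push_cast at a2 ⊢
      split_ifs <;> field_simp <;> ring
    simp only [Pi.sub_apply, Finset.sum_apply, Pi.smul_apply, smul_eq_mul, La.ci_apply, a3,
      sum_sub_distrib, sum_ite_eq, mem_univ, if_true, Pi.zero_apply, sub_sub_cancel, ← sum_div]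
    rw [sum_comm]
    simp only [← mul_sum, k1]
    rw [Int.cast_sum, Nat.cast_mul, mul_comm (m' : ℝ), ← div_div, sum_div _ _ ((∏ j, q j : ℕ) : ℝ)]
    simp only [Int.cast_mul (C' r _), mul_div_assoc, sub_self]

end Crest.Agent.N49.Iv
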