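import Crest.Agent.N49.Iv.St

/-!
# Row 49 (helper88): the symmetrisation step `SYM`
-/

set_option autoImplicit false
open Finset Function
open scoped BigOperators

namespace Crest.Agent.N49.Iv

namespace Sy

variable {ι α : Type} [Fintype ι] [DecidableEq ι] {K K' : ℝ} {F G : (ι → α) → ℂ}

theorem e_add (x y : ℝ) : e (x + y) = e x * e y := by
  rw [e, e, e, ← Complex.exp_add]; congr 1; push_cast; ring

theorem neg_mono (h : Neg K F) (hK : K ≤ K') : Neg K' F :=
  let ⟨J, i, c, u, h1, h2⟩ := h; ⟨J, i, c, u, h1.trans hK, h2⟩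

theorem neg_one : Neg 1 fun _ : ι → α => (1 : ℂ) :=
  ⟨Unit, inferInstance, fun _ => 1, fun _ _ _ => 1, by simp, fun _ => ⟨by simp, by simp⟩, by simp⟩

theorem neg_mul (h : Neg K F) (h' : Neg K' G) : Neg (K * K') fun x => F x * G x := by
  obtain ⟨J, _, c, u, h1, h2, h3⟩ := h
  obtain ⟨J', _, c', u', h1', h2', h3'⟩ := h'
  refine ⟨J × J', inferInstance, fun j => c j.1 * c' j.2, fun j i x => u j.1 i x * u' j.2 i x,
    ?_, fun j => ⟨fun i x => ?_, fun i x a => ?_⟩, fun x => ?_⟩
  · simp only [Fintype.sum_prod_type, norm_mul, ← Finset.sum_mul_sum]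
    exact mul_le_mul h1 h1' (by positivity) ((by positivity : (0 : ℝ) ≤ _).trans h1)
  · rw [norm_mul]
    exact mul_le_one₀ ((h2 _).1 i x) (norm_nonneg _) ((h2' _).1 i x)
  · simp only [(h2 _).2, (h2' _).2]
  · simp only [h3, h3', Finset.sum_mul_sum, Fintype.sum_prod_type, Finset.prod_mul_distrib]
    exact sum_congr rfl fun _ _ => sum_congr rfl fun _ _ => by ring

theorem neg_perm (h : Neg K F) (σ : Equiv.Perm ι) : Neg K fun x => F (x ∘ σ) := by
  obtain ⟨J, _, c, u, h1, h2, h3⟩ := h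
  refine ⟨J, inferInstance, c, fun j i x => u j (σ.symm i) (x ∘ σ), h1,
    fun j => ⟨fun i x => (h2 j).1 _ _, fun i x a => ?_⟩, fun x => ?_⟩
  · simp only [update_comp_equiv, (h2 j).2]
  · simp only [h3]
    exact sum_congr rfl fun j _ => by rw [← σ.symm.prod_comp]

theorem neg_sum {β : Type} (s : Finset β) {k : β → ℕ} {f : β → (ι → α) → ℝ}
    (h : ∀ b, Neg (K ^ k b) fun x => e (f b x)) :
    Neg (K ^ ∑ b ∈ s, k b) fun x => e (∑ b ∈ s, f b x) := by
  classical
  induction s using Finset.induction_on with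
  | empty => simpa [e] using neg_one
  | insert a s ha ih => simpa only [sum_insert ha, pow_add, e_add] using neg_mul (h a) ih

/-- `σ` costs `k` transpositions through `o` -/
def R (o : ι) (σ : Equiv.Perm ι) (k : ℕ) : Prop := ∀ (α : Type) (Φ : (ι → α) → ℝ) (K : ℝ),
  (∀ i, Neg K fun x => e (Φ x - Φ (x ∘ Equiv.swap o i))) →
    Neg (K ^ k) fun x => e (Φ x - Φ (x ∘ σ))

theorem R.mul {o : ι} {σ τ : Equiv.Perm ι} {k l : ℕ} (h : R o σ k) (h' : R o τ l) :
    R o (σ * τ) (k + l) := fun α Φ K hK => by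
  have := neg_mul (h α Φ K hK) (neg_perm (h' α Φ K hK) σ)
  simp only [← e_add, sub_add_sub_cancel] at this
  rw [pow_add]
  exact this

theorem exists_R (o : ι) (σ : Equiv.Perm ι) : ∃ k, R o σ k := by
  have s : ∀ i, R o (Equiv.swap o i) 1 := fun i α Φ K hK => by simpa using hK i
  induction σ using Equiv.Perm.swap_induction_on with
  | one => exact ⟨0, fun α Φ K _ => by simpa [e] using neg_one⟩
  | swap_mul f x y hxy ih =>
    obtain ⟨k, hk⟩ := ih
    by_cases hx : x = o
    · subst hx; exact ⟨_, (s y).mul hk⟩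
    by_cases hy : y = o
    · subst hy; rw [Equiv.swap_comm]; exact ⟨_, (s x).mul hk⟩
    refine ⟨1 + 1 + 1 + k, ?_⟩
    have e : Equiv.swap o x * Equiv.swap o y * Equiv.swap o x = Equiv.swap x y := by
      rw [Equiv.swap_comm o y, Equiv.swap_mul_swap_mul_swap hy hxy.symm]
    exact e ▸ (((s x).mul (s y)).mul (s x)).mul hk

omit [Fintype ι] in
theorem ty_map {κ : Type} [DecidableEq κ] (f : ι ↪ κ) {r n : ℕ} {S : Finset ι}
    {F : (ι → ℝ) → ℝ} (h : Ty r S n F) : Ty r (S.map f) n fun x => F (x ∘ f) := by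
  induction h with
  | const c => exact .const c
  | var i => exact .var (f i)
  | add _ _ h h' => exact h.add h'
  | mul hd _ _ h h' => rw [map_union]; exact .mul ((disjoint_map f).2 hd) h h'
  | rnd hr _ h => exact .rnd (by rwa [card_map]) h
  | mono hs hn _ h => exact h.mono (map_subset_map.2 hs) hn

variable {r n m : ℕ} {A B : (ι → ℝ) → ℝ}

theorem ty_perm (h : Ty r univ n A) (σ : Equiv.Perm ι) : Ty r univ n fun x => A (x ∘ σ) :=
  (ty_map σ.toEmbedding h).mono (subset_univ _) le_rfl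

theorem ty_mul (h : Ty r univ n A) (c : ℝ) : Ty r univ n fun x => A x * c :=
  (Ty.mul (disjoint_empty_right _) h (.const c)).mono (subset_univ _) le_rfl

theorem ty_sub (h : Ty r univ n A) (h' : Ty r univ m B) : Ty r univ (n + m) fun x => A x - B x := by
  simpa [sub_eq_add_neg] using h.add (ty_mul h' (-1))

theorem ty_sum {β : Type} (s : Finset β) {f : β → (ι → ℝ) → ℝ} (h : ∀ b, Ty r univ n (f b)) :
    Ty r univ (#s * n) fun x => ∑ b ∈ s, f b x := by
  classical
  induction s using Finset.induction_on with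
  | empty => simpa using (Ty.const (r := r) (0 : ℝ)).mono (subset_univ _) le_rfl
  | insert a s ha ih =>
    simpa only [sum_insert ha, card_insert_of_notMem ha, add_mul, one_mul, add_comm]
      using (h a).add ih

theorem ty_top {d : ℕ} {Θ : (Fin d → ℝ) → ℝ} (h : Ty r univ n Θ) : Ty r univ n (top Θ) :=
  (Ty.mul (by simp) (ty_map (Fin.succEmb d) h) (.var 0)).mono (subset_univ _) le_rfl

theorem pow_le (a n : ℕ) : (a : ℝ) ^ n ≤ 2 ^ (a * n) := by
  rw [pow_mul]
  exact pow_le_pow_left₀ (by positivity) (by exact_mod_cast Nat.lt_two_pow_self.le) n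

end Sy

open Sy

/-- **symmetrisation** -/
theorem sym (d : ℕ) (hS : SWAP d) (hB : BIAS (Fin (d + 1))) (hD : DIV (Fin (d + 1))) : SYM d := by
  rcases Nat.eq_zero_or_pos d with rfl | hd
  · refine ⟨fun _ => 0, Poly.const 0, fun N _ L f A Θ _ _ _ => ?_⟩
    simpa [e] using neg_one
  choose k hk using exists_R (0 : Fin (d + 1))
  set m := (d + 1).factorial with hm
  have m1 : 1 ≤ m := Nat.factorial_pos _
  refine ⟨fun L => (d + 1) + (d + 5) * (L + m * L) + (m * 1 + (m + d + 4) * (L + m * L) +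
    ((d + 1) + (d + 5) * (L + L) + 2 * L) * ∑ σ, k σ), ?_, fun N _ L f A Θ hf hΘ hC => ?_⟩
  · have n := Poly.id.add ((Poly.const m).mul Poly.id)
    exact ((Poly.const _).add ((Poly.const _).mul n)).add (((Poly.const _).add
      ((Poly.const _).mul n)).add ((((Poly.const _).add ((Poly.const _).mul
        (Poly.id.add Poly.id))).add ((Poly.const 2).mul Poly.id)).mul (Poly.const _)))
  have t := ty_top hΘ
  have c2 : 2 ≤ Fintype.card (Fin (d + 1)) := by rw [Fintype.card_fin]; omega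
  have cd : d < Fintype.card (Fin (d + 1)) := by simp
  have h1 : ∀ i, Neg (2 ^ ((d + 1) + (d + 5) * (L + L) + 2 * L)) fun x : Fin (d + 1) → ZMod N =>
      e (top Θ (vl x) - top Θ (vl (x ∘ Equiv.swap 0 i))) := fun i => by
    obtain ⟨u, hu, h⟩ := hS N L f A Θ i hf hC
    refine neg_mono (hB d (L + L) N _ u (2 ^ (2 * L))⁻¹ c2 cd (ty_sub t (ty_perm t (Equiv.swap 0 i)))
      hu (by positivity) (by rwa [inv_le_iff_one_le_mul₀' (by positivity)])) ?_
    have := pow_le (d + 1 + 4) (L + L)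
    rw [div_inv_eq_mul, pow_add (2 : ℝ), pow_add (2 : ℝ) (d + 1), Fintype.card_fin]
    gcongr
    exact_mod_cast this
  have h2 := neg_sum univ fun σ => hk σ _ (fun x => top Θ (vl x)) _ h1
  have t2 := ty_sub t (ty_sum univ fun σ => ty_mul (ty_perm t σ) (m : ℝ)⁻¹)
  rw [card_univ, Fintype.card_perm, Fintype.card_fin, ← hm] at t2
  have m0 : (m : ℝ) ≠ 0 := by positivity
  refine neg_mono (hD d _ N m _ _ c2 cd t2 m1 (one_le_pow₀ (one_le_pow₀ one_le_two))
    (by
      convert h2 using 3 with x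
      rw [mul_sub, mul_sum, sum_sub_distrib, sum_const, card_univ, Fintype.card_perm,
        Fintype.card_fin, ← hm, nsmul_eq_mul]
      congr 1
      exact sum_congr rfl fun σ _ => by rw [mul_left_comm, mul_inv_cancel₀ m0, mul_one]; rfl)) ?_
  have a1 := pow_le (d + 1 + 4) (L + m * L)
  have a2 := pow_le (m + (d + 1) + 3) (L + m * L)
  have a3 := pow_le m 1
  rw [← pow_mul, pow_add (2 : ℝ), pow_add (2 : ℝ) (d + 1), pow_add (2 : ℝ) (m * 1 + _),
    pow_add (2 : ℝ) (m * 1), Fintype.card_fin]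
  gcongr
  · exact_mod_cast a1
  · simpa using a3
  · exact_mod_cast a2

end Crest.Agent.N49.Iv
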