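import Crest.Agent.N49.Iv.Neg
import Crest.Agent.N49.Iv.Sym

/-!
# Row 49 (helper7): the integration step `INT`
-/

set_option autoImplicit false
open Finset Function
open scoped BigOperators ComplexConjugate

namespace Crest.Agent.N49.Iv

namespace It

open Sy

theorem norm_e (x : ℝ) : ‖e x‖ = 1 := by
  have : (2 * Real.pi * x * Complex.I : ℂ) = ((2 * Real.pi * x : ℝ) : ℂ) * Complex.I := by
    push_cast; ring
  rw [e, this, Complex.norm_exp_ofReal_mul_I]

theorem conj_e (x : ℝ) : conj (e x) = e (-x) := by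
  rw [e, e, ← Complex.exp_conj]; congr 1; simp [Complex.conj_ofReal, map_ofNat]

theorem e_sum {κ : Type} (S : Finset κ) (g : κ → ℝ) : e (∑ i ∈ S, g i) = ∏ i ∈ S, e (g i) := by
  simp only [e, ← Complex.exp_sum]; congr 1; push_cast; rw [mul_sum, sum_mul]

theorem ind_sum {M k l : ℕ} (hk : k < M) (hl : l < M) :
    ∑ r ∈ range M, e (r * (((k : ℝ) - l) / M)) = if k = l then (M : ℂ) else 0 := by
  have hM : (M : ℝ) ≠ 0 := by exact_mod_cast (by omega : M ≠ 0)
  have pw : ∀ (r : ℕ) (t : ℝ), e (r * t) = e t ^ r := fun r t => by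
    rw [e, e, ← Complex.exp_nat_mul]; congr 1; push_cast; ring
  split_ifs with h
  · simp [h, e]
  · have h1 : e (((k : ℝ) - l) / M) ≠ 1 := fun h1 => by
      obtain ⟨n, hn⟩ := Complex.exp_eq_one_iff.1 h1
      have h2 : ((((k : ℝ) - l) / M : ℝ) : ℂ) = n :=
        mul_right_cancel₀ Complex.two_pi_I_ne_zero (by linear_combination hn)
      have h3 : ((k : ℝ) - l) / M = n := by exact_mod_cast h2
      rw [div_eq_iff hM] at h3
      have h4 : (k : ℤ) - l = n * M := by exact_mod_cast h3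
      rcases lt_trichotomy n 0 with h5 | h5 | h5
      · nlinarith
      · subst h5; omega
      · nlinarith
    simp only [pw]
    rw [geom_sum_eq h1, ← pw, mul_div_cancel₀ _ hM]
    have : e ((k : ℝ) - l) = 1 := by
      rw [e, ← Complex.exp_int_mul_two_pi_mul_I ((k : ℤ) - l)]; congr 1; push_cast; ring
    rw [this, sub_self, zero_div]

theorem diag {ι : Type} [DecidableEq ι] {r n : ℕ} {S : Finset ι} {F : (ι → ℝ) → ℝ}
    (h : Ty r S n F) : Dg #S n fun t => F fun _ => t := by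
  induction h with
  | const c => exact .const c
  | var i => exact Dg.var
  | add _ _ h h' => exact h.add h'
  | mul hd _ _ h h' => rw [card_union_of_disjoint hd]; exact h.mul h'
  | rnd _ _ h => exact h.rnd
  | mono hs hn _ h => exact h.mono (card_le_card hs) hn

variable {G : Type} [AddCommGroup G]

/-- all vertices of the cube but the last one omit a letter -/
theorem Dv_eq {f : G → ℂ} (hf : Gw.B1 f) (d : ℕ) : ∃ u : G → Fin d → (Fin d → G) → ℂ,
    (∀ x, Cy (u x)) ∧ ∀ x h, Gw.Dv h f x = f (x + ∑ i, h i) * ∏ i, u x i h := by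
  induction d with
  | zero => exact ⟨fun _ _ _ => 1, fun _ => Cy.one, fun x h => by simp [Gw.Dv]⟩
  | succ d ih =>
    obtain ⟨u, hu, h⟩ := ih
    refine ⟨fun x => Fin.cons (fun h => conj (Gw.Dv (Fin.tail h) f x))
      fun i h => u (x + h 0) i (Fin.tail h), fun x => ⟨fun i y => ?_, fun i y a => ?_⟩,
      fun x y => ?_⟩
    · refine Fin.cases ?_ (fun j => ?_) i
      · simpa using hf.Dv _ _
      · simpa using (hu _).1 _ _
    · refine Fin.cases ?_ (fun j => ?_) i
      · simp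
      · simp [(hu _).2, (Fin.succ_ne_zero j).symm]
    · rw [Gw.Dv, Gw.Dv_D, Gw.D, h, Fin.sum_univ_succ, Fin.prod_univ_succ, add_assoc]
      simp only [Fin.cons_zero, Fin.cons_succ, Fin.tail]
      ring

theorem pair [Fintype G] {d : ℕ} {K b : ℝ} (hb : 0 ≤ b) {g : G → ℂ}
    (hg : Gw.U d g ≤ b ^ 2 ^ (d + 1)) {W : (Fin (d + 1) → G) → ℂ} (hW : Neg K W) (x : G) :
    ‖𝔼 h, W h * g (x + ∑ i, h i)‖ ≤ K * b := by
  refine hW.pair_le univ id (fun h => g (x + ∑ i, h i)) fun u hu => ?_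
  have := Gw.gvn d (fun y => g (x + y)) u hu.1 hu.2
  rw [Gw.U_shift] at this
  simp only [id, mul_comm (∏ i, u i _)]
  exact le_of_pow_le_pow_left₀ (by positivity) hb (this.trans hg)

theorem wrap {N d : ℕ} [NeZero N] (x : ZMod N) (h : Fin d → ZMod N) : ∃ k < d + 1,
    (x.val : ℝ) - k * N + ∑ i, vl h i = ((x + ∑ i, h i).val : ℝ) := by
  have h1 : ((x.val + ∑ i, (h i).val : ℕ) : ZMod N) = x + ∑ i, h i := by simp
  have h2 : ∑ i, (h i).val ≤ d * N := by
    simpa using sum_le_card_nsmul univ (fun i => (h i).val) N fun i _ => (ZMod.val_lt _).le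
  refine ⟨(x.val + ∑ i, (h i).val) / N, ?_, ?_⟩
  · rw [Nat.div_lt_iff_lt_mul (NeZero.pos N)]
    nlinarith [ZMod.val_lt x]
  · have h3 := congrArg (Nat.cast : ℕ → ℝ) (Nat.mod_add_div (x.val + ∑ i, (h i).val) N)
    rw [← h1, ZMod.val_natCast]
    simp only [vl]
    rw [Nat.cast_add, Nat.cast_mul, Nat.cast_add x.val, Nat.cast_sum] at h3
    linarith

end It

open It Sy

/-- **integration** -/
theorem int {d : ℕ} (hC : COR d) (hS : SYM d) (hD : DIAG (Fin (d + 1))) (hd : 1 ≤ d) : INT d := by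
  obtain ⟨P1, p1, hC⟩ := hC
  obtain ⟨P2, p2, hS⟩ := hS
  obtain ⟨c, hD⟩ := hD
  refine ⟨fun L => (P1 L + (2 * (d + 2) + c * P1 L) + (P2 (P1 L) + c * P1 L) + 1) * 2 ^ (d + 1) +
    (P1 L + P1 L * P1 L), ((((p1.add ((Poly.const _).add ((Poly.const c).mul p1))).add
      ((p2.comp p1).add ((Poly.const c).mul p1))).add (Poly.const 1)).mul (Poly.const _)).add
        (p1.add (p1.mul p1)), fun N _ L f hf hU => ?_⟩
  obtain ⟨A, Θ, hΘ, hA⟩ := hC N L f hf hU
  have hs := hS N _ f A Θ hf hΘ hA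
  beta_reduce
  generalize P1 L = n at *
  generalize P2 n = m at *
  have hF := ty_mul (ty_top hΘ) ((d + 1).factorial : ℝ)⁻¹
  obtain ⟨J, _, Q, hJ, hQ, hw⟩ := hD d n _ (by simp) hF
  choose w hw hw' using hw
  obtain ⟨u, hu, hv⟩ := Dv_eq hf (d + 1)
  set E := n + (2 * (d + 2) + c * n) + (m + c * n) + 1 with hE
  by_contra hn
  push Not at hn
  have hN : (N : ℝ) ≠ 0 := by exact_mod_cast NeZero.ne N
  set R : ℕ → J → ℝ → ℝ := fun r j t => top Θ (fun _ => t) * ((d + 1).factorial : ℝ)⁻¹ +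
    ((-1) * Q j t + r / (N * (d + 2 : ℕ)) * t) with hR
  have hg : ∀ r j, Gw.U d (fun x => f x * e (-R r j (x.val : ℝ))) ≤
      ((2 : ℝ) ^ E)⁻¹ ^ 2 ^ (d + 1) := fun r j => by
    have h1 := hn (R r j) ((((diag hF).mono (by simp) le_rfl).add
      ((((Dg.const (-1)).mul (hQ j)).mono (by omega) le_rfl).add
        (((Dg.const _).mul Dg.var).mono (by omega) le_rfl))).mono le_rfl (by omega))
    rw [inv_pow, ← pow_mul, ← one_div, le_div_iff₀ (by positivity), mul_comm]
    exact (mul_le_mul_of_nonneg_right (pow_le_pow_right₀ one_le_two (Nat.le_add_right _ _))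
      (Gw.U_nonneg _ _)).trans h1.le
  set W : ZMod N → ℕ → ℕ → J → (Fin (d + 1) → ZMod N) → ℂ := fun x k r j h =>
    ((d + 2 : ℕ) : ℂ)⁻¹ * e (r * (x.val - k * N) / (N * (d + 2 : ℕ))) *
      ((∏ i, e (r * vl h i / (N * (d + 2 : ℕ)))) * ((∏ i, u x i h) *
        ((if Fin.tail h ∈ A then 1 else 0) * (conj (e (top Θ (vl h) -
          ∑ σ : Equiv.Perm (Fin (d + 1)), top Θ (vl h ∘ σ) / (d + 1).factorial)) *
            w (x.val - k * N) j (vl h))))) with hW
  have nW : ∀ x k r j, Neg (2 ^ m * (c : ℝ) ^ n) (W x k r j) := fun x k r j => by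
    have a1 : Neg 1 fun h : Fin (d + 1) → ZMod N => ∏ i, e (r * vl h i / (N * (d + 2 : ℕ))) := by
      simpa using Neg.prod_card univ (K := 1)
        (F := fun i (h : Fin (d + 1) → ZMod N) => e (r * vl h i / (N * (d + 2 : ℕ)))) fun i _ =>
          Neg.ind_card (S := {i}) (by simp; omega) (fun _ => (norm_e _).le) fun x y hy => by
            simp only [vl, hy i (mem_singleton_self i)]
    have a2 : Neg 1 fun h : Fin (d + 1) → ZMod N => (if Fin.tail h ∈ A then 1 else 0 : ℂ) :=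
      Neg.ind 0 (fun h => by split_ifs <;> simp) fun h a => by simp
    have a3 : ‖((d + 2 : ℕ) : ℂ)⁻¹ * e (r * (x.val - k * N) / (N * (d + 2 : ℕ)))‖ ≤ 1 := by
      rw [norm_mul, norm_e, mul_one, norm_inv, Complex.norm_natCast]
      exact inv_le_one_of_one_le₀ (by exact_mod_cast (by omega : 1 ≤ d + 2))
    exact ((a1.mul ((Neg.of_cy (hu x)).mul (a2.mul (hs.conj.mul (hw _ j).vl)))).smul_le a3).mono
      (by simp)
  have key : ∀ (h : Fin (d + 1) → ZMod N) x, Gw.Dv h f x * (if Fin.tail h ∈ A then 1 else 0) *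
      e (-top Θ (vl h)) = ∑ k ∈ range (d + 2), ∑ r ∈ range (d + 2), ∑ j, W x k r j h *
        (f (x + ∑ i, h i) * e (-R r j ((x + ∑ i, h i).val : ℝ))) := fun h x => by
    obtain ⟨k, hk, h1⟩ := wrap x h
    have h2 := hw' (x.val - k * N) (vl h)
    rw [h1] at h2
    generalize ((x + ∑ i, h i).val : ℝ) = X at *
    have h3 : ∀ l r j, W x l r j h * (f (x + ∑ i, h i) * e (-R r j X)) =
        e (r * (((k : ℝ) - l) / (d + 2 : ℕ))) * (((d + 2 : ℕ) : ℂ)⁻¹ * (Gw.Dv h f x *
          (if Fin.tail h ∈ A then 1 else 0) * e (-(top Θ (vl h) -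
          ∑ σ : Equiv.Perm (Fin (d + 1)), top Θ (vl h ∘ σ) / (d + 1).factorial) +
            -(top Θ (fun _ => X) * ((d + 1).factorial : ℝ)⁻¹))) *
              (e (Q j X) * w (x.val - l * N) j (vl h))) := fun l r j => by
      have : e (r * (x.val - l * N) / (N * (d + 2 : ℕ))) *
          (∏ i, e (r * vl h i / (N * (d + 2 : ℕ)))) * e (-R r j X) =
          e (r * (((k : ℝ) - l) / (d + 2 : ℕ))) *
            e (-(top Θ (fun _ => X) * ((d + 1).factorial : ℝ)⁻¹)) * e (Q j X) := by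
        rw [← e_sum, ← e_add, ← e_add, ← e_add, ← e_add, ← sum_div, ← mul_sum,
          show ∑ i, vl h i = X - (x.val - k * N) by linarith]
        congr 1
        simp only [hR]
        field_simp
        ring
      simp only [hW, hv, conj_e, e_add]
      linear_combination (((d + 2 : ℕ) : ℂ)⁻¹ * (∏ i, u x i h) * (if Fin.tail h ∈ A then 1 else 0) *
        e (-(top Θ (vl h) - ∑ σ : Equiv.Perm (Fin (d + 1)), top Θ (vl h ∘ σ) / (d + 1).factorial)) *
          w (x.val - l * N) j (vl h) * f (x + ∑ i, h i)) * this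
    simp only [h3, ← mul_sum, ← sum_mul]
    rw [sum_congr rfl fun l hl => by rw [ind_sum hk (mem_range.1 hl)]]
    simp only [ite_mul, zero_mul, sum_ite_eq, mem_range, hk, if_true]
    rw [← h2, ← mul_assoc, ← mul_assoc, mul_inv_cancel₀ (by exact_mod_cast (by omega : d + 2 ≠ 0)),
      one_mul, mul_assoc _ (e _) (e _), ← e_add]
    simp only [div_eq_mul_inv]
    congr 2
    ring
  have h1 := hA.2
  simp only [key] at h1
  rw [expect_comm] at h1
  have h2 : ∀ x : ZMod N, ‖𝔼 h : Fin (d + 1) → ZMod N, ∑ k ∈ range (d + 2), ∑ r ∈ range (d + 2),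
      ∑ j, W x k r j h * (f (x + ∑ i, h i) * e (-R r j ((x + ∑ i, h i).val : ℝ)))‖ ≤
      (d + 2 : ℕ) * ((d + 2 : ℕ) * (Fintype.card J * (2 ^ m * (c : ℝ) ^ n * (2 ^ E)⁻¹))) := by
    intro x
    simp only [expect_sum_comm]
    refine (norm_sum_le_of_le _ fun k _ => norm_sum_le_of_le _ fun r _ =>
      norm_sum_le_of_le _ fun j _ => pair (by positivity) (hg r j) (nW x k r j) x).trans_eq ?_
    simp
  have h3 := h1.trans (mul_le_mul_of_nonneg_left ((Gw.norm_expect _).trans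
    (expect_le univ_nonempty fun x _ => h2 x)) (by positivity))
  have b1 : ((d + 2 : ℕ) : ℝ) ≤ 2 ^ (d + 2) := by exact_mod_cast Nat.lt_two_pow_self.le
  have b2 := pow_le c n
  have b3 : (Fintype.card J : ℝ) ≤ 2 ^ (c * n) := le_trans (by exact_mod_cast hJ) b2
  have h4 := h3.trans (c := (2 : ℝ) ^ n * (2 ^ (d + 2) * (2 ^ (d + 2) * (2 ^ (c * n) *
    (2 ^ m * 2 ^ (c * n) * (2 ^ E)⁻¹))))) (by gcongr)
  have h5 : (2 : ℝ) ^ n * (2 ^ (d + 2) * (2 ^ (d + 2) * (2 ^ (c * n) *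
    (2 ^ m * 2 ^ (c * n) * (2 ^ E)⁻¹)))) = 2⁻¹ := by
    rw [hE]; field_simp; ring
  norm_num [h5] at h4

end Crest.Agent.N49.Iv
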