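import Crest.Agent.N49.Iv.St

/-!
# Row 49 (helper16): `MP` from the steps `S0 … S6`
-/

set_option autoImplicit false
open Finset Function
open scoped BigOperators

namespace Crest.Agent.N49.Iv

namespace Mp

theorem poly_iter {Q : ℕ → ℕ} (h : Poly Q) : ∀ n, Poly Q^[n]
  | 0 => Poly.id
  | n + 1 => by
    rw [Function.iterate_succ']
    exact h.comp (poly_iter h n)

theorem le_iter {Q : ℕ → ℕ} (h : ∀ L, L ≤ Q L) (n L : ℕ) : L ≤ Q^[n] L := by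
  induction n with
  | zero => exact le_rfl
  | succ n ih => rw [Function.iterate_succ_apply']; exact ih.trans (h _)

/-- shrink the base set once for each letter -/
theorem iter_sub {ι X : Type} [Fintype ι] [DecidableEq ι] {Q : ℕ → ℕ} (hQ : ∀ L, L ≤ Q L)
    (D : ℕ → Finset X → Prop) (R : ι → ℕ → Finset X → Prop) (L₀ : ℕ) (P₀ : Finset X)
    (hR : ∀ j L L' P P', L ≤ L' → P' ⊆ P → R j L P → R j L' P') (h0 : D L₀ P₀)
    (step : ∀ j L P, L₀ ≤ L → P ⊆ P₀ → D L P → ∃ P' ⊆ P, D (Q L) P' ∧ R j (Q L) P') :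
    ∃ P ⊆ P₀, D (Q^[Fintype.card ι] L₀) P ∧ ∀ j, R j (Q^[Fintype.card ι] L₀) P := by
  have key : ∀ J : Finset ι, ∃ P ⊆ P₀, D (Q^[#J] L₀) P ∧ ∀ j ∈ J, R j (Q^[#J] L₀) P := by
    intro J
    induction J using Finset.induction_on with
    | empty => exact ⟨P₀, subset_rfl, h0, by simp⟩
    | insert j J hj ih =>
      obtain ⟨P, hP, hD, hJ⟩ := ih
      obtain ⟨P', hP', hD', hj'⟩ := step j _ P (le_iter hQ _ _) hP hD
      rw [card_insert_of_notMem hj, Function.iterate_succ_apply']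
      refine ⟨P', hP'.trans hP, hD', fun i hi => ?_⟩
      rcases mem_insert.1 hi with rfl | hi
      · exact hj'
      · exact hR i _ _ _ _ (hQ _) hP' (hJ i hi)
  obtain ⟨P, hP, hD, hJ⟩ := key univ
  exact ⟨P, hP, hD, fun j => hJ j (mem_univ j)⟩

theorem l1_mono {κ : Type} {W W' : Finset (κ → ℤ)} {q q' : ℕ} (hW : W ⊆ W') (hq : q ∣ q')
    (h1 : 1 ≤ q') : L1 W q ≤ L1 W' q' := by
  rintro v ⟨z, hz⟩
  obtain ⟨c, rfl⟩ := hq
  have hc : (c : ℝ) ≠ 0 := by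
    rintro h
    have : c = 0 := by exact_mod_cast h
    simp [this] at h1
  refine ⟨fun r => z r * c, ?_⟩
  have e1 : (fun r => (((z r * c : ℤ) : ℝ)) / ((q * c : ℕ) : ℝ)) = fun r => (z r : ℝ) / q := by
    funext r; push_cast; rw [mul_div_mul_right _ _ hc]
  rw [e1]
  exact Submodule.span_mono (Set.image_mono (by exact_mod_cast hW)) hz

theorem lq_mono {κ Δ : Type} {W W' : Finset (κ → ℤ)} {q q' : ℕ} (hW : W ⊆ W') (hq : q ∣ q')
    (h1 : 1 ≤ q') : Lq Δ W q ≤ Lq Δ W' q' :=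
  fun _ hv l hl => l1_mono hW hq h1 (hv l hl)

theorem bd_mono {κ : Type} {W : Finset (κ → ℤ)} {q L L' : ℕ} (hL : L ≤ L') (h : Bd L W q) :
    Bd L' W q :=
  ⟨h.1.trans hL, fun k hk r => (h.2.1 k hk r).trans (pow_le_pow_right₀ (by norm_num) hL), h.2.2.1,
    h.2.2.2.trans (Nat.pow_le_pow_right (by norm_num) hL)⟩

theorem bd_union {ι κ : Type} [Fintype ι] [DecidableEq (κ → ℤ)] {W : ι → Finset (κ → ℤ)}
    {q : ι → ℕ} {L M : ℕ} (h : ∀ j, Bd L (W j) (q j)) (hM : (Fintype.card ι + 1) * L ≤ M) :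
    Bd M (univ.biUnion W) (∏ j, q j) := by
  have h1 : Fintype.card ι * L ≤ M := by nlinarith
  have h2 : L ≤ M := by nlinarith
  refine ⟨?_, fun k hk r => ?_, ?_, ?_⟩
  · refine (card_biUnion_le.trans (sum_le_sum fun j _ => (h j).1)).trans ?_
    simpa using h1
  · obtain ⟨j, -, hj⟩ := mem_biUnion.1 hk
    exact (bd_mono h2 (h j)).2.1 k hj r
  · exact Nat.succ_le_of_lt (prod_pos fun j _ => (h j).2.2.1)
  · refine (prod_le_prod' fun j _ => (h j).2.2.2).trans ?_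
    rw [prod_const, card_univ, ← pow_mul]
    exact Nat.pow_le_pow_right (by norm_num) (by rw [mul_comm]; exact h1)

theorem fr_mono {ι G V : Type} [DecidableEq ι] [AddCommGroup G] [AddCommGroup V]
    {H H' : AddSubgroup V} {j : ι} {P P' : Finset (ι → G)} {ψ : (ι → G) → V} (hH : H ≤ H')
    (hP : P' ⊆ P) (h : Fr H j P ψ) : Fr H' j P' ψ :=
  fun p a b c d e ha hb hc hd => hH (h p a b c d e (hP ha) (hP hb) (hP hc) (hP hd))

variable {ι : Type} [Fintype ι] [DecidableEq ι] {N : ℕ} [NeZero N] {Δ : Type}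

theorem pw_mono {L L' : ℕ} (hL : L ≤ L') : (2 : ℝ) ^ L / N ≤ 2 ^ L' / N :=
  div_le_div_of_nonneg_right (pow_le_pow_right₀ (by norm_num) hL) (Nat.cast_nonneg N)

theorem dn_mono {L L' : ℕ} {P : Finset (ι → ZMod N)} (hL : L ≤ L') (h : Dn L P) : Dn L' P :=
  h.trans (Nat.mul_le_mul_right _ (Nat.pow_le_pow_right (by norm_num) hL))

theorem good_res {s : St ι N Δ} {L L' : ℕ} {P : Finset (ι → ZMod N)} (h : s.Good L) (hL : L ≤ L')
    (hP : P ⊆ s.P) (hD : Dn L' P) : (s.res P).Good L' :=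
  ⟨hD, fun p hp => (h.fib p (hP hp)).trans
      (Nat.mul_le_mul_right _ (Nat.pow_le_pow_right (by norm_num) hL)), h.card.trans hL,
    fun p hp r => (h.bd p (hP hp) r).trans (pow_le_pow_right₀ (by norm_num) hL),
    fun p hp r => h.rat p (hP hp) r, h.one⟩

theorem good_mono {s : St ι N Δ} {L L' : ℕ} (h : s.Good L) (hL : L ≤ L') : s.Good L' :=
  good_res h hL subset_rfl (dn_mono hL h.dn)

theorem rep_res {s : St ι N Δ} {A : Finset ((ι → ZMod N) × ZMod N)}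
    {φ : (ι → ZMod N) × ZMod N → Δ → ℝ} {P : Finset (ι → ZMod N)} (h : s.Rep A φ) (hP : P ⊆ s.P) :
    (s.res P).Rep A φ := fun p hp => h p (hP hp)

theorem lc_mono {s : St ι N Δ} {L L' : ℕ} {P P' : Finset (ι → ZMod N)} {j : ι}
    {W : Finset (s.κ → ℤ)} {q : ℕ} (hL : L ≤ L') (hP : P' ⊆ P) (h : (s.res P).LC L j W q) :
    (s.res P').LC L' j W q := fun p hp a ha =>
  ⟨(h p (hP hp) a (hP ha)).1, fun k hk => ((h p (hP hp) a (hP ha)).2 k hk).trans (pw_mono hL)⟩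

theorem tr_mono {s : St ι N Δ} {L L' : ℕ} {P P' : Finset (ι → ZMod N)}
    {W : Finset (s.κ → ℤ)} (hL : L ≤ L') (hP : P' ⊆ P) (h : (s.res P).Tr L W) :
    (s.res P').Tr L' W := fun p hp k hk => (h p (hP hp) k hk).trans (pw_mono hL)

theorem ex_mono {s : St ι N Δ} {L L' : ℕ} {W : Finset (s.κ → ℤ)} {q : ℕ} (hL : L ≤ L')
    (h : Ex ι s L W q) : Ex ι s L' W q :=
  let ⟨a, Ξ, ha, hΞ, h⟩ := h
  ⟨a, Ξ, fun r => (ha r).mono subset_rfl hL, fun l r => (hΞ l r).mono subset_rfl hL, h⟩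

theorem fn_mono {A : Finset ((ι → ZMod N) × ZMod N)} {φ : (ι → ZMod N) × ZMod N → Δ → ℝ}
    {L L' : ℕ} {b : Prop} (hL : L ≤ L') (h : Fn L A φ b) : Fn L' A φ b :=
  let ⟨P, Y, β, F, h1, h2, h3, h4, h5⟩ := h
  ⟨P, Y, β, F, dn_mono hL h1, fun p hp => (h2 p hp).trans
    (Nat.mul_le_mul_right _ (Nat.pow_le_pow_right (by norm_num) hL)), h3,
    fun l => (h4 l).mono subset_rfl hL, h5⟩

end Mp

open Mp in
/-- the pair form of the induction step from its seven parts -/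
theorem mp {ι : Type} [Fintype ι] [DecidableEq ι] (h0 : S0 ι) (h1 : S1 ι) (h2 : S2 ι) (h3 : S3 ι)
    (h4 : S4 ι) (h5 : S5 ι) (h6 : S6 ι) : MP ι := by
  classical
  obtain ⟨P0, p0, h0⟩ := h0
  obtain ⟨P1, p1, h1⟩ := h1
  obtain ⟨P2, p2, h2⟩ := h2
  obtain ⟨P3, p3, h3⟩ := h3
  obtain ⟨P4, p4, h4⟩ := h4
  obtain ⟨P5, p5, h5⟩ := h5
  obtain ⟨P6, p6, h6⟩ := h6
  obtain ⟨Q, pQ, hQ, q0, q1, q2, q3, q4, q5, qu⟩ : ∃ Q, Poly Q ∧ (∀ L, L ≤ Q L) ∧
      (∀ L, P0 L ≤ Q L) ∧ (∀ L, P1 L ≤ Q L) ∧ (∀ L, P2 L ≤ Q L) ∧ (∀ L, P3 L ≤ Q L) ∧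
      (∀ L, P4 L ≤ Q L) ∧ (∀ L, P5 L ≤ Q L) ∧ ∀ L, (Fintype.card ι + 1) * L ≤ Q L :=
    ⟨fun L => L + P0 L + P1 L + P2 L + P3 L + P4 L + P5 L + (Fintype.card ι + 1) * L,
      ((((((Poly.id.add p0).add p1).add p2).add p3).add p4).add p5).add
        ((Poly.const _).mul Poly.id),
      by refine ⟨?_, ?_, ?_, ?_, ?_, ?_, ?_, ?_⟩ <;> intro L <;> beta_reduce <;> omega⟩
  set n := Fintype.card ι with hn
  have pn := poly_iter pQ n
  refine ⟨fun L => P6 (Q (Q (Q (Q^[n] (Q^[n] (Q^[n] (Q L))))))),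
    p6.comp (pQ.comp (pQ.comp (pQ.comp (pn.comp (pn.comp (pn.comp pQ)))))),
    fun N _ Δ _ A φ L hΔ hA hP hY => ?_⟩
  show Fn (P6 (Q (Q (Q (Q^[n] (Q^[n] (Q^[n] (Q L)))))))) A φ True
  -- all frequencies Freiman
  have key : ∀ J : Finset ι, ∃ s : St ι N Δ, s.Good (Q^[#J] (Q L)) ∧ s.Rep A φ ∧
      ∀ i ∈ J, Fr ⊥ i s.P s.γ := by
    intro J
    induction J using Finset.induction_on with
    | empty =>
      obtain ⟨s, hg, hr⟩ := h0 N Δ A φ L hΔ hA hY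
      exact ⟨s, good_mono hg (q0 L), hr, by simp⟩
    | insert j J hj ih =>
      obtain ⟨s, hg, hr, hJ⟩ := ih
      obtain ⟨s', hg', hr', hJ'⟩ := h1 N Δ A φ _ (hΔ.trans ((hQ L).trans (le_iter hQ _ _))) s j J
        hg hr hP hJ
      rw [card_insert_of_notMem hj, Function.iterate_succ_apply']
      exact ⟨s', good_mono hg' (q1 _), hr', hJ'⟩
  obtain ⟨s, hg, hr, hJ⟩ := key univ
  have hγ : ∀ i, Fr ⊥ i s.P s.γ := fun i => hJ i (mem_univ i)
  rw [card_univ, ← hn] at hg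
  have d1 : Fintype.card Δ ≤ Q^[n] (Q L) := hΔ.trans ((hQ L).trans (le_iter hQ _ _))
  generalize Q^[n] (Q L) = L1 at hg d1 ⊢
  -- constancy along lines
  obtain ⟨Pa, sa, da, ha⟩ := iter_sub (ι := ι) hQ Dn
    (fun j M P => ∃ W q, Bd M W q ∧ (s.res P).LC M j W q) L1 s.P
    (fun j M M' P P' hM hPP ⟨W, q, hb, hl⟩ => ⟨W, q, bd_mono hM hb, lc_mono hM hPP hl⟩) hg.dn
    (fun j M P hM hPP hD => by
      obtain ⟨P', s', d', W, q, hb, hl⟩ := h2 N Δ A φ M (d1.trans hM) (s.res P) j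
        (good_res hg hM hPP hD) (rep_res hr hPP) hP (fr_mono le_rfl hPP (hγ j))
      exact ⟨P', s', dn_mono (q2 M) d', W, q, bd_mono (q2 M) hb, lc_mono (q2 M) subset_rfl hl⟩)
  choose W q hb hl using ha
  rw [← hn] at da hb hl
  have l12 : L1 ≤ Q^[n] L1 := le_iter hQ _ _
  generalize Q^[n] L1 = L2 at da hb hl l12 ⊢
  -- the coefficients are Freiman
  obtain ⟨Pb, sb, db, hc⟩ := iter_sub (ι := ι) hQ Dn
    (fun j M P => ∃ W' q', Bd M W' q' ∧ (s.res P).Tr M W' ∧ Fr (Lq Δ W' q') j P s.t) L2 Pa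
    (fun j M M' P P' hM hPP ⟨W', q', hb, ht, hf⟩ =>
      ⟨W', q', bd_mono hM hb, tr_mono hM hPP ht, fr_mono le_rfl hPP hf⟩) da
    (fun j M P hM hPP hD => by
      obtain ⟨P', s', d', W', q', hb', ht, hf⟩ := h3 N Δ A φ M (d1.trans (l12.trans hM)) (s.res P) j
        (W j) (q j) (good_res hg (l12.trans hM) (hPP.trans sa) hD) (rep_res hr (hPP.trans sa)) hP
        (fr_mono le_rfl (hPP.trans sa) (hγ j)) (bd_mono hM (hb j)) (lc_mono hM hPP (hl j))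
      exact ⟨P', s', dn_mono (q3 M) d', W', q', bd_mono (q3 M) hb', tr_mono (q3 M) subset_rfl ht,
        hf⟩)
  choose W' q' hb' ht hf using hc
  rw [← hn] at db hb' ht
  have l23 : L2 ≤ Q^[n] L2 := le_iter hQ _ _
  generalize Q^[n] L2 = L3 at db hb' ht l23 ⊢
  have hU := bd_union hb' (qu L3)
  have l14 : L1 ≤ Q L3 := l12.trans (l23.trans (hQ _))
  obtain ⟨Pc, sc, dc, q'', hb'', hx⟩ := h4 N Δ A φ (Q L3) (d1.trans l14) (s.res Pb)
    (univ.biUnion W') (∏ j, q' j) (good_res hg l14 (sb.trans sa) (dn_mono (hQ _) db))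
    (fun j => fr_mono le_rfl (sb.trans sa) (hγ j)) hU
    (fun j => fr_mono (lq_mono (subset_biUnion_of_mem W' (mem_univ j))
      (dvd_prod_of_mem q' (mem_univ j)) hU.2.2.1) subset_rfl (hf j))
  have l35 : L3 ≤ Q (Q L3) := (hQ _).trans (hQ _)
  have sc' : Pc ⊆ Pb := sc
  have hF := h5 N Δ A φ (Q (Q L3)) (d1.trans (l14.trans (hQ _))) (s.res Pc) W q (univ.biUnion W') q''
    (good_res hg (l14.trans (hQ _)) (sc'.trans (sb.trans sa)) (dn_mono (q4 _) dc))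
    (rep_res hr (sc'.trans (sb.trans sa)))
    (fun j => ⟨bd_mono (l23.trans l35) (hb j), lc_mono (l23.trans l35) (sc'.trans sb) (hl j)⟩)
    (bd_mono (q4 _) hb'')
    (fun p hp k hk => by
      obtain ⟨j, -, hj⟩ := mem_biUnion.1 hk
      exact tr_mono l35 sc' (ht j) p hp k hj)
    (ex_mono (q4 _) hx)
  exact h6 N Δ A φ _ (d1.trans (l14.trans ((hQ _).trans (hQ _)))) hP (fn_mono (q5 _) hF)

end Crest.Agent.N49.Iv
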