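import Crest.Agent.N49.Iv.St
import Crest.Agent.N49.Fr.One
import Crest.Agent.N49.Mh.Rep

/-!
# Row 49 (helper12): the step `S0` (fibrewise Sanders)
-/

set_option autoImplicit false
open Finset Function
open scoped BigOperators Combinatorics.Additive Pointwise

namespace Crest.Agent.N49.Iv

theorem round_close {x y : ℝ} (h : |x - y| < 1) : round x - round y ∈ Icc (-1 : ℤ) 1 := by
  have a := abs_le.1 (abs_sub_round x); have b := abs_le.1 (abs_sub_round y)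
  have c := abs_lt.1 h
  have k : (-2 : ℝ) < (round x - round y : ℤ) ∧ ((round x - round y : ℤ) : ℝ) < 2 := by
    push_cast; constructor <;> linarith
  have : (-2 : ℤ) < round x - round y ∧ round x - round y < 2 := by exact_mod_cast k
  rw [mem_Icc]; omega

/-- order `2` to order `6` on `ZMod N` -/
theorem up6 : ∃ C : ℕ, ∀ (N : ℕ) [NeZero N] (V : Type) [AddCommGroup V] (W : AddSubgroup V) (m : ℕ)
    (Y : Finset (ZMod N)) (ψ : ZMod N → V), 1 ≤ m → N ≤ 2 ^ m * #Y →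
    (∀ a b c d, a + b = c + d → a ∈ Y → b ∈ Y → c ∈ Y → d ∈ Y → ψ a + ψ b - ψ c - ψ d ∈ W) →
    ∃ Y' ⊆ Y, N ≤ 2 ^ (C * m) * #Y' ∧ Fr.Fh 6 Y' fun a => (ψ a : V ⧸ W) := by
  obtain ⟨C, hC⟩ := Fr.fre.{0, 0} 6
  refine ⟨C * 4, fun N _ V _ W m Y ψ hm h hψ => ?_⟩
  classical
  obtain ⟨Y', a, b, c⟩ := hC Y (fun a => (ψ a : V ⧸ W)) (4 * m) (by omega) (by
    refine le_trans ?_ (Nat.mul_le_mul_left _ (Fr.Q_le _ _))
    have e : E[Y, Y] ≤ Fr.Q Y fun a => (ψ a : V ⧸ W) := card_le_card fun x hx => by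
      simp only [mem_filter, mem_product] at hx ⊢
      refine ⟨hx.1, hx.2, ?_⟩
      rw [← QuotientAddGroup.mk_add, ← QuotientAddGroup.mk_add, QuotientAddGroup.eq_iff_sub_mem,
        ← sub_sub]
      exact hψ _ _ _ _ hx.2 hx.1.1.1 hx.1.2.1 hx.1.1.2 hx.1.2.2
    have e2 := (le_card_add_mul_addEnergy Y Y).trans (Nat.mul_le_mul (card_le_univ _) e)
    rw [ZMod.card] at e2 ⊢
    refine Nat.le_of_mul_le_mul_left ?_ (NeZero.pos N)
    calc N * N ^ 3 = N ^ 4 := by ring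
      _ ≤ (2 ^ m * #Y) ^ 4 := Nat.pow_le_pow_left h 4
      _ = 2 ^ (4 * m) * (#Y ^ 2 * #Y ^ 2) := by ring
      _ ≤ _ := (Nat.mul_le_mul_left _ e2).trans_eq (by ring))
  exact ⟨Y', a, by rwa [ZMod.card, ← mul_assoc] at b, .of_isAddFreimanHom c⟩

/-- MH₁ on `ZMod N` with frequencies in `ℤ / N` -/
theorem repZ {N m R : ℕ} [NeZero N] {V : Type*} [AddCommGroup V] (W : AddSubgroup V)
    {Y : Finset (ZMod N)} {ψ : ZMod N → V} (h : N ≤ 2 ^ m * #Y) (hR : 2 ^ 16 * (m + 6) ^ 4 ≤ R)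
    (hψ : Fr.Fh 6 Y fun a => (ψ a : V ⧸ W)) :
    ∃ (r : Fin R → ℕ) (β θ : V) (t : Fin R → V), (∀ i, r i < N) ∧ ∃ Y' ⊆ Y,
      N ≤ 2 ^ (2 ^ 22 * (m + 6) ^ 5 + 2 * R) * #Y' ∧ ∀ y ∈ Y',
        ψ y - (β + y.val • θ + ∑ i, round ((r i : ℝ) / N * y.val) • t i) ∈ W := by
  have n0 := NeZero.pos N
  have n1 : (0 : ℝ) < N := by exact_mod_cast n0
  have inj : Injective fun y : ZMod N => (y.val : ℤ) := fun a b e =>
    ZMod.val_injective N (Int.natCast_inj.1 e)
  obtain ⟨r, β, θ, t, hr, A, a, b, c⟩ := Mh.rep1 (φ := fun a : ℤ => ψ a) n0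
    (A := Y.image fun y => (y.val : ℤ)) (fun x hx => by
      obtain ⟨y, -, rfl⟩ := mem_image.1 hx
      exact mem_Ico.2 ⟨by positivity, by exact_mod_cast y.val_lt⟩)
    (by rwa [card_image_of_injective _ inj]) hR W fun u v hu hv e => by
      have k : ∀ x ∈ Y.image fun y => (y.val : ℤ), (x : ZMod N) ∈ Y := fun x hx => by
        obtain ⟨y, hy, rfl⟩ := mem_image.1 hx
        simpa using hy
      exact hψ (fun i => u i) (fun i => v i) (fun i => k _ (hu i)) (fun i => k _ (hv i))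
        (by rw [← Int.cast_sum, e, Int.cast_sum])
  have b' : #A ≤ #{y ∈ Y | (y.val : ℤ) ∈ A} := card_le_card_of_surjOn (fun y => (y.val : ℤ))
    fun x hx => by
      obtain ⟨y, hy, rfl⟩ := mem_image.1 (a hx)
      exact ⟨y, mem_coe.2 (mem_filter.2 ⟨hy, hx⟩), rfl⟩
  obtain ⟨Y', a2, b2, c2⟩ := To.exists_fibre {y ∈ Y | (y.val : ℤ) ∈ A}
    (fun y i => round ((r i : ℝ) / (4 * N : ℕ) * (y.val : ℤ)) - round (((r i / 4 : ℕ) : ℝ) / N * y.val))
    (B := Fintype.piFinset fun _ => Icc (-1) 1) fun y _ => Fintype.mem_piFinset.2 fun i => by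
      refine round_close ?_
      have e : (r i : ℝ) = 4 * (r i / 4 : ℕ) + (r i % 4 : ℕ) := by
        exact_mod_cast (Nat.div_add_mod _ _).symm
      have k : ((r i % 4 : ℕ) : ℝ) < 4 := by exact_mod_cast Nat.mod_lt _ four_pos
      have y1 : (y.val : ℝ) < N := by exact_mod_cast y.val_lt
      have : (r i : ℝ) / (4 * N : ℕ) * (y.val : ℤ) - ((r i / 4 : ℕ) : ℝ) / N * y.val =
          (r i % 4 : ℕ) * y.val / (4 * N) := by
        conv_lhs => rw [e]
        rw [Int.cast_natCast, Nat.cast_mul, Nat.cast_ofNat]; field_simp; ring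
      rw [this, abs_of_nonneg (by positivity), div_lt_one (by positivity)]
      exact mul_lt_mul'' k y1 (by positivity) (by positivity)
  have n2 : N ≤ 2 ^ (2 ^ 22 * (m + 6) ^ 5 + 2 * R) * #Y' := by
    refine b.trans ((Nat.mul_le_mul_left _ (b'.trans b2)).trans ?_)
    rw [← mul_assoc, pow_add]
    refine Nat.mul_le_mul_right _ (Nat.mul_le_mul_left _ ?_)
    rw [pow_mul]; simpa using Nat.pow_le_pow_left (by norm_num : 3 ≤ 4) R
  obtain ⟨x, hx⟩ : Y'.Nonempty := card_pos.1 (Nat.pos_of_mul_pos_left (n0.trans_le n2))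
  refine ⟨fun i => r i / 4, β + ∑ i, (round ((r i : ℝ) / (4 * N : ℕ) * (x.val : ℤ)) -
    round (((r i / 4 : ℕ) : ℝ) / N * x.val)) • t i, θ, t, fun i => Nat.div_lt_of_lt_mul (hr i), Y',
    a2.trans (filter_subset _ _), n2, fun y hy => ?_⟩
  have := c _ (mem_filter.1 (a2 hy)).2
  rw [Int.cast_natCast, ZMod.natCast_zmod_val, natCast_zsmul] at this
  convert this using 2
  rw [add_right_comm β, add_assoc, ← sum_add_distrib]
  refine congrArg _ (sum_congr rfl fun i _ => ?_)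
  rw [← add_smul, ← congrFun (c2 y hy x hx) i, sub_add_cancel]

theorem s0 (ι : Type) [Fintype ι] [DecidableEq ι] : S0 ι := by
  obtain ⟨C, hC⟩ := up6
  refine ⟨fun L => 2 ^ 23 * (C * (L + 1) + 6) ^ 5 + (L + 1), ((Poly.const _).mul ((((Poly.const C).mul
    (Poly.id.add (Poly.const 1))).add (Poly.const 6)).pow 5)).add (Poly.id.add (Poly.const 1)),
    fun N _ Δ _ A φ L _ hA hY => ?_⟩
  beta_reduce
  set m := C * (L + 1)
  have n1 : (0 : ℝ) < N := by exact_mod_cast NeZero.pos N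
  let Y : (ι → ZMod N) → Finset (ZMod N) := fun p => {y | (p, y) ∈ A}
  have k : ∀ p, ∃ (r : Fin (2 ^ 16 * (m + 6) ^ 4) → ℕ) (β θ : Δ → ℝ) (t : _ → Δ → ℝ)
      (Y' : Finset (ZMod N)), (∀ i, r i < N) ∧ Y' ⊆ Y p ∧ (N ≤ 2 ^ (L + 1) * #(Y p) →
        N ≤ 2 ^ (2 ^ 22 * (m + 6) ^ 5 + 2 * (2 ^ 16 * (m + 6) ^ 4)) * #Y') ∧ ∀ y ∈ Y',
        φ (p, y) - (β + y.val • θ + ∑ i, round ((r i : ℝ) / N * y.val) • t i) ∈ ZL Δ := by
    intro p
    by_cases c : N ≤ 2 ^ (L + 1) * #(Y p)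
    · obtain ⟨Y1, a, b, d⟩ := hC N _ (ZL Δ) (L + 1) (Y p) (fun y => φ (p, y)) (by omega) c
        fun a b c d e ha hb hc hd => hY p a b c d e (mem_filter.1 ha).2 (mem_filter.1 hb).2
          (mem_filter.1 hc).2 (mem_filter.1 hd).2
      obtain ⟨r, β, θ, t, e, Y', f, g, h⟩ := repZ (ZL Δ) b le_rfl d
      exact ⟨r, β, θ, t, Y', e, f.trans a, fun _ => g, h⟩
    · exact ⟨0, 0, 0, 0, ∅, fun _ => NeZero.pos N, empty_subset _, fun a => (c a).elim, by simp⟩
  choose r β θ t Y' a b c d using k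
  have g := Mh.card_good univ (fun p => #(Y p)) (m := L) (NeZero.pos N)
    (fun p _ => (card_le_univ _).trans_eq (ZMod.card N)) (by
      rw [Fintype.card_prod, ZMod.card] at hA
      refine hA.trans (Nat.mul_le_mul_left _ ?_)
      rw [card_eq_sum_card_fiberwise (f := Prod.fst) (t := univ) fun _ _ => mem_univ _]
      refine sum_le_sum fun p _ => card_le_card_of_injOn Prod.snd (fun x hx => ?_)
        fun x hx y hy e => Prod.ext ((mem_filter.1 hx).2.trans (mem_filter.1 hy).2.symm) e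
      obtain ⟨h1, rfl⟩ := mem_filter.1 hx
      exact mem_coe.2 (mem_filter.2 ⟨mem_univ _, h1⟩))
  have p4 : (m + 6) ^ 4 ≤ (m + 6) ^ 5 := Nat.pow_le_pow_right (by omega) (by norm_num)
  refine ⟨⟨Option (Fin (2 ^ 16 * (m + 6) ^ 4)), none, {p | N ≤ 2 ^ (L + 1) * #(Y p)}, Y', β,
    fun p l o => o.elim (θ p l) fun i => t p i l, fun p o => o.elim 1 fun i => r p i / N⟩,
    ⟨g.trans (Nat.mul_le_mul_right _ (Nat.pow_le_pow_right two_pos (by omega))), fun p hp =>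
      (c p (mem_filter.1 hp).2).trans (Nat.mul_le_mul_right _ (Nat.pow_le_pow_right two_pos
        (by omega))), by simp only [Fintype.card_option, Fintype.card_fin]; omega,
      fun p _ o => le_trans ?_ (one_le_pow₀ one_le_two), fun p _ o => ?_, fun _ => rfl⟩,
    fun p _ y hy => ⟨(mem_filter.1 (b p hy)).2, fun l => ?_⟩⟩
  · rcases o with _ | i
    · simp
    · have : (r p i : ℝ) ≤ N := by exact_mod_cast (a p i).le
      exact (abs_of_nonneg (div_nonneg (Nat.cast_nonneg _) n1.le)).trans_le ((div_le_one n1).2 this)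
  · rcases o with _ | i
    · exact ⟨N, by simp⟩
    · exact ⟨r p i, by simp only [Option.elim]; field_simp; simp⟩
  · obtain ⟨z, hz⟩ := d p y hy l
    refine ⟨z, hz ▸ ?_⟩
    simp [-ZMod.natCast_val, Fintype.sum_option, sub_sub, mul_comm, add_assoc]

end Crest.Agent.N49.Iv
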