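import Crest.Agent.N49.Iv.Cf
import Crest.Agent.N49.Iv.Frw

/-! Row 49, Iv (helper42): `s1 : S1 ι`. -/

set_option autoImplicit false
open Finset Function

namespace Crest.Agent.N49.Iv

namespace S1a

/-- projection of `L1` along a map of index sets -/
theorem L1_proj {κ κ' : Type} [DecidableEq (κ' → ℤ)] (π : κ' → κ) {W : Finset (κ → ℤ)} {q : ℕ}
    {v : κ → ℝ} (h : v ∈ L1 W q) : v ∘ π ∈ L1 (W.image (· ∘ π)) q := by
  obtain ⟨z, c, hz⟩ := L1_coord h
  refine ⟨z ∘ π, ?_⟩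
  have : (v ∘ π - fun r => (((z ∘ π) r : ℤ) : ℝ) / q) = ∑ k ∈ W, c k • La.ci (k ∘ π) := by
    ext r
    simp only [Pi.sub_apply, comp_apply, hz, add_sub_cancel_left, Finset.sum_apply, Pi.smul_apply,
      smul_eq_mul]
    rfl
  rw [this]
  exact Submodule.sum_mem _ fun k hk => Submodule.smul_mem _ _
    (Submodule.subset_span ⟨_, mem_coe.2 (mem_image_of_mem _ hk), rfl⟩)

theorem dot_split {κ : Type} [Fintype κ] (k : Option (Fin 4 × κ) → ℤ) (g : Fin 4 → κ → ℝ) :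
    (dot k fun o => o.elim 1 fun v => g v.1 v.2) =
      k none + ∑ i, dot (fun r => k (some (i, r))) (g i) := by
  simp [dot, Fintype.sum_option, Fintype.sum_prod_type]

end S1a

open S1a in
theorem s1 (ι : Type) [Fintype ι] [DecidableEq ι] (hG : GQ ι) (hC : CF ι) : S1 ι := by
  classical
  obtain ⟨P₁, p₁, hG⟩ := hG
  obtain ⟨P₃, p₃, hC⟩ := hC
  obtain ⟨P₂, p₂, hF⟩ := frw4
  refine ⟨fun L => P₃ (L + P₁ L + P₂ (P₁ L + P₁ L * (P₁ L + 2))), p₃.comp ((Poly.id.add p₁).add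
    (p₂.comp (p₁.add (p₁.mul (p₁.add (Poly.const 2)))))),
    fun N _ Δ _ A φ L hΔ s j J hs hr hf hJ => ?_⟩
  obtain ⟨W, q, Q, hW, hQ, h⟩ := hG N Δ A φ L hΔ s j hs hr hf
  set M := P₁ L
  have N0 : (0 : ℝ) < N := Nat.cast_pos.2 (NeZero.pos N)
  let ψ : Fin 4 → (ι → ZMod N) → W → ℝ := fun i p k => dot (fun r => k.1 (some (i, r))) (s.γ p)
  let u : (ι → ZMod N) × ZMod N × ZMod N → W → ℤ := fun x k =>
    round (N * (k.1 none + ∑ i, ψ i (qp j x i) k))
  have hu : ∀ x ∈ Q, ∀ k, (u x k : ℝ) = N * (k.1 none + ∑ i, ψ i (qp j x i) k) := fun x hx k => by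
    choose z hz using fun i r => hs.rat _ ((h x hx).1 i) r
    have : N * (k.1 none + ∑ i, ψ i (qp j x i) k) =
        ((N * k.1 none + ∑ i, ∑ r, k.1 (some (i, r)) * z i r : ℤ) : ℝ) := by
      push_cast
      simp only [ψ, dot, mul_add, mul_sum, ← hz]
      exact congrArg _ (sum_congr rfl fun i _ => sum_congr rfl fun r _ => by ring)
    simp only [u]
    rw [this, round_intCast]
  obtain ⟨x₀, h₀, Q', hQ', c1, e⟩ := abs_int Q u (a := M) (b := M) (by simpa using hW.1)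
    (fun x hx k => by
      have := (h x hx).2.1 k.1 k.2
      rw [dot_split k.1 fun i => s.γ (qp j x i), le_div_iff₀ N0] at this
      have e : (|u x k| : ℝ) ≤ 2 ^ M := by rwa [hu x hx, abs_mul, abs_of_pos N0, mul_comm]
      exact_mod_cast e) Fintype.card_pos hQ
  obtain ⟨A', hA', c2, f⟩ := hF ι (ZMod N) (W → ℝ) ⊥ j _ (Q.image Prod.fst) (ψ 0) (ψ 1) (ψ 2) (ψ 3)
    (∑ i, ψ i (qp j x₀ i)) Q' c1 fun x hx => ⟨mem_image_of_mem _ (hQ' hx), by
      refine AddSubgroup.mem_bot.2 (sub_eq_zero.2 (funext fun k => ?_))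
      have := (hu x (hQ' hx) k).symm.trans ((congrArg _ (congrFun (e x hx) k)).trans (hu x₀ h₀ k))
      have := add_left_cancel (mul_left_cancel₀ N0.ne' this)
      rw [Finset.sum_apply, ← this, Fin.sum_univ_four]
      rfl⟩
  have hP : ∀ p ∈ A', ∃ x ∈ Q, x.1 = p := fun p hp => mem_image.1 (hA' hp)
  have sP : A' ⊆ s.P := fun p hp => by
    obtain ⟨x, hx, rfl⟩ := hP p hp
    exact (h x hx).1 0
  set L' := L + M + P₂ (M + M * (M + 2))
  have l1 : L ≤ L' := by omega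
  have l2 : M ≤ L' := by omega
  have w : ∀ {a b : ℕ}, a ≤ b → 2 ^ a ≤ 2 ^ b := Nat.pow_le_pow_right two_pos
  obtain ⟨s', g', r', e', k'⟩ := hC N Δ A φ L' (hΔ.trans l1) (s.res A')
    (W.image (· ∘ fun r => some (0, r))) q
    ⟨c2.trans (Nat.mul_le_mul_right _ (w (by omega))),
      fun p hp => (hs.fib p (sP hp)).trans (Nat.mul_le_mul_right _ (w l1)), hs.card.trans l1,
      fun p hp r => (hs.bd p (sP hp) r).trans (pow_le_pow_right₀ one_le_two l1),
      fun p hp => hs.rat p (sP hp), hs.one⟩ (fun p hp => hr p (sP hp))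
    ⟨card_image_le.trans (hW.1.trans l2), fun k hk r => by
      obtain ⟨k, hk1, rfl⟩ := mem_image.1 hk
      exact (hW.2.1 k hk1 _).trans (pow_le_pow_right₀ one_le_two l2), hW.2.2.1,
      hW.2.2.2.trans (w l2)⟩
    fun p hp l _ => by
      obtain ⟨x, hx, rfl⟩ := hP p hp
      have := L1_proj (fun r => some (0, r)) ((h x hx).2.2 l)
      rwa [show ((fun o : Option (Fin 4 × s.κ) => o.elim (0 : ℝ) fun v =>
        (![1, 1, -1, -1] v.1 : ℝ) * s.t (qp j x v.1) l v.2) ∘ fun r => some (0, r)) = s.t x.1 l from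
        funext fun r => one_mul _] at this
  refine ⟨s', g', r', fun i hi p a b c d he ha hb hc hd =>
    AddSubgroup.mem_bot.2 (funext fun r => ?_)⟩
  rw [e'] at ha hb hc hd
  rcases k' r with rfl | ⟨k, hk, hk'⟩
  · simp [g'.one]
  · obtain ⟨k, hk1, rfl⟩ := mem_image.1 hk
    simp only [Pi.add_apply, Pi.sub_apply, hk', Pi.zero_apply]
    rcases mem_insert.1 hi with rfl | hi
    · exact congrFun (AddSubgroup.mem_bot.1 (f p a b c d he ha hb hc hd)) ⟨k, hk1⟩
    · have := AddSubgroup.mem_bot.1 (hJ i hi p a b c d he (sP ha) (sP hb) (sP hc) (sP hd))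
      simp only [dot, ← sum_add_distrib, ← sum_sub_distrib, ← mul_add, ← mul_sub]
      exact sum_eq_zero fun r _ => mul_eq_zero_of_right _ (congrFun this r)

end Crest.Agent.N49.Iv
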