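import Crest.Agent.N49.Iv.St

/-!
# Row 49 (helper71): step `S2`, coefficients and frequencies which are constant along lines
-/

set_option autoImplicit false
open Finset Function
open scoped BigOperators

namespace Crest.Agent.N49.Iv

namespace S2a

variable {κ : Type}

/-- difference of the first two blocks -/
def df (k : Option (Fin 4 × κ) → ℤ) : κ → ℤ := fun r => k (some (0, r)) - k (some (1, r))

def dR : (Option (Fin 4 × κ) → ℝ) →ₗ[ℝ] κ → ℝ where
  toFun v r := v (some (0, r)) - v (some (1, r))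
  map_add' u v := by ext r; simp; ring
  map_smul' c v := by ext r; simp; ring

theorem dR_mem [DecidableEq (κ → ℤ)] {W : Finset (Option (Fin 4 × κ) → ℤ)} {q : ℕ}
    {v : Option (Fin 4 × κ) → ℝ} (h : v ∈ L1 W q) : dR v ∈ L1 (W.image df) q := by
  obtain ⟨z, hz⟩ := h
  refine ⟨df z, ?_⟩
  have h1 : (sp W).map dR ≤ sp (W.image df) := by
    rw [sp, Submodule.map_span, Submodule.span_le]
    rintro _ ⟨_, ⟨k, hk, rfl⟩, rfl⟩
    refine Submodule.subset_span ⟨df k, by simpa using ⟨k, hk, rfl⟩, ?_⟩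
    ext r
    simp [dR, df, La.ci]
  convert h1 (Submodule.mem_map_of_mem hz) using 1
  ext r
  simp [dR, df]
  ring

theorem count {X G : Type} [Fintype X] [DecidableEq X] [AddCommGroup G] [Fintype G]
    [DecidableEq G] (π : X → G) (M : ℕ) (Q : Finset (X × G × G))
    (hQ : Fintype.card (X × G × G) ≤ 2 ^ M * #Q) :
    ∃ (c : G) (b : G × G) (P : Finset X), Fintype.card X ≤ 2 ^ (2 * M) * #P ∧
      ∀ p ∈ P, (p, b) ∈ Q ∧ ∃ a : G × G, (p, a) ∈ Q ∧ a.1 + a.2 - π p = c := by
  classical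
  set n := Fintype.card G with hn
  have n0 : 0 < n := Fintype.card_pos
  let D : X → Finset (G × G) := fun p => univ.filter fun a => (p, a) ∈ Q
  let R : X → Finset G := fun p => (D p).image fun a => a.1 + a.2 - π p
  let Xs : G × G × G → Finset X := fun z => univ.filter fun p => z ∈ R p ×ˢ D p
  have h1 : ∀ p, #(D p) ≤ n * #(R p) := fun p => by
    rw [hn, ← card_univ, ← card_product]
    refine card_le_card_of_injOn (fun a => (a.1, a.1 + a.2 - π p)) (fun a ha => ?_)
      fun a _ a' _ e => ?_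
    · exact mem_coe.2 (mem_product.2 ⟨mem_univ _, mem_image_of_mem _ ha⟩)
    · obtain ⟨e1, e2⟩ := Prod.mk.inj e
      refine Prod.ext e1 ?_
      rw [e1] at e2
      simpa using e2
  have h2 : ∑ p, #(D p) = #Q := by
    rw [card_eq_sum_card_fiberwise (f := Prod.fst) (t := univ) fun _ _ => mem_coe.2 (mem_univ _)]
    refine sum_congr rfl fun p _ => card_bij (fun a _ => (p, a)) ?_ ?_ ?_
    · intro a ha; simpa [D] using ha
    · intro a _ a' _ e; exact (Prod.mk.inj e).2
    · rintro ⟨p', a⟩ h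
      obtain ⟨h, rfl⟩ := mem_filter.1 h
      exact ⟨a, by simpa [D] using h, rfl⟩
  have h3 : ∑ z, #(Xs z) = ∑ p, #(R p) * #(D p) := by
    simp only [Xs, card_filter]
    rw [sum_comm]
    refine sum_congr rfl fun p _ => ?_
    rw [← card_filter, ← card_product]
    congr 1
    ext z
    simp
  obtain ⟨z, -, hz⟩ := exists_max_image univ (fun z => #(Xs z)) univ_nonempty
  have h4 : ∑ z, #(Xs z) ≤ n ^ 3 * #(Xs z) := by
    refine (sum_le_card_nsmul _ _ _ hz).trans (le_of_eq ?_)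
    simp only [card_univ, Fintype.card_prod, smul_eq_mul, ← hn]
    ring
  have h5 : #Q ^ 2 ≤ Fintype.card X * ∑ p, #(D p) ^ 2 := h2 ▸ sq_sum_le_card_mul_sum_sq
  have h6 : ∑ p, #(D p) ^ 2 ≤ n * ∑ p, #(R p) * #(D p) := by
    rw [mul_sum]
    exact sum_le_sum fun p _ => by rw [sq, ← mul_assoc]; exact Nat.mul_le_mul_right _ (h1 p)
  refine ⟨z.1, z.2, Xs z, ?_, fun p hp => ?_⟩
  · rcases Nat.eq_zero_or_pos (Fintype.card X) with h0 | h0
    · simp [h0]
    simp only [Fintype.card_prod, ← hn] at hQ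
    have h7 : (Fintype.card X * (n * n)) ^ 2 ≤
        2 ^ (2 * M) * (Fintype.card X * (n * (n ^ 3 * #(Xs z)))) := by
      refine (Nat.pow_le_pow_left hQ 2).trans ?_
      rw [mul_pow, ← pow_mul, mul_comm M 2]
      exact Nat.mul_le_mul_left _ (h5.trans (Nat.mul_le_mul_left _
        (h6.trans (Nat.mul_le_mul_left _ (h3 ▸ h4)))))
    refine Nat.le_of_mul_le_mul_left (c := Fintype.card X * n ^ 4) ?_ (by positivity)
    calc _ = (Fintype.card X * (n * n)) ^ 2 := by ring
      _ ≤ _ := h7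
      _ = _ := by ring
  · obtain ⟨e1, e2⟩ := mem_product.1 (mem_filter.1 hp).2
    obtain ⟨a, ha, e⟩ := mem_image.1 e1
    exact ⟨(mem_filter.1 e2).2, a, (mem_filter.1 ha).2, e⟩

theorem dot_eq [Fintype κ] (k : Option (Fin 4 × κ) → ℤ) (g : Fin 4 → κ → ℝ)
    (h : g 0 + g 1 - g 2 - g 3 = 0) :
    (dot k fun o => o.elim 1 fun v => g v.1 v.2) = dot (df k) (g 0) + (k none +
      ∑ r, ((k (some (1, r)) + k (some (2, r))) * g 2 r +
        (k (some (1, r)) + k (some (3, r))) * g 3 r)) := by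
  simp only [dot, Fintype.sum_option, Option.elim, Fintype.sum_prod_type_right, Fin.sum_univ_four,
    df, mul_one]
  rw [add_left_comm, ← sum_add_distrib]
  congr 1
  refine sum_congr rfl fun r _ => ?_
  have := congrFun h r
  simp only [Pi.sub_apply, Pi.add_apply, Pi.zero_apply] at this
  push_cast
  linear_combination (k (some (1, r)) : ℝ) * this

end S2a

open S2a

theorem s2 {ι : Type} [Fintype ι] [DecidableEq ι] (hG : GQ ι) : S2 ι := by
  classical
  obtain ⟨P, hP, hG⟩ := hG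
  refine ⟨fun L => 2 * P L + 1, ((Poly.const 2).mul hP).add (Poly.const 1), ?_⟩
  intro N _ Δ _ A φ L hΔ s j hg hr hf hγ
  beta_reduce
  obtain ⟨W, q, Q, hB, hQ, h⟩ := hG N Δ A φ L hΔ s j hg hr hf
  obtain ⟨c, b, P', hP', hc⟩ := count (fun p : ι → ZMod N => p j) (P L) Q hQ
  have hp2 : 2 ^ (2 * P L) ≤ 2 ^ (2 * P L + 1) := Nat.pow_le_pow_right two_pos (Nat.le_succ _)
  have hp3 : P L + 1 ≤ 2 * P L + 1 := by omega
  refine ⟨P', fun p hp => (h _ (hc p hp).1).1 0, hP'.trans (Nat.mul_le_mul_right _ hp2),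
    W.image df, q, ⟨card_image_le.trans (hB.1.trans (by omega)), fun k hk r => ?_, hB.2.2.1,
      hB.2.2.2.trans (Nat.pow_le_pow_right two_pos (by omega))⟩, fun p hp a ha => ⟨?_, ?_⟩⟩
  · obtain ⟨k, hk', rfl⟩ := mem_image.1 hk
    have h1 := hB.2.1 k hk' (some (0, r))
    have h2 := hB.2.1 k hk' (some (1, r))
    have h3 : (2 : ℤ) ^ (P L + 1) ≤ 2 ^ (2 * P L + 1) := pow_le_pow_right₀ one_le_two hp3
    rw [pow_succ] at h3
    exact (abs_sub _ _).trans ((add_le_add h1 h2).trans (by rw [← mul_two]; exact h3))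
  · have key : ∀ p' ∈ P', ∀ l, s.t p' l - s.t (update p' j c) l ∈ L1 (W.image df) q := by
      intro p' hp' l
      obtain ⟨-, u, hu, e⟩ := hc p' hp'
      convert dR_mem ((h _ hu).2.2 l) using 1
      ext r
      simp [dR, qp, e]
    intro l _
    have := sub_mem (key p hp l) (key _ ha l)
    rw [update_idem, sub_sub_sub_cancel_right] at this
    exact this
  · intro k' hk'
    obtain ⟨k, hk, e0⟩ : ∃ k : Option (Fin 4 × s.κ) → ℤ, k ∈ W ∧ df k = k' := mem_image.1 hk'
    subst e0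
    have key : ∀ p' ∈ P', s.γ (qp j (p', b) 0) + s.γ (qp j (p', b) 1) - s.γ (qp j (p', b) 2) -
        s.γ (qp j (p', b) 3) = 0 := by
      intro p' hp'
      have m := (h _ (hc p' hp').1).1
      have := hγ p' (p' j) (b.1 + b.2 - p' j) b.1 b.2 (by abel) (by simpa [qp] using m 0) (m 1)
        (m 2) (m 3)
      simpa [qp] using this
    have e1 := (h _ (hc p hp).1).2.1 k hk
    have e2 := (h _ (hc _ ha).1).2.1 k hk
    rw [dot_eq k (fun i => s.γ (qp j (p, b) i)) (key p hp)] at e1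
    rw [dot_eq k (fun i => s.γ (qp j (update p j a, b) i)) (key _ ha)] at e2
    simp only [qp, update_idem, Matrix.cons_val_zero, Matrix.cons_val] at e1 e2
    have h3 : (2 : ℝ) ^ (P L + 1) / N ≤ 2 ^ (2 * P L + 1) / N :=
      div_le_div_of_nonneg_right (pow_le_pow_right₀ one_le_two hp3) (Nat.cast_nonneg _)
    rw [pow_succ, mul_div_right_comm] at h3
    have e3 := abs_le.1 e1
    have e4 := abs_le.1 e2
    change |dot (df k) (s.γ p) - dot (df k) (s.γ (update p j a))| ≤ _
    rw [abs_le]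
    constructor <;> linarith [e3.1, e3.2, e4.1, e4.2]

end Crest.Agent.N49.Iv
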