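import Crest.Agent.N49.Iv.St

/-!
# Row 49 (helper26): closure properties of `Ty`, `Dg`, `Iz`, `e`, `L1`, `Lq`
-/

set_option autoImplicit false
open Finset Function
open scoped BigOperators

namespace Crest.Agent.N49.Iv

/-! ### `Iz` -/

theorem Iz.int (z : ℤ) : Iz (z : ℝ) := ⟨z, rfl⟩
theorem Iz.nat (n : ℕ) : Iz (n : ℝ) := ⟨n, by simp⟩
theorem Iz.zero : Iz 0 := ⟨0, by simp⟩
theorem Iz.one : Iz 1 := ⟨1, by simp⟩
theorem Iz.round (x : ℝ) : Iz (round x : ℝ) := ⟨_, rfl⟩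

theorem Iz.add {x y : ℝ} (hx : Iz x) (hy : Iz y) : Iz (x + y) :=
  let ⟨a, ha⟩ := hx; let ⟨b, hb⟩ := hy; ⟨a + b, by rw [ha, hb]; simp⟩

theorem Iz.neg {x : ℝ} (hx : Iz x) : Iz (-x) := let ⟨a, ha⟩ := hx; ⟨-a, by rw [ha]; simp⟩

theorem Iz.sub {x y : ℝ} (hx : Iz x) (hy : Iz y) : Iz (x - y) :=
  let ⟨a, ha⟩ := hx; let ⟨b, hb⟩ := hy; ⟨a - b, by rw [ha, hb]; simp⟩

theorem Iz.mul {x y : ℝ} (hx : Iz x) (hy : Iz y) : Iz (x * y) :=
  let ⟨a, ha⟩ := hx; let ⟨b, hb⟩ := hy; ⟨a * b, by rw [ha, hb]; simp⟩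

theorem Iz.sum {α : Type*} {s : Finset α} {f : α → ℝ} (h : ∀ a ∈ s, Iz (f a)) :
    Iz (∑ a ∈ s, f a) :=
  sum_induction f Iz (fun _ _ => Iz.add) Iz.zero h

theorem Iz.prod {α : Type*} {s : Finset α} {f : α → ℝ} (h : ∀ a ∈ s, Iz (f a)) :
    Iz (∏ a ∈ s, f a) :=
  prod_induction f Iz (fun _ _ => Iz.mul) Iz.one h

theorem Iz.of_eq {x y : ℝ} (hx : Iz x) (h : x = y) : Iz y := h ▸ hx

theorem Iz.round_eq {x : ℝ} (hx : Iz x) : (_root_.round x : ℝ) = x := by
  obtain ⟨a, rfl⟩ := hx; simp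

theorem Iz.round_add {x : ℝ} (hx : Iz x) (y : ℝ) :
    (_root_.round (x + y) : ℝ) = x + _root_.round y := by
  obtain ⟨a, rfl⟩ := hx; rw [round_intCast_add]; simp

/-- an integer of absolute value `< 1` vanishes -/
theorem Iz.eq_zero {x : ℝ} (hx : Iz x) (h : |x| < 1) : x = 0 := by
  obtain ⟨a, rfl⟩ := hx
  have : |a| < 1 := by exact_mod_cast h
  have : a = 0 := Int.abs_lt_one_iff.1 this
  simp [this]

theorem Iz.vl {ι : Type} {N : ℕ} (p : ι → ZMod N) (i : ι) : Iz (vl p i) := Iz.nat _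

theorem mem_ZL {Δ : Type} {v : Δ → ℝ} : v ∈ ZL Δ ↔ ∀ l, Iz (v l) := Iff.rfl

/-! ### `e` -/

theorem e_add (x y : ℝ) : e (x + y) = e x * e y := by
  unfold e; rw [← Complex.exp_add]; congr 1; push_cast; ring

@[simp] theorem e_zero : e 0 = 1 := by simp [e]

@[simp] theorem e_norm (x : ℝ) : ‖e x‖ = 1 := by
  have : (2 * Real.pi * x * Complex.I : ℂ) = ((2 * Real.pi * x : ℝ) : ℂ) * Complex.I := by
    push_cast; ring
  unfold e; rw [this, Complex.norm_exp_ofReal_mul_I]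

theorem e_ne (x : ℝ) : e x ≠ 0 := Complex.exp_ne_zero _

theorem e_int (z : ℤ) : e z = 1 := by
  have : (2 * Real.pi * ((z : ℝ) : ℂ) * Complex.I : ℂ) = z * (2 * Real.pi * Complex.I) := by
    push_cast; ring
  unfold e; rw [this, Complex.exp_int_mul_two_pi_mul_I]

theorem Iz.e_eq_one {x : ℝ} (hx : Iz x) : e x = 1 := by obtain ⟨a, rfl⟩ := hx; exact e_int a

theorem e_congr {x y : ℝ} (h : Iz (x - y)) : e x = e y := by
  have : x = (x - y) + y := by ring
  rw [this, e_add, h.e_eq_one, one_mul]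

theorem e_conj (x : ℝ) : (starRingEnd ℂ) (e x) = e (-x) := by
  unfold e; rw [← Complex.exp_conj]; congr 1; simp [map_ofNat]

theorem e_mul_neg (x : ℝ) : e x * e (-x) = 1 := by rw [← e_add]; simp

theorem e_neg (x : ℝ) : e (-x) = (e x)⁻¹ := eq_inv_of_mul_eq_one_right (e_mul_neg x)

theorem e_sub (x y : ℝ) : e (x - y) = e x * e (-y) := by rw [sub_eq_add_neg, e_add]

theorem e_sum {α : Type*} (s : Finset α) (f : α → ℝ) : e (∑ a ∈ s, f a) = ∏ a ∈ s, e (f a) := by
  classical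
  induction s using Finset.induction_on with
  | empty => simp
  | insert a s ha ih => rw [sum_insert ha, prod_insert ha, e_add, ih]

theorem e_nat_mul (n : ℕ) (x : ℝ) : e (n * x) = e x ^ n := by
  induction n with
  | zero => simp
  | succ n ih => rw [Nat.cast_succ, add_mul, one_mul, e_add, ih, pow_succ]

/-- `e` is `2π`-Lipschitz -/
theorem e_sub_one_le (x : ℝ) : ‖e x - 1‖ ≤ 2 * Real.pi * |x| := by
  have : (2 * Real.pi * x * Complex.I : ℂ) = Complex.I * ((2 * Real.pi * x : ℝ) : ℂ) := by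
    push_cast; ring
  unfold e
  rw [this]
  refine (Real.norm_exp_I_mul_ofReal_sub_one_le).trans ?_
  rw [Real.norm_eq_abs, abs_mul, abs_of_pos Real.two_pi_pos]

theorem e_sub_e_le (x y : ℝ) : ‖e x - e y‖ ≤ 2 * Real.pi * |x - y| := by
  have : e x - e y = (e (x - y) - 1) * e y := by
    rw [sub_mul, ← e_add]; simp
  rw [this, norm_mul, e_norm, mul_one]
  exact e_sub_one_le _

/-! ### `Ty` -/

section ty
variable {ι κ : Type} [DecidableEq ι] [DecidableEq κ] {r n m : ℕ} {S T : Finset ι}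
  {F G : (ι → ℝ) → ℝ}

/-- a typed form depends only on its letters -/
theorem Ty.congr (h : Ty r S n F) {x y : ι → ℝ} (hxy : ∀ i ∈ S, x i = y i) : F x = F y := by
  induction h with
  | const a => rfl
  | var j => exact hxy j (mem_singleton_self j)
  | add _ _ h1 h2 => simp only [h1 hxy, h2 hxy]
  | mul _ _ _ h1 h2 =>
    simp only [h1 fun i hi => hxy i (mem_union_left _ hi),
      h2 fun i hi => hxy i (mem_union_right _ hi)]
  | rnd _ _ h1 => simp only [h1 hxy]
  | mono a _ _ h1 => exact h1 fun i hi => hxy i (a hi)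

theorem Ty.of_eq (h : Ty r S n F) (hF : ∀ x, F x = G x) : Ty r S n G := funext hF ▸ h

theorem Ty.const' (r : ℕ) (S : Finset ι) (n : ℕ) (c : ℝ) : Ty r S n fun _ => c :=
  (Ty.const c).mono (empty_subset _) (Nat.zero_le _)

theorem Ty.var' (r : ℕ) {i : ι} (hi : i ∈ S) (n : ℕ) : Ty r S n fun x => x i :=
  (Ty.var i).mono (singleton_subset_iff.2 hi) (Nat.zero_le _)

theorem Ty.mono_n (h : Ty r S n F) (hn : n ≤ m) : Ty r S m F := h.mono Subset.rfl hn

theorem Ty.mono_r {r' : ℕ} (h : Ty r S n F) (hr : r ≤ r') : Ty r' S n F := by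
  induction h with
  | const a => exact Ty.const a
  | var j => exact Ty.var j
  | add _ _ h1 h2 => exact h1.add h2
  | mul d _ _ h1 h2 => exact Ty.mul d h1 h2
  | rnd d _ h1 => exact Ty.rnd (d.trans hr) h1
  | mono a b _ h1 => exact h1.mono a b

theorem Ty.smul (h : Ty r S n F) (c : ℝ) : Ty r S n fun x => c * F x :=
  (Ty.mul (disjoint_empty_left S) (Ty.const c) h).mono (by simp) (by simp)

theorem Ty.mul_const (h : Ty r S n F) (c : ℝ) : Ty r S n fun x => F x * c :=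
  (h.smul c).of_eq fun _ => mul_comm _ _

theorem Ty.div_const (h : Ty r S n F) (c : ℝ) : Ty r S n fun x => F x / c :=
  (h.mul_const c⁻¹).of_eq fun _ => (div_eq_mul_inv _ _).symm

theorem Ty.neg (h : Ty r S n F) : Ty r S n fun x => -F x :=
  (h.smul (-1)).of_eq fun _ => neg_one_mul _

theorem Ty.sub (h : Ty r S n F) (h' : Ty r S m G) : Ty r S (n + m) fun x => F x - G x :=
  (h.add h'.neg).of_eq fun _ => (sub_eq_add_neg _ _).symm

theorem Ty.add' (h : Ty r S n F) (h' : Ty r T m G) : Ty r (S ∪ T) (n + m) fun x => F x + G x :=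
  (h.mono subset_union_left le_rfl).add (h'.mono subset_union_right le_rfl)

theorem Ty.add_const (h : Ty r S n F) (c : ℝ) : Ty r S n fun x => F x + c :=
  h.add (Ty.const' r S 0 c)

/-- product of forms on disjoint letters inside a common set -/
theorem Ty.mul' {U : Finset ι} (d : Disjoint S T) (h : Ty r S n F) (h' : Ty r T m G) (hS : S ⊆ U)
    (hT : T ⊆ U) : Ty r U (n + m) fun x => F x * G x :=
  (Ty.mul d h h').mono (union_subset hS hT) le_rfl

theorem Ty.sum {α : Type*} (s : Finset α) {k : α → ℕ} {H : α → (ι → ℝ) → ℝ}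
    (h : ∀ a ∈ s, Ty r S (k a) (H a)) : Ty r S (∑ a ∈ s, k a) fun x => ∑ a ∈ s, H a x := by
  classical
  induction s using Finset.induction_on with
  | empty => simpa using Ty.const' r S 0 0
  | insert a s ha ih =>
    simp only [sum_insert ha]
    exact (h a (mem_insert_self _ _)).add (ih fun b hb => h b (mem_insert_of_mem hb))

theorem Ty.sum' {α : Type*} (s : Finset α) {H : α → (ι → ℝ) → ℝ}
    (h : ∀ a ∈ s, Ty r S n (H a)) : Ty r S (#s * n) fun x => ∑ a ∈ s, H a x := by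
  simpa using Ty.sum s (k := fun _ => n) h

/-- renaming of letters along an embedding -/
theorem Ty.comp (h : Ty r S n F) (f : ι ↪ κ) : Ty r (S.map f) n fun x => F (x ∘ f) := by
  induction h with
  | const a => exact Ty.const a
  | var j => rw [map_singleton]; exact Ty.var (f j)
  | add _ _ h1 h2 => exact h1.add h2
  | mul d _ _ h1 h2 =>
    rw [map_union]
    exact Ty.mul ((disjoint_map f).2 d) h1 h2
  | rnd d _ h1 => exact Ty.rnd (by rwa [card_map]) h1
  | mono a b _ h1 => exact h1.mono (map_subset_map.2 a) b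

theorem Ty.comp' (h : Ty r S n F) {f : ι → κ} (hf : Injective f) :
    Ty r (S.image f) n fun x => F (x ∘ f) := by
  have := h.comp ⟨f, hf⟩
  rwa [map_eq_image] at this

theorem Ty.comp_univ [Fintype κ] (h : Ty r S n F) {f : ι → κ} (hf : Injective f) :
    Ty r univ n fun x => F (x ∘ f) :=
  (h.comp' hf).mono (subset_univ _) le_rfl

theorem Ty.perm [Fintype ι] (h : Ty r univ n F) (σ : Equiv.Perm ι) :
    Ty r univ n fun x => F (x ∘ σ) :=
  h.comp_univ σ.injective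

/-- freezing the letters outside `U` -/
theorem Ty.piecewise (h : Ty r S n F) (U : Finset ι) (b : ι → ℝ) :
    Ty r (S ∩ U) n fun x => F (U.piecewise x b) := by
  induction h with
  | const a => exact Ty.const' _ _ _ a
  | var j =>
    by_cases hj : j ∈ U
    · simp only [piecewise_eq_of_mem _ _ _ hj]
      exact Ty.var' r (by simp [hj]) 0
    · simp only [piecewise_eq_of_notMem _ _ _ hj]
      exact Ty.const' _ _ _ _
  | add _ _ h1 h2 => exact h1.add h2
  | mul d _ _ h1 h2 =>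
    rw [union_inter_distrib_right]
    exact Ty.mul (d.mono inter_subset_left inter_subset_left) h1 h2
  | rnd d _ h1 => exact Ty.rnd ((card_le_card inter_subset_left).trans d) h1
  | mono a b _ h1 => exact h1.mono (inter_subset_inter_right a) b

/-- freezing one letter -/
theorem Ty.update (h : Ty r S n F) (i : ι) (c : ℝ) :
    Ty r (S.erase i) n fun x => F (Function.update x i c) := by
  induction h with
  | const a => exact Ty.const' _ _ _ a
  | var j =>
    by_cases hj : j = i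
    · subst hj
      simp only [update_self]
      exact Ty.const' _ _ _ _
    · simp only [update_of_ne hj]
      exact Ty.var' r (by simp [hj]) 0
  | add _ _ h1 h2 => exact h1.add h2
  | mul d _ _ h1 h2 =>
    rw [erase_union_distrib]
    exact Ty.mul (d.mono (erase_subset _ _) (erase_subset _ _)) h1 h2
  | rnd d _ h1 => exact Ty.rnd ((card_le_card (erase_subset _ _)).trans d) h1
  | mono a b _ h1 => exact h1.mono (erase_subset_erase _ a) b

/-- letterwise affine substitution -/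
theorem Ty.affine (h : Ty r S n F) (a z : ι → ℝ) : Ty r S n fun x => F fun i => a i * x i + z i := by
  induction h with
  | const c => exact Ty.const c
  | var j => exact ((Ty.var j).smul (a j)).add_const (z j)
  | add _ _ h1 h2 => exact h1.add h2
  | mul d _ _ h1 h2 => exact Ty.mul d h1 h2
  | rnd d _ h1 => exact Ty.rnd d h1
  | mono a b _ h1 => exact h1.mono a b

theorem Ty.top {d : ℕ} {Θ : (Fin d → ℝ) → ℝ} (h : Ty r univ n Θ) : Ty r univ n (top Θ) := by
  have h1 := h.comp (Fin.succEmb d)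
  have h2 : Disjoint ((univ : Finset (Fin d)).map (Fin.succEmb d)) {0} := by
    simp [Fin.succ_ne_zero]
  exact Ty.mul' h2 h1 (Ty.var 0) (subset_univ _) (subset_univ _)

/-- the diagonal of a typed form -/
theorem Ty.diag (h : Ty r S n F) : Dg #S n fun t => F fun _ => t := by
  induction h with
  | const a => exact Dg.const a
  | var j => exact Dg.var
  | add _ _ h1 h2 => exact h1.add h2
  | mul d _ _ h1 h2 => rw [card_union_of_disjoint d]; exact h1.mul h2
  | rnd _ _ h1 => exact h1.rnd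
  | mono a b _ h1 => exact h1.mono (card_le_card a) b

end ty

/-! ### `Dg` -/

section dg
variable {d d' n m : ℕ} {F G : ℝ → ℝ}

theorem Dg.of_eq (h : Dg d n F) (hF : ∀ x, F x = G x) : Dg d n G := funext hF ▸ h

theorem Dg.const' (d n : ℕ) (c : ℝ) : Dg d n fun _ => c :=
  (Dg.const c).mono (Nat.zero_le _) (Nat.zero_le _)

theorem Dg.add' (h : Dg d n F) (h' : Dg d' m G) : Dg (max d d') (n + m) fun x => F x + G x :=
  (h.mono (le_max_left _ _) le_rfl).add (h'.mono (le_max_right _ _) le_rfl)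

theorem Dg.smul (h : Dg d n F) (c : ℝ) : Dg d n fun x => c * F x :=
  ((Dg.const c).mul h).mono (by simp) (by simp)

theorem Dg.mul_const (h : Dg d n F) (c : ℝ) : Dg d n fun x => F x * c :=
  (h.smul c).of_eq fun _ => mul_comm _ _

theorem Dg.div_const (h : Dg d n F) (c : ℝ) : Dg d n fun x => F x / c :=
  (h.mul_const c⁻¹).of_eq fun _ => (div_eq_mul_inv _ _).symm

theorem Dg.neg (h : Dg d n F) : Dg d n fun x => -F x :=
  (h.smul (-1)).of_eq fun _ => neg_one_mul _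

theorem Dg.sub (h : Dg d n F) (h' : Dg d m G) : Dg d (n + m) fun x => F x - G x :=
  (h.add h'.neg).of_eq fun _ => (sub_eq_add_neg _ _).symm

theorem Dg.add_const (h : Dg d n F) (c : ℝ) : Dg d n fun x => F x + c :=
  h.add (Dg.const' d 0 c)

theorem Dg.sum {α : Type*} (s : Finset α) {k : α → ℕ} {H : α → ℝ → ℝ}
    (h : ∀ a ∈ s, Dg d (k a) (H a)) : Dg d (∑ a ∈ s, k a) fun x => ∑ a ∈ s, H a x := by
  classical
  induction s using Finset.induction_on with
  | empty => simpa using Dg.const' d 0 0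
  | insert a s ha ih =>
    simp only [sum_insert ha]
    exact (h a (mem_insert_self _ _)).add (ih fun b hb => h b (mem_insert_of_mem hb))

theorem Dg.sum' {α : Type*} (s : Finset α) {H : α → ℝ → ℝ}
    (h : ∀ a ∈ s, Dg d n (H a)) : Dg d (#s * n) fun x => ∑ a ∈ s, H a x := by
  simpa using Dg.sum s (k := fun _ => n) h

/-- affine substitution -/
theorem Dg.affine (h : Dg d n F) (a c : ℝ) : Dg d n fun t => F (a * t + c) := by
  induction h with
  | const b => exact Dg.const b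
  | var => exact (Dg.var.smul a).add_const c
  | add _ _ h1 h2 => exact h1.add h2
  | mul _ _ h1 h2 => exact h1.mul h2
  | rnd _ h1 => exact h1.rnd
  | mono a b _ h1 => exact h1.mono a b

theorem Dg.shift (h : Dg d n F) (c : ℝ) : Dg d n fun t => F (t + c) :=
  (h.affine 1 c).of_eq fun _ => by rw [one_mul]

end dg

/-! ### `sp`, `L1`, `Lq`, `dot` -/

section lat
variable {κ κ' Δ : Type} {W W' : Finset (κ → ℤ)} {q q' : ℕ}

theorem mem_L1 {v : κ → ℝ} : v ∈ L1 W q ↔ ∃ z : κ → ℤ, (v - fun r => (z r : ℝ) / q) ∈ sp W :=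
  Iff.rfl

theorem mem_Lq {t : Δ → κ → ℝ} : t ∈ Lq Δ W q ↔ ∀ l, t l ∈ L1 W q := by
  simp [Lq, AddSubgroup.mem_pi]

theorem ci_mem_sp {k : κ → ℤ} (hk : k ∈ W) : La.ci k ∈ sp W :=
  Submodule.subset_span ⟨k, hk, rfl⟩

theorem sp_mono (h : W ⊆ W') : sp W ≤ sp W' :=
  Submodule.span_mono (Set.image_mono h)

@[simp] theorem sp_empty : sp (∅ : Finset (κ → ℤ)) = ⊥ := by simp [sp]

theorem mem_sp {v : κ → ℝ} : v ∈ sp W ↔ ∃ c : (κ → ℤ) → ℝ, v = ∑ k ∈ W, c k • La.ci k := by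
  unfold sp
  rw [Submodule.mem_span_image_finset_iff_exists_fun']
  exact ⟨fun ⟨c, hc⟩ => ⟨c, hc.symm⟩, fun ⟨c, hc⟩ => ⟨c, hc.symm⟩⟩

theorem mem_L1_of_sp {v : κ → ℝ} (h : v ∈ sp W) : v ∈ L1 W q :=
  ⟨0, by convert h using 1; ext; simp⟩

theorem mem_L1_div (z : κ → ℤ) : (fun r => (z r : ℝ) / q) ∈ L1 W q := ⟨z, by simp⟩

theorem mem_L1_of_Iz {v : κ → ℝ} (hq : 1 ≤ q) (h : ∀ r, Iz (q * v r)) : v ∈ L1 W q := by
  choose z hz using h
  have hq' : (q : ℝ) ≠ 0 := by positivity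
  have : v = fun r => (z r : ℝ) / q := by ext r; rw [← hz r]; field_simp
  rw [this]; exact mem_L1_div z

theorem mem_L1_int {v : κ → ℝ} (hq : 1 ≤ q) (h : ∀ r, Iz (v r)) : v ∈ L1 W q :=
  mem_L1_of_Iz hq fun r => (Iz.nat q).mul (h r)

theorem mem_L1_empty {v : κ → ℝ} (hq : 1 ≤ q) :
    v ∈ L1 (∅ : Finset (κ → ℤ)) q ↔ ∀ r, Iz (q * v r) := by
  refine ⟨fun ⟨z, hz⟩ r => ⟨z r, ?_⟩, mem_L1_of_Iz hq⟩
  rw [sp_empty, Submodule.mem_bot, sub_eq_zero] at hz
  have hq' : (q : ℝ) ≠ 0 := by positivity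
  rw [hz]; field_simp

theorem L1_mono (h : W ⊆ W') (hq : q ∣ q') (h0 : 1 ≤ q') : L1 W q ≤ L1 W' q' := by
  obtain ⟨c, rfl⟩ := hq
  rintro v ⟨z, hz⟩
  refine ⟨fun r => z r * c, ?_⟩
  have hc : (c : ℝ) ≠ 0 := by
    rintro hc; rw [Nat.cast_eq_zero] at hc; simp [hc] at h0
  convert sp_mono h hz using 3 with r
  push_cast; rw [mul_div_mul_right _ _ hc]

theorem Lq_mono (h : W ⊆ W') (hq : q ∣ q') (h0 : 1 ≤ q') : Lq Δ W q ≤ Lq Δ W' q' :=
  fun _ ht => mem_Lq.2 fun l => L1_mono h hq h0 (mem_Lq.1 ht l)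

/-- a linear map with integral matrix sending `W` into `sp W'` sends `L1 W q` into `L1 W' q` -/
theorem L1_map {V : Finset (κ' → ℤ)} (T : (κ → ℝ) →ₗ[ℝ] (κ' → ℝ))
    (hz : ∀ z : κ → ℤ, ∀ r, Iz (T (La.ci z) r)) (hW : ∀ k ∈ W, T (La.ci k) ∈ sp V) {v : κ → ℝ}
    (hv : v ∈ L1 W q) : T v ∈ L1 V q := by
  obtain ⟨z, h⟩ := hv
  choose y hy using hz z
  refine ⟨y, ?_⟩
  have h1 : (fun r => (z r : ℝ) / q) = (q : ℝ)⁻¹ • La.ci z := by
    ext; simp [div_eq_inv_mul]
  have h2 : (fun r => (y r : ℝ) / q) = T fun r => (z r : ℝ) / q := by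
    rw [h1, map_smul]; ext r; simp [hy r, div_eq_inv_mul]
  rw [h2, ← map_sub]
  have : sp W ≤ (sp V).comap T := Submodule.span_le.2 (by rintro _ ⟨k, hk, rfl⟩; exact hW k hk)
  exact this h

/-- projection of coordinates -/
theorem L1_comp [DecidableEq (κ' → ℤ)] (f : κ' → κ) {v : κ → ℝ} (hv : v ∈ L1 W q) :
    v ∘ f ∈ L1 (W.image (· ∘ f)) q :=
  L1_map (LinearMap.funLeft ℝ ℝ f) (fun z r => Iz.int (z (f r)))
    (fun _ hk => ci_mem_sp (mem_image_of_mem (· ∘ f) hk)) hv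

theorem Bd.mono {L L' : ℕ} (h : Bd L W q) (hL : L ≤ L') : Bd L' W q :=
  ⟨h.1.trans hL, fun k hk r => (h.2.1 k hk r).trans (pow_le_pow_right₀ one_le_two hL), h.2.2.1,
    h.2.2.2.trans (Nat.pow_le_pow_right two_pos hL)⟩

theorem Bd.comp [DecidableEq (κ' → ℤ)] {L : ℕ} (h : Bd L W q) (f : κ' → κ) :
    Bd L (W.image (· ∘ f)) q :=
  ⟨card_image_le.trans h.1, fun k hk r => by
    obtain ⟨k', hk', rfl⟩ := mem_image.1 hk; exact h.2.1 k' hk' _, h.2.2⟩

variable [Fintype κ]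

theorem dot_add (k : κ → ℤ) (v w : κ → ℝ) : dot k (v + w) = dot k v + dot k w := by
  simp [dot, mul_add, sum_add_distrib]

theorem dot_sub (k : κ → ℤ) (v w : κ → ℝ) : dot k (v - w) = dot k v - dot k w := by
  simp [dot, mul_sub]

theorem dot_smul (k : κ → ℤ) (c : ℝ) (v : κ → ℝ) : dot k (c • v) = c * dot k v := by
  simp [dot, mul_sum, mul_left_comm]

theorem add_dot (k k' : κ → ℤ) (v : κ → ℝ) : dot (k + k') v = dot k v + dot k' v := by
  simp [dot, add_mul, sum_add_distrib]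

theorem smul_dot (a : ℤ) (k : κ → ℤ) (v : κ → ℝ) : dot (a • k) v = a * dot k v := by
  simp [dot, mul_sum, mul_assoc]

theorem sum_dot {α : Type*} (s : Finset α) (k : α → κ → ℤ) (v : κ → ℝ) :
    dot (∑ a ∈ s, k a) v = ∑ a ∈ s, dot (k a) v := by
  simp only [dot, Finset.sum_apply, Int.cast_sum, sum_mul]
  exact sum_comm

theorem Iz.dot (k : κ → ℤ) {v : κ → ℝ} (h : ∀ r, Iz (v r)) : Iz (dot k v) :=
  Iz.sum fun r _ => (Iz.int _).mul (h r)

theorem abs_dot_le_card {k : κ → ℤ} {v : κ → ℝ} {a b : ℝ} (hk : ∀ r, |(k r : ℝ)| ≤ a)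
    (hv : ∀ r, |v r| ≤ b) : |dot k v| ≤ Fintype.card κ * (a * b) := by
  refine (abs_sum_le_sum_abs _ _).trans ?_
  rw [← card_univ, ← nsmul_eq_mul]
  exact sum_le_card_nsmul _ _ _ fun r _ => by
    rw [abs_mul]; exact mul_le_mul (hk r) (hv r) (abs_nonneg _) ((abs_nonneg _).trans (hk r))

end lat

end Crest.Agent.N49.Iv
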