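import Crest.Agent.N49.Iv.Qd
import Crest.Agent.N49.Iv.Ty

/-!
# Row 49 (helper48): step `S3` - the coefficients are Freiman modulo trivial frequencies
-/

set_option autoImplicit false
open Finset Function
open scoped BigOperators

namespace Crest.Agent.N49.Iv

namespace S3k

variable {κ : Type} [Fintype κ]

theorem one {W : Finset (κ → ℤ)} {q : ℕ} (hq : 1 ≤ q) {v : κ → ℝ} (hv : v ∈ L1 W q) :
    ∃ (a : (κ → ℤ) → ℝ) (z : κ → ℤ), (v = (fun r => (z r : ℝ) / q) + ∑ k ∈ W, a k • La.ci k) ∧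
      ∀ (R R' : κ → ℤ) (ρ ρ' : (κ → ℤ) → ℤ), (∀ r, R r % q = R' r % q) →
        (∀ k ∈ W, ∑ r, k r * R r - ρ k = ∑ r, k r * R' r - ρ' k) →
        Iz (∑ r, v r * R r - ∑ r, v r * R' r - ∑ k ∈ W, a k * ((ρ k - ρ' k : ℤ) : ℝ)) := by
  obtain ⟨z, hz⟩ := hv
  obtain ⟨a, ha⟩ := (Submodule.mem_span_image_finset_iff_exists_fun' ℝ).1 hz
  have e : v = (fun r => (z r : ℝ) / q) + ∑ k ∈ W, a k • La.ci k := by rw [ha]; simp
  refine ⟨a, z, e, fun R R' ρ ρ' h1 h2 => ?_⟩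
  choose c hc using fun r => Int.ModEq.dvd (n := q) (h1 r).symm
  have q0 : (q : ℝ) ≠ 0 := by positivity
  have e1 : ∀ k ∈ W, a k * ((ρ k - ρ' k : ℤ) : ℝ) =
      ∑ r, a k * (k r : ℝ) * ((R r : ℝ) - R' r) := fun k hk => by
    have : ρ k - ρ' k = ∑ r, k r * (R r - R' r) := by
      simp only [mul_sub, sum_sub_distrib]; linear_combination -h2 k hk
    rw [this]; push_cast; rw [mul_sum]; exact sum_congr rfl fun _ _ => by ring
  refine (Iz.int (∑ r, z r * c r)).of_eq ?_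
  rw [sum_congr rfl e1, sum_comm, ← sum_sub_distrib, ← sum_sub_distrib, Int.cast_sum]
  refine sum_congr rfl fun r _ => ?_
  have e2 : (R r : ℝ) - R' r = q * c r := by exact_mod_cast hc r
  have e3 : v r = z r / q + ∑ k ∈ W, a k * k r := by
    rw [e]; simp [Finset.sum_apply]
  rw [← sum_mul, ← mul_sub, ← sub_mul, e3, add_sub_cancel_right, e2]
  push_cast
  field_simp

/-- the exponent fed to `GN` -/
def lg (L K : ℕ) : ℕ := K + (3 * L + (2 * L + 3) * (4 * L) + (L + 2) * (4 * L))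

theorem core {P : ℕ → ℕ} (hP : ∀ (κ : Type) [Fintype κ] (L N : ℕ) (g : κ → ℝ) (Ω : Finset ℤ)
      (u : ℤ → κ → ℤ), Fintype.card κ ≤ L → 0 < N → N ≤ 2 ^ L * #Ω → (∀ r, |g r| ≤ 2 ^ L) →
      (∀ w ∈ Ω, |w| ≤ N ∧ ∀ r, |g r * w - u w r| ≤ 1) →
      ∃ (W : Finset (Option κ → ℤ)) (q : ℕ), Bd (P L) W q ∧
        (∀ k ∈ W, |dot k fun o => o.elim 1 g| ≤ 2 ^ P L / N) ∧
        ∀ ξ : Option κ → ℝ, (∀ w ∈ Ω, Iz (ξ none * w + ∑ r, ξ (some r) * u w r)) → ξ ∈ L1 W q)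
    {Δ : Type} (o : κ) {N : ℕ} [NeZero N] {L K : ℕ} (Y : Finset (ZMod N)) (γ : Fin 4 → κ → ℝ)
    (t : Fin 4 → Δ → κ → ℝ) (β : Δ → ℝ) {W : Finset (κ → ℤ)} {q : ℕ} (hκ : Fintype.card κ ≤ L)
    (hW : Bd L W q) (hY : N ≤ 2 ^ K * #Y) (hγ : ∀ i r, |γ i r| ≤ 2 ^ L) (ho : ∀ i, γ i o = 1)
    (hF : γ 0 + γ 1 - γ 2 - γ 3 = 0) (ht : ∀ i, t 0 - t i ∈ Lq Δ W q)
    (hk : ∀ i, ∀ k ∈ W, |dot k (γ 0) - dot k (γ i)| ≤ 2 ^ L / N)
    (hz : ∀ y ∈ Y, ∀ l, Iz (β l + (∑ r, t 0 l r * (round (γ 0 r * (y.val : ℝ)) : ℝ) +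
      ∑ r, t 1 l r * (round (γ 1 r * (y.val : ℝ)) : ℝ) -
      ∑ r, t 2 l r * (round (γ 2 r * (y.val : ℝ)) : ℝ) -
      ∑ r, t 3 l r * (round (γ 3 r * (y.val : ℝ)) : ℝ)))) :
    ∃ W' q', Bd (P (lg L K) + 2 * L + 1) W' q' ∧
      (∀ i, ∀ k ∈ W', |dot k (γ i)| ≤ 2 ^ (P (lg L K) + 2 * L + 1) / N) ∧
      t 0 + t 1 - t 2 - t 3 ∈ Lq Δ W' q' := by
  classical
  have N0 : 0 < N := NeZero.pos N
  have N1 : (0 : ℝ) < N := Nat.cast_pos.2 N0
  have L2 : (L : ℝ) + 1 ≤ 2 ^ L := by exact_mod_cast Nat.lt_two_pow_self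
  have p1 : (1 : ℝ) ≤ 2 ^ L := one_le_pow₀ one_le_two
  have hκ' : (Fintype.card κ : ℝ) ≤ L := Nat.cast_le.2 hκ
  have kb : ∀ k ∈ W, ∀ r, |(k r : ℝ)| ≤ 2 ^ L := fun k h r => by exact_mod_cast hW.2.1 k h r
  set R : Fin 4 → ZMod N → κ → ℤ := fun i y r => round (γ i r * (y.val : ℝ)) with hR
  set ρ : ZMod N → (κ → ℤ) → ℤ := fun y k => round (dot k (γ 0) * (y.val : ℝ)) with hρ
  have rb : ∀ i y r, |γ i r * (y.val : ℝ) - R i y r| ≤ 1 / 2 := fun i y r => abs_sub_round _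
  obtain ⟨Y1, s1, c1, f1⟩ := Qd.pigZ Y κ (fun y r => R 0 y r + R 1 y r - R 2 y r - R 3 y r) 1 L hκ
    fun y _ r => by
      have e : γ 0 r * y.val + γ 1 r * y.val - γ 2 r * y.val - γ 3 r * y.val = 0 := by
        have : γ 0 r + γ 1 r - γ 2 r - γ 3 r = 0 := congrFun hF r
        linear_combination (y.val : ℝ) * this
      have h0 := abs_le.1 (rb 0 y r)
      have h1 := abs_le.1 (rb 1 y r)
      have h2 := abs_le.1 (rb 2 y r)
      have h3 := abs_le.1 (rb 3 y r)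
      have : |((R 0 y r + R 1 y r - R 2 y r - R 3 y r : ℤ) : ℝ)| ≤ 2 ^ 1 := by
        push_cast
        rw [abs_le]
        constructor <;> linarith
      exact_mod_cast this
  obtain ⟨Y2, s2, c2, f2⟩ := Qd.pigZ Y1 (Fin 4 × W)
    (fun y v => ∑ r, v.2.1 r * R v.1 y r - ρ y v.2.1) (2 * L + 1) (4 * L)
    (by simpa using hW.1) fun y _ v => by
      obtain ⟨i, k, hkW⟩ := v
      have a1 : |dot k fun r => γ i r * (y.val : ℝ) - R i y r| ≤ _ :=
        abs_dot_le_card (kb k hkW) (rb i y)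
      have yN : (y.val : ℝ) ≤ N := Nat.cast_le.2 (ZMod.val_lt y).le
      have a2 : |(dot k (γ 0) - dot k (γ i)) * (y.val : ℝ)| ≤ 2 ^ L := by
        rw [abs_mul, Nat.abs_cast]
        exact (mul_le_mul (hk i k hkW) yN (by positivity) (by positivity)).trans_eq
          (div_mul_cancel₀ _ N1.ne')
      have a3 : |dot k (γ 0) * (y.val : ℝ) - ρ y k| ≤ 1 / 2 := abs_sub_round _
      have e : ((∑ r, k r * R i y r - ρ y k : ℤ) : ℝ) =
          (dot k (γ 0) * (y.val : ℝ) - ρ y k) - (dot k (γ 0) - dot k (γ i)) * (y.val : ℝ) -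
            dot k fun r => γ i r * (y.val : ℝ) - R i y r := by
        simp only [dot, mul_sub, sum_sub_distrib, sub_mul, sum_mul, mul_assoc]
        push_cast
        ring
      have : |((∑ r, k r * R i y r - ρ y k : ℤ) : ℝ)| ≤ 2 ^ (2 * L + 1) := by
        rw [e, show (2 : ℝ) ^ (2 * L + 1) = 2 * (2 ^ L * 2 ^ L) by ring]
        have b1 := abs_le.1 a1
        have b2 := abs_le.1 a2
        have b3 := abs_le.1 a3
        have b4 : (Fintype.card κ : ℝ) * 2 ^ L ≤ 2 ^ L * 2 ^ L := by gcongr; linarith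
        rw [abs_le]
        constructor <;> nlinarith
      exact_mod_cast this
  obtain ⟨Y3, s3, c3, f3⟩ := Qd.pigZ Y2 (Fin 4 × κ) (fun y v => R v.1 y v.2 % q) L (4 * L)
    (by simpa using hκ) fun y _ v => by
      have q0 : (0 : ℤ) < q := by exact_mod_cast hW.2.2.1
      have q1 : (q : ℤ) ≤ 2 ^ L := by exact_mod_cast hW.2.2.2
      rw [abs_of_nonneg (Int.emod_nonneg _ q0.ne')]
      exact (Int.emod_lt_of_pos _ q0).le.trans q1
  have cY : N ≤ 2 ^ lg L K * #Y3 := by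
    refine hY.trans ((Nat.mul_le_mul_left _ (c1.trans (Nat.mul_le_mul_left _ (c2.trans
      (Nat.mul_le_mul_left _ c3))))).trans_eq ?_)
    simp only [lg, pow_add, mul_assoc]
  obtain ⟨y0, hy0⟩ : Y3.Nonempty := card_pos.1 (Nat.pos_of_mul_pos_left (N0.trans_le cY))
  set Ω := Y3.image fun y => (y.val : ℤ) - y0.val with hΩ
  have cΩ : #Ω = #Y3 := card_image_of_injective _ fun a b e =>
    ZMod.val_injective N (by exact_mod_cast sub_left_injective e)
  obtain ⟨V, q', hV, hV1, hV2⟩ := hP W (lg L K) N (fun k => dot k.1 (γ 0)) Ω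
    (fun w k => round (dot k.1 (γ 0) * ((w + y0.val : ℤ) : ℝ)) - ρ y0 k.1)
    (by simpa using hW.1.trans (by unfold lg; omega)) N0 (cΩ ▸ cY) (fun k => by
      refine (abs_dot_le_card (kb k.1 k.2) (hγ 0)).trans ?_
      calc (Fintype.card κ : ℝ) * (2 ^ L * 2 ^ L) ≤ 2 ^ L * (2 ^ L * 2 ^ L) := by
            gcongr; linarith
        _ = 2 ^ (3 * L) := by ring
        _ ≤ _ := pow_le_pow_right₀ one_le_two (by unfold lg; omega)) (fun w hw => by
      obtain ⟨y, -, rfl⟩ := mem_image.1 hw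
      have := ZMod.val_lt y
      have := ZMod.val_lt y0
      refine ⟨abs_le.2 ⟨by omega, by omega⟩, fun k => ?_⟩
      have a1 := abs_le.1 (abs_sub_round (dot k.1 (γ 0) * (y.val : ℝ)))
      have a2 := abs_le.1 (abs_sub_round (dot k.1 (γ 0) * (y0.val : ℝ)))
      simp only [hρ, sub_add_cancel, Int.cast_natCast, Int.cast_sub]
      rw [abs_le, mul_sub]
      constructor <;> linarith)
  set Mx : Option W → κ → ℤ := fun u => u.elim (Pi.single o 1) fun k => k.1 with hM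
  have Mb : ∀ u r, |(Mx u r : ℝ)| ≤ 2 ^ L := fun u r => by
    rcases u with _ | k
    · by_cases h : r = o
      · simp [hM, h, p1]
      · simp [hM, h]
    · exact kb k.1 k.2 r
  have cO : (Fintype.card (Option W) : ℝ) ≤ 2 ^ L := by
    have : (#W : ℝ) ≤ L := Nat.cast_le.2 hW.1
    simp only [Fintype.card_option, Fintype.card_coe]
    push_cast
    linarith
  have Vb : ∀ c ∈ V, ∀ u, |(c u : ℝ)| ≤ 2 ^ P (lg L K) := fun c h u => by
    exact_mod_cast hV.2.1 c h u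
  set Λ : (Option W → ℝ) →ₗ[ℝ] κ → ℝ := Fintype.linearCombination ℝ fun u => La.ci (Mx u) with hΛ
  have eΛ : ∀ c : Option W → ℤ, Λ (La.ci c) = La.ci (∑ u, c u • Mx u) := fun c => by
    rw [La.ci_sum, hΛ, Fintype.linearCombination_apply]; rfl
  refine ⟨V.image fun c => ∑ u, c u • Mx u, q * q', ⟨card_image_le.trans (hV.1.trans (by omega)),
    fun k h r => ?_, Nat.mul_pos hW.2.2.1 hV.2.2.1, (Nat.mul_le_mul hW.2.2.2 hV.2.2.2).trans (by
      rw [← pow_add]; exact Nat.pow_le_pow_right two_pos (by omega))⟩, fun i k h => ?_,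
    mem_Lq.2 fun l => ?_⟩
  · obtain ⟨c, hc, rfl⟩ := mem_image.1 h
    have : |(((∑ u, c u • Mx u) r : ℤ) : ℝ)| ≤ 2 ^ (P (lg L K) + 2 * L + 1) := by
      have e : (((∑ u, c u • Mx u) r : ℤ) : ℝ) = dot c fun u => Mx u r := by
        simp [dot, Finset.sum_apply]
      rw [e]
      refine (abs_dot_le_card (Vb c hc) fun u => Mb u r).trans ?_
      calc _ ≤ (2 : ℝ) ^ L * (2 ^ P (lg L K) * 2 ^ L) := by gcongr
        _ = 2 ^ (P (lg L K) + 2 * L) := by ring
        _ ≤ _ := pow_le_pow_right₀ one_le_two (by omega)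
    exact_mod_cast this
  · obtain ⟨c, hc, rfl⟩ := mem_image.1 h
    have e : dot (∑ u, c u • Mx u) (γ i) = (dot c fun u => u.elim 1 fun k => dot k.1 (γ 0)) -
        dot c fun u => (u.elim 1 fun k => dot k.1 (γ 0)) - dot (Mx u) (γ i) := by
      rw [sum_dot]
      simp only [smul_dot]
      simp only [dot, mul_sub, sum_sub_distrib, sub_sub_cancel]
    have a1 := abs_dot_le_card (v := fun u => (u.elim 1 fun k => dot k.1 (γ 0)) - dot (Mx u) (γ i))
      (b := 2 ^ L / N) (Vb c hc) fun u => by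
        rcases u with _ | k
        · have : dot (Pi.single o 1) (γ i) = 1 := by
            simp [dot, Pi.single_apply, ho]
          simp only [hM, Option.elim, this, sub_self, abs_zero]
          positivity
        · exact hk i k.1 k.2
    rw [e]
    refine (abs_sub _ _).trans ((add_le_add (hV1 c hc) a1).trans ?_)
    calc _ ≤ (2 : ℝ) ^ P (lg L K) * (2 ^ L * 2 ^ L) / N + 2 ^ L * (2 ^ P (lg L K) * (2 ^ L / N)) := by
          gcongr
          exact le_mul_of_one_le_right (by positivity) (by nlinarith)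
      _ = _ := by ring
  · choose a z e h using fun i => one hW.2.2.1 (mem_Lq.1 (ht i) l)
    set ω : (κ → ℤ) → ℝ := fun k => a 2 k + a 3 k - a 0 k - a 1 k with hω
    have m := hV2 (fun u => u.elim 0 fun k => ω k.1) fun w hw => by
      obtain ⟨y, hy, rfl⟩ := mem_image.1 hw
      have g := fun i => h i (R i y) (R i y0) (ρ y) (ρ y0)
        (fun r => congrFun (f3 y hy y0 hy0) (i, r))
        fun k hk => congrFun (f2 y (s3 hy) y0 (s3 hy0)) (i, ⟨k, hk⟩)
      have e1 : ∑ r, t 0 l r * ((R 0 y r + R 1 y r - R 2 y r - R 3 y r : ℤ) : ℝ) =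
          ∑ r, t 0 l r * ((R 0 y0 r + R 1 y0 r - R 2 y0 r - R 3 y0 r : ℤ) : ℝ) :=
        sum_congr rfl fun r _ => by
          rw [show R 0 y r + R 1 y r - R 2 y r - R 3 y r = R 0 y0 r + R 1 y0 r - R 2 y0 r - R 3 y0 r
            from congrFun (f1 y (s2 (s3 hy)) y0 (s2 (s3 hy0))) r]
      refine (((hz y (s1 (s2 (s3 hy))) l).sub (hz y0 (s1 (s2 (s3 hy0))) l)).add
        ((((g 0).add (g 1)).sub (g 2)).sub (g 3))).of_eq ?_
      simp only [Option.elim, zero_mul, zero_add, sub_add_cancel, Int.cast_natCast]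
      rw [sum_coe_sort W fun k => ω k * ((ρ y k - ρ y0 k : ℤ) : ℝ)]
      simp only [hω, Pi.sub_apply, sub_mul, add_mul, sum_sub_distrib, sum_add_distrib]
      simp only [Int.cast_sub, Int.cast_add, mul_sub, mul_add, sum_sub_distrib,
        sum_add_distrib] at e1
      simp only [hR] at e1 ⊢
      linear_combination e1
    have m1 := L1_map (V := V.image fun c => ∑ u, c u • Mx u) Λ
      (fun c r => by rw [eΛ]; exact Iz.int _)
      (fun c hc => by rw [eΛ]; exact ci_mem_sp (mem_image_of_mem _ hc)) m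
    have q1 : 1 ≤ q * q' := Nat.mul_pos hW.2.2.1 hV.2.2.1
    have m2 := add_mem (L1_mono subset_rfl (dvd_mul_left q' q) q1 m1)
      (L1_mono subset_rfl (dvd_mul_right q q') q1 (mem_L1_div (z 2 + z 3 - z 0 - z 1)))
    convert m2 using 1
    funext r
    have e' : ∀ i, t 0 l r - t i l r = z i r / q + ∑ k ∈ W, a i k * k r := fun i => by
      simpa [Finset.sum_apply] using congrFun (e i) r
    have e2 : Λ (fun u => u.elim 0 fun k => ω k.1) r = ∑ k ∈ W, ω k * k r := by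
      rw [hΛ, Fintype.linearCombination_apply, Fintype.sum_option, ← sum_coe_sort W]
      simp [hM, Finset.sum_apply]
    simp only [Pi.add_apply, Pi.sub_apply, e2]
    simp only [hω, sub_mul, add_mul, sum_sub_distrib, sum_add_distrib]
    push_cast
    linear_combination e' 2 + e' 3 - e' 0 - e' 1

end S3k

open S3k in
theorem s3 {ι : Type} [Fintype ι] [DecidableEq ι] (hG : GN) (hF : FRW) : S3 ι := by
  obtain ⟨P, pP, hP⟩ := hG
  obtain ⟨R, pR, hR⟩ := hF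
  have i := Poly.id
  have c := Poly.const
  set M : ℕ → ℕ := fun L => P (lg L (8 * L + 1)) + 2 * L + 1 with hM
  have p8 : Poly fun L => 8 * L + 1 := ((c 8).mul i).add (c 1)
  have pM : Poly M := ((pP.comp (p8.add ((((c 3).mul i).add ((((c 2).mul i).add (c 3)).mul
    ((c 4).mul i))).add ((i.add (c 2)).mul ((c 4).mul i))))).add ((c 2).mul i)).add (c 1)
  refine ⟨fun L => R (8 * L + 1 + Qd.pb (M L)) + M L,
    (pR.comp (p8.add (Qd.pb_poly.comp pM))).add pM, ?_⟩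
  intro N _ Δ _ A φ L _ s j W q hs hr hA hγ hW hL
  classical
  obtain ⟨Q, cQ, hQ⟩ := Qd.qd j L s.P s.Y hs.dn hs.fib
  have up : ∀ x : (ι → ZMod N) × ZMod N × ZMod N, ∀ i, qp j x i = update x.1 j (qp j x i j) :=
    fun x i => by fin_cases i <;> simp [qp]
  have sm : ∀ x : (ι → ZMod N) × ZMod N × ZMod N,
      qp j x 0 j + qp j x 1 j = qp j x 2 j + qp j x 3 j := fun x => by simp [qp]
  have key : ∀ x : (ι → ZMod N) × ZMod N × ZMod N, ∃ W' q', x ∈ Q → Bd (M L) W' q' ∧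
      (∀ i, ∀ k ∈ W', |dot k (s.γ (qp j x i))| ≤ 2 ^ M L / N) ∧
      s.t (qp j x 0) + s.t (qp j x 1) - s.t (qp j x 2) - s.t (qp j x 3) ∈ Lq Δ W' q' := fun x => by
    by_cases hx : x ∈ Q
    swap
    · exact ⟨∅, 1, fun h => absurd h hx⟩
    obtain ⟨h1, h2⟩ := hQ x hx
    have h3 := fun i => up x i ▸ h1 i
    have h4 := fun i => hL x.1 (h1 0) _ (h3 i)
    obtain ⟨W', q', h⟩ := core hP s.o _ (fun i => s.γ (qp j x i)) (fun i => s.t (qp j x i))
      (fun l => s.β (qp j x 0) l + s.β (qp j x 1) l - s.β (qp j x 2) l - s.β (qp j x 3) l)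
      hs.card hW h2 (fun i => hs.bd _ (h1 i)) (fun i => hs.one _) (by
        have := hγ x.1 _ _ _ _ (sm x) (h3 0) (h3 1) (h3 2) (h3 3)
        simp only [← up] at this
        exact AddSubgroup.mem_bot.1 this)
      (fun i => by have := (h4 i).1; rwa [← up] at this)
      (fun i => by have := (h4 i).2; rwa [← up] at this) fun y hy l => by
        have g := fun i => hr _ (h1 i) y ((mem_filter.1 hy).2 i)
        have g1 := hA j x.1 y _ _ _ _ (sm x) (up x 0 ▸ (g 0).1) (up x 1 ▸ (g 1).1)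
          (up x 2 ▸ (g 2).1) (up x 3 ▸ (g 3).1) l
        simp only [← up, Pi.add_apply, Pi.sub_apply] at g1
        refine (g1.sub (((((g 0).2 l).add ((g 1).2 l)).sub ((g 2).2 l)).sub ((g 3).2 l))).of_eq ?_
        ring
    exact ⟨W', q', fun _ => h⟩
  choose W' q' key using key
  obtain ⟨W₀, q₀, h0, c0⟩ := Qd.pigB Q (M L) (hs.card.trans (by simp only [hM]; omega)) W' q'
    fun x hx => (key x hx).1
  obtain ⟨A', sA, cA, fA⟩ := hR ι (ZMod N) (Δ → s.κ → ℝ) (Lq Δ W₀ q₀) j (8 * L + 1 + Qd.pb (M L))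
    {p ∈ s.P | ∀ k ∈ W₀, |dot k (s.γ p)| ≤ 2 ^ M L / N} s.t _
    (cQ.trans ((Nat.mul_le_mul_left _ c0).trans_eq (by rw [← mul_assoc, ← pow_add])))
    fun x hx => by
      obtain ⟨hx, e1, e2⟩ := mem_filter.1 hx
      obtain ⟨-, k1, k2⟩ := key x hx
      rw [e1] at k1
      rw [e1, e2] at k2
      have m : ∀ i, qp j x i ∈ {p ∈ s.P | ∀ k ∈ W₀, |dot k (s.γ p)| ≤ 2 ^ M L / N} :=
        fun i => mem_filter.2 ⟨(hQ x hx).1 i, k1 i⟩
      exact ⟨m 0, m 1, m 2, m 3, k2⟩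
  refine ⟨A', sA.trans (filter_subset _ _), cA.trans (Nat.mul_le_mul_right _
    (Nat.pow_le_pow_right two_pos (Nat.le_add_right _ _))), W₀, q₀, h0.mono (Nat.le_add_left _ _),
    fun p hp k hk => ?_, fA⟩
  exact ((mem_filter.1 (sA hp)).2 k hk).trans (div_le_div_of_nonneg_right
    (pow_le_pow_right₀ one_le_two (Nat.le_add_left _ _)) (Nat.cast_nonneg N))

end Crest.Agent.N49.Iv
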