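import Crest.Agent.N49.Iv.St

/-!
# Row 49 (helper99): step `S4`, explicit forms from `MH`
-/

set_option autoImplicit false
open Finset Function
open scoped BigOperators

namespace Crest.Agent.N49.Iv

namespace S4p

theorem pig {α β : Type} [DecidableEq β] (s : Finset α) (t : Finset β) (f : α → β)
    (ht : t.Nonempty) (h : ∀ a ∈ s, f a ∈ t) : ∃ b, #s ≤ #t * #(s.filter fun a => f a = b) := by
  obtain ⟨b, -, hb⟩ := exists_max_image t (fun b => #(s.filter fun a => f a = b)) ht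
  refine ⟨b, ?_⟩
  rw [card_eq_sum_card_fiberwise (f := f) (t := t) fun a ha => h a ha]
  exact sum_le_card_nsmul _ _ _ hb

variable {ι : Type} [Fintype ι] [DecidableEq ι]

theorem ty_cmul {r n : ℕ} {F : (ι → ℝ) → ℝ} (c : ℝ) (h : Ty r univ n F) :
    Ty r univ n fun x => c * F x :=
  ((Ty.const c).mul (disjoint_empty_left _) h).mono (subset_univ _) (by omega)

theorem ty_frac {n : ℕ} {F : (ι → ℝ) → ℝ} (c : ℝ) (h : Ty (Fintype.card ι) univ n F) :
    Ty (Fintype.card ι) univ (n + (n + 1) + 0) fun x => F x + -1 * (round (F x) : ℝ) + c :=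
  (h.add (ty_cmul (-1) (h.rnd card_univ.le))).add ((Ty.const c).mono (subset_univ _) le_rfl)

variable {κ : Type} [Fintype κ]

/-- the map `m - B C` -/
noncomputable def mp (W : Finset (κ → ℤ)) (m : ℕ) (C : (κ → ℤ) → κ → ℤ) :
    (κ → ℝ) →ₗ[ℝ] (κ → ℝ) where
  toFun v := (m : ℝ) • v - ∑ k ∈ W, dot (C k) v • La.ci k
  map_add' v w := by
    simp only [dot, Pi.add_apply, mul_add, sum_add_distrib, add_smul, smul_add]
    abel
  map_smul' c v := by
    simp only [dot, Pi.smul_apply, smul_eq_mul, mul_left_comm _ c, ← mul_sum, mul_smul, smul_sub,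
      smul_sum, RingHom.id_apply, smul_comm c (m : ℝ)]

theorem mp_int {W : Finset (κ → ℤ)} {m q : ℕ} {C : (κ → ℤ) → κ → ℤ} (hq : 1 ≤ q)
    (h : ∀ v ∈ sp W, (m : ℝ) • v = ∑ k ∈ W, dot (C k) v • La.ci k) {v : κ → ℝ} (hv : v ∈ L1 W q)
    (r : κ) : Iz ((q : ℝ) * mp W m C v r) := by
  obtain ⟨z, hz⟩ := hv
  have h0 : mp W m C (v - fun r => (z r : ℝ) / q) = 0 := sub_eq_zero.2 (h _ hz)
  rw [map_sub, sub_eq_zero] at h0
  have hq' : (q : ℝ) ≠ 0 := by positivity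
  have e : (fun r => (z r : ℝ) / q) = (q : ℝ)⁻¹ • fun r => (z r : ℝ) := by
    funext r; simp [div_eq_inv_mul]
  rw [h0, e, map_smul, Pi.smul_apply, smul_eq_mul, mul_inv_cancel_left₀ hq']
  exact ⟨m * z r - ∑ k ∈ W, (∑ c, C k c * z c) * k r, by simp [mp, dot, La.ci]⟩

theorem mp_back {W : Finset (κ → ℤ)} {m q : ℕ} {C : (κ → ℤ) → κ → ℤ} (hq : 1 ≤ q) (hm : 1 ≤ m)
    {v G : κ → ℝ} (h : ∀ r, Iz ((q : ℝ) * mp W m C v r - G r)) :
    (v - fun r => ((q * m : ℕ) : ℝ)⁻¹ * G r) ∈ L1 W (q * m) := by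
  choose z hz using h
  refine ⟨z, ?_⟩
  have hq' : (q : ℝ) ≠ 0 := by positivity
  have hm' : (m : ℝ) ≠ 0 := by positivity
  have e : ((v - fun r => ((q * m : ℕ) : ℝ)⁻¹ * G r) - fun r => (z r : ℝ) / (q * m : ℕ)) =
      (m : ℝ)⁻¹ • ∑ k ∈ W, dot (C k) v • La.ci k := by
    funext r
    have := hz r
    simp only [mp, LinearMap.coe_mk, AddHom.coe_mk, Pi.sub_apply, Pi.smul_apply, smul_eq_mul] at this
    simp only [Pi.sub_apply, Pi.smul_apply, smul_eq_mul, ← this, Nat.cast_mul]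
    field_simp
    ring
  rw [e]
  exact Submodule.smul_mem _ _ (Submodule.sum_mem _ fun k hk =>
    Submodule.smul_mem _ _ (Submodule.subset_span ⟨k, hk, rfl⟩))

end S4p

open S4p

theorem s4 {ι : Type} [Fintype ι] [DecidableEq ι] (hM : MH ι) (hG : GI) : S4 ι := by
  obtain ⟨P1, p1, H1⟩ := hM
  obtain ⟨PG, pG, HG⟩ := hG
  have pl : Poly fun L => L + L * L := Poly.id.add (Poly.id.mul Poly.id)
  refine ⟨fun L => 2 * P1 (L + L * L) + (L + 2) * L + L + PG L + 1,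
    (((((Poly.const 2).mul (p1.comp pl)).add ((Poly.id.add (Poly.const 2)).mul Poly.id)).add
      Poly.id).add pG).add (Poly.const 1), fun N _ Δ _ A φ L hΔ s W q hs hγ hb ht => ?_⟩
  beta_reduce
  obtain ⟨b1, b2, b3, b4⟩ := hb
  obtain ⟨m, C, m1, m2, -, hC⟩ := HG s.κ L W hs.card ⟨b1, b2, le_rfl, Nat.one_le_two_pow⟩
  obtain ⟨A', hA, hd, F, hF, hI⟩ := H1 N (s.κ ⊕ Δ × s.κ) (L + L * L) s.P
    (fun p => Sum.elim (s.γ p) fun v => (q : ℝ) * mp W m C (s.t p v.1) v.2)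
    (by simpa using add_le_add hs.card (Nat.mul_le_mul hΔ hs.card))
    (hs.dn.trans (Nat.mul_le_mul_right _ (Nat.pow_le_pow_right two_pos (by omega))))
    (fun j p a b c d e ha hb hc hd v => by
      rcases v with r | ⟨l, r⟩
      · have := congrFun (AddSubgroup.mem_bot.1 (hγ j p a b c d e ha hb hc hd)) r
        exact ⟨0, by simpa using this⟩
      · have := mp_int b3 hC (ht j p a b c d e ha hb hc hd l (Set.mem_univ l)) r
        simpa only [Pi.add_apply, Pi.sub_apply, map_add, map_sub, mul_add, mul_sub, Sum.elim_inr]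
          using this)
  have hn : ∀ p ∈ A', ∀ r, ∃ z : ℤ, z ∈ Icc (-(2 ^ L : ℤ)) (2 ^ L) ∧ s.γ p r =
      F (.inl r) (vl p) + -1 * (round (F (.inl r) (vl p)) : ℝ) + z := fun p hp r => by
    obtain ⟨z, hz⟩ := hI p hp (.inl r)
    simp only [Sum.elim_inl] at hz
    have h1 := abs_le.1 (abs_sub_round (F (.inl r) (vl p)))
    have h2 := abs_le.1 (hs.bd p (hA hp) r)
    refine ⟨z + round (F (.inl r) (vl p)), mem_Icc.2 ⟨?_, ?_⟩, by push_cast; linarith⟩
    · rw [← Int.sub_one_lt_iff, ← Int.cast_lt (R := ℝ)]; push_cast; linarith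
    · rw [← Int.lt_add_one_iff, ← Int.cast_lt (R := ℝ)]; push_cast; linarith
  choose! n hn1 hn2 using hn
  obtain ⟨n0, h0⟩ := pig A' (Fintype.piFinset fun _ : s.κ => Icc (-(2 ^ L : ℤ)) (2 ^ L)) n
    ⟨0, Fintype.mem_piFinset.2 fun _ => mem_Icc.2 ⟨by simp, by simp⟩⟩
    fun p hp => Fintype.mem_piFinset.2 (hn1 p hp)
  have hc : #(Fintype.piFinset fun _ : s.κ => Icc (-(2 ^ L : ℤ)) (2 ^ L)) ≤ 2 ^ ((L + 2) * L) := by
    rw [Fintype.card_piFinset, prod_const, card_univ, pow_mul]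
    refine (Nat.pow_le_pow_left ?_ _).trans (Nat.pow_le_pow_right (by positivity) hs.card)
    rw [Int.card_Icc, Int.toNat_le]
    push_cast
    have : (1 : ℤ) ≤ 2 ^ L := one_le_pow₀ one_le_two
    rw [pow_add]
    linarith
  refine ⟨A'.filter fun p => n p = n0, (filter_subset _ _).trans hA, ?_, q * m,
    ⟨by omega, fun k hk r => (b2 k hk r).trans (pow_le_pow_right₀ one_le_two (by omega)),
      Nat.mul_pos b3 m1, ?_⟩, fun r x => F (.inl r) x + -1 * (round (F (.inl r) x) : ℝ) + n0 r,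
    fun l r x => ((q * m : ℕ) : ℝ)⁻¹ * F (.inr (l, r)) x,
    fun r => (ty_frac _ (hF _)).mono Subset.rfl (by omega),
    fun l r => (ty_cmul _ (hF _)).mono Subset.rfl (by omega), fun p hp => ?_⟩
  · refine hd.trans ((Nat.mul_le_mul_left _ (h0.trans (Nat.mul_le_mul_right _ hc))).trans ?_)
    rw [← mul_assoc, ← pow_add]
    exact Nat.mul_le_mul_right _ (Nat.pow_le_pow_right two_pos (by omega))
  · refine (Nat.mul_le_mul b4 m2).trans ?_
    rw [← pow_add]
    exact Nat.pow_le_pow_right two_pos (by omega)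
  · obtain ⟨h1, h2⟩ := mem_filter.1 hp
    exact ⟨fun r => h2 ▸ hn2 p h1 r, fun l _ => mp_back (C := C) b3 m1 fun r => hI p h1 (.inr (l, r))⟩

end Crest.Agent.N49.Iv
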