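import Crest.Agent.N49.Iv.St

/-!
# Row 49 (helper64): step `S6`, the constant term is removed by a slice
-/

set_option autoImplicit false
open Finset Function
open scoped BigOperators

namespace Crest.Agent.N49.Iv

namespace S6a

variable {ι κ : Type} [DecidableEq ι] [DecidableEq κ]

theorem ty_upd {r n : ℕ} {S : Finset ι} {F : (ι → ℝ) → ℝ} (h : Ty r S n F) (i : ι) (c : ℝ) :
    Ty r S n fun x => F (update x i c) := by
  induction h with
  | const a => exact Ty.const a
  | var j =>
    by_cases e : j = i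
    · subst e
      simp only [update_self]
      exact (Ty.const c).mono (empty_subset _) le_rfl
    · simp only [update_of_ne e]
      exact Ty.var j
  | add _ _ h1 h2 => exact h1.add h2
  | mul d _ _ h1 h2 => exact Ty.mul d h1 h2
  | rnd d _ h1 => exact Ty.rnd d h1
  | mono a b _ h1 => exact h1.mono a b

theorem ty_map {r r' n : ℕ} {S : Finset ι} {F : (ι → ℝ) → ℝ} (h : Ty r S n F) (f : ι ↪ κ)
    (hr : r ≤ r') : Ty r' (S.map f) n fun x => F fun i => x (f i) := by
  induction h with
  | const a => exact Ty.const a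
  | var j => simpa only [map_singleton] using Ty.var (f j)
  | add _ _ h1 h2 => exact h1.add h2
  | mul d _ _ h1 h2 =>
    rw [map_union]
    exact Ty.mul ((disjoint_map f).2 d) h1 h2
  | rnd d _ h1 => exact Ty.rnd (by rw [card_map]; omega) h1
  | mono a b _ h1 => exact h1.mono (map_subset_map.2 a) b

theorem ty_neg {r n : ℕ} {S : Finset ι} {F : (ι → ℝ) → ℝ} (h : Ty r S n F) :
    Ty r S n fun x => -1 * F x :=
  (Ty.mul (disjoint_empty_left S) (Ty.const (-1)) h).mono (by simp) (by simp)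

/-- a popular point of the fibres -/
theorem popular {α β : Type} [Fintype β] [DecidableEq β] [Nonempty β] (P : Finset α)
    (Y : α → Finset β) (K : ℕ) (h : ∀ p ∈ P, Fintype.card β ≤ K * #(Y p)) :
    ∃ y, #P ≤ K * #(P.filter fun p => y ∈ Y p) := by
  by_contra hc
  push Not at hc
  have h1 : ∑ y, K * #(P.filter fun p => y ∈ Y p) < ∑ _y : β, #P :=
    sum_lt_sum_of_nonempty univ_nonempty fun y _ => hc y
  have h2 : ∑ y, #(P.filter fun p => y ∈ Y p) = ∑ p ∈ P, #(Y p) := by
    simp only [card_filter]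
    rw [sum_comm]
    refine sum_congr rfl fun p _ => ?_
    rw [← card_filter]
    simp
  rw [← mul_sum, h2, mul_sum, sum_const, smul_eq_mul, card_univ] at h1
  have h3 : ∑ _p ∈ P, Fintype.card β ≤ ∑ p ∈ P, K * #(Y p) := sum_le_sum h
  rw [sum_const, smul_eq_mul, mul_comm] at h3
  omega

end S6a

open S6a in
/-- **step `S6`** -/
theorem s6 {ι : Type} [Fintype ι] [DecidableEq ι] (hM : MH ι) : S6 ι := by
  obtain ⟨Q, hQ, H⟩ := hM
  refine ⟨fun L => Q (2 * L) + 2 * L, (hQ.comp ((Poly.const 2).mul Poly.id)).add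
    ((Poly.const 2).mul Poly.id), fun N _ Δ _ A φ L hΔ hP hF => ?_⟩
  beta_reduce
  obtain ⟨P, Y, β, F, h1, h2, -, h3, h4⟩ := hF
  obtain ⟨y0, hy⟩ := popular P Y (2 ^ L) fun p hp => by rw [ZMod.card]; exact h2 p hp
  have hA : ∀ p ∈ P.filter fun p => y0 ∈ Y p, (p, y0) ∈ A := fun p hp =>
    (h4 p (mem_filter.1 hp).1 y0 (mem_filter.1 hp).2).1
  obtain ⟨A', a1, a2, G, a3, a4⟩ := H N Δ (2 * L) (P.filter fun p => y0 ∈ Y p)
    (fun p => φ (p, y0)) (by omega)
    (by
      refine le_trans h1 ?_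
      rw [two_mul, pow_add, mul_assoc]
      exact Nat.mul_le_mul_left _ hy)
    (fun j p a b c d e ha hb hc hd => hP j p y0 a b c d e (hA _ ha) (hA _ hb) (hA _ hc) (hA _ hd))
  refine ⟨A', Y, 0, fun l x => (F l x + -1 * F l (update x none (y0.val : ℝ))) +
    G l fun i => x (Function.Embedding.some i), ?_, fun p hp => ?_, fun _ => rfl, fun l => ?_,
    fun p hp y hy' => ?_⟩
  · exact a2.trans (Nat.mul_le_mul_right _ (Nat.pow_le_pow_right (by omega) (by omega)))
  · exact (h2 p (mem_filter.1 (a1 hp)).1).trans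
      (Nat.mul_le_mul_right _ (Nat.pow_le_pow_right (by omega) (by omega)))
  · exact (((h3 l).add (ty_neg (ty_upd (h3 l) none _))).add
      ((ty_map (a3 l) Function.Embedding.some (Nat.le_succ _)).mono (subset_univ _) le_rfl)).mono
      subset_rfl (by omega)
  · obtain ⟨p1, p2⟩ := mem_filter.1 (a1 hp)
    refine ⟨(h4 p p1 y hy').1, fun l => ?_⟩
    obtain ⟨z1, e1⟩ := (h4 p p1 y hy').2 l
    obtain ⟨z2, e2⟩ := (h4 p p1 y0 p2).2 l
    obtain ⟨z3, e3⟩ := a4 p hp l
    have e4 : update (vl2 p y) none (y0.val : ℝ) = vl2 p y0 := by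
      funext o
      cases o <;> simp [vl2]
    have e5 : (fun i => vl2 p y (Function.Embedding.some i)) = vl p := rfl
    refine ⟨z1 - z2 + z3, ?_⟩
    simp only [e4, e5, Pi.zero_apply]
    push_cast
    linarith

end Crest.Agent.N49.Iv
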