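import Crest.Agent.N49.Iv.Cf
import Crest.Agent.N49.Iv.S6

/-!
# Row 49 (helper55): step `S5`, typing by inclusion-exclusion at one base point
-/

set_option autoImplicit false
open Finset Function
open scoped BigOperators

namespace Crest.Agent.N49.Iv

namespace S5a

section ie
variable {ι V : Type} [DecidableEq ι] [AddCommGroup V]

/-- inclusion-exclusion part -/
def I (g : Finset ι → V) (T : Finset ι) : V := ∑ U ∈ T.powerset, ((-1 : ℤ) ^ (#T + #U)) • g U

omit [DecidableEq ι] in
theorem I_sub (g h : Finset ι → V) (T : Finset ι) :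
    I (fun U => g U - h U) T = I g T - I h T := by
  simp only [I, smul_sub, sum_sub_distrib]

theorem I_insert (g : Finset ι → V) {j : ι} {T : Finset ι} (h : j ∉ T) :
    I g (insert j T) = I (fun U => g (insert j U) - g U) T := by
  rw [I_sub]
  simp only [I]
  rw [sum_powerset_insert h, card_insert_of_notMem h, sub_eq_neg_add, ← sum_neg_distrib]
  congr 1
  · refine sum_congr rfl fun U _ => ?_
    rw [← neg_smul, show #T + 1 + #U = #T + #U + 1 by ring, pow_succ, mul_neg_one]
  · refine sum_congr rfl fun U hU => ?_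
    rw [card_insert_of_notMem fun hj => h (mem_powerset.1 hU hj),
      show #T + 1 + (#U + 1) = #T + #U + 2 by ring, pow_add]
    norm_num

theorem sum_I (S : Finset ι) (g : Finset ι → V) : ∑ T ∈ S.powerset, I g T = g S := by
  induction S using Finset.induction_on generalizing g with
  | empty => simp [I]
  | insert j S h ih =>
    rw [sum_powerset_insert h, ih, sum_congr rfl fun T hT =>
      I_insert g fun hj => h (mem_powerset.1 hT hj), ih]
    abel

omit [DecidableEq ι] in
theorem I_mem (H : AddSubgroup V) {g : Finset ι → V} {T : Finset ι} (h : ∀ U ⊆ T, g U ∈ H) :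
    I g T ∈ H :=
  sum_mem fun U hU => zsmul_mem (h U (mem_powerset.1 hU)) _

end ie

section lat
variable {κ : Type}

theorem L1_le {W W' : Finset (κ → ℤ)} {q c : ℕ} (h : W ⊆ W') (hc : 1 ≤ c) {v : κ → ℝ}
    (hv : v ∈ L1 W q) : v ∈ L1 W' (q * c) := by
  obtain ⟨z, hz⟩ := hv
  refine ⟨fun r => c * z r, ?_⟩
  have : (fun r => (((c : ℤ) * z r : ℤ) : ℝ) / ((q * c : ℕ) : ℝ)) = fun r => (z r : ℝ) / q := by
    funext r
    have : (c : ℝ) ≠ 0 := by positivity
    push_cast
    rw [mul_comm (q : ℝ), mul_div_mul_left _ _ this]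
  rw [this]
  exact Submodule.span_mono (Set.image_mono (by exact_mod_cast h)) hz

variable [Fintype κ]

theorem iz_dot {W : Finset (κ → ℤ)} {q : ℕ} {v : κ → ℝ} (hv : v ∈ L1 W q) (hq : 1 ≤ q)
    (D : κ → ℤ) (h1 : ∀ k ∈ W, ∑ r, k r * D r = 0) (h2 : ∀ r, (q : ℤ) ∣ D r) :
    Iz (∑ r, v r * D r) := by
  obtain ⟨z, c, h⟩ := L1_coord hv
  choose w hw using h2
  refine ⟨∑ r, z r * w r, ?_⟩
  have h3 : ∑ r, (∑ k ∈ W, c k * k r) * (D r : ℝ) = 0 := by
    simp only [sum_mul]
    rw [sum_comm]
    refine sum_eq_zero fun k hk => ?_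
    have : ∑ r, (k r : ℝ) * D r = 0 := by exact_mod_cast h1 k hk
    simp only [mul_assoc, ← mul_sum, this, mul_zero]
  simp only [h, add_mul, sum_add_distrib, h3, add_zero]
  push_cast
  refine sum_congr rfl fun r _ => ?_
  have : (q : ℝ) ≠ 0 := by positivity
  rw [hw r]
  push_cast
  field_simp

theorem dot_sum (W : Finset (κ → ℤ)) (a : (κ → ℤ) → ℤ) (v : κ → ℝ) :
    dot (∑ k ∈ W, a k • k) v = ∑ k ∈ W, a k * dot k v := by
  simp only [dot, Finset.sum_apply, Pi.smul_apply, smul_eq_mul, mul_sum]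
  push_cast
  simp only [sum_mul, mul_assoc]
  exact sum_comm

theorem dot_mul (k : κ → ℤ) (v : κ → ℝ) (y : ℝ) : dot k (fun r => v r * y) = dot k v * y := by
  simp only [dot, sum_mul, mul_assoc]

theorem rnd_close {u w : ℝ} {n : ℕ} (h : |u - w| ≤ 2 ^ n) : |round u - round w| ≤ 2 ^ n + 1 := by
  have h1 := abs_le.1 (abs_sub_round u)
  have h2 := abs_le.1 (abs_sub_round w)
  have h3 := abs_le.1 h
  have : |((round u - round w : ℤ) : ℝ)| ≤ ((2 ^ n + 1 : ℤ) : ℝ) := by
    push_cast
    rw [abs_le]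
    constructor <;> linarith [h1.1, h1.2, h2.1, h2.2, h3.1, h3.2]
  exact_mod_cast this

/-- the integer defect between a combination of brackets and one bracket -/
theorem defect (k : κ → ℤ) (γ : κ → ℝ) (g y : ℝ) {M n N : ℕ} (hκ : Fintype.card κ ≤ M)
    (hk : ∀ r, |k r| ≤ 2 ^ M) (hg : |dot k γ - g| ≤ 2 ^ n / N) (h0 : 0 ≤ y) (hy : y ≤ N)
    (hN : 0 < N) : |∑ r, k r * round (γ r * y) - round (g * y)| ≤ 2 ^ (2 * M + n + 2) := by
  have h1 := round_dot k (fun r => γ r * y) hκ hk
  have hN' : (0 : ℝ) < N := by exact_mod_cast hN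
  have h2 : |dot k γ * y - g * y| ≤ 2 ^ n := by
    rw [← sub_mul, abs_mul, abs_of_nonneg h0]
    refine (mul_le_mul hg hy h0 (by positivity)).trans (le_of_eq ?_)
    field_simp
  rw [dot_mul] at h1
  have h3 := rnd_close h2
  have h4 : (2 : ℤ) ^ (2 * M) ≤ 2 ^ (2 * M + n) := pow_le_pow_right₀ (by norm_num) (by omega)
  have h5 : (2 : ℤ) ^ n ≤ 2 ^ (2 * M + n) := pow_le_pow_right₀ (by norm_num) (by omega)
  have h6 : (1 : ℤ) ≤ 2 ^ (2 * M + n) := one_le_pow₀ (by norm_num)
  have h7 := abs_sub_le (∑ r, k r * round (γ r * y)) (round (dot k γ * y)) (round (g * y))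
  rw [pow_add _ _ 2]
  linarith

end lat

section ty
variable {ι : Type} [DecidableEq ι]

theorem ty_pw {r n : ℕ} {S : Finset ι} {F : (ι → ℝ) → ℝ} (h : Ty r S n F) (U : Finset ι)
    (b : ι → ℝ) : Ty r (S ∩ U) n fun x => F (U.piecewise x b) := by
  induction h with
  | const a => exact (Ty.const a).mono (empty_subset _) le_rfl
  | var j =>
    by_cases e : j ∈ U
    · simp only [piecewise_eq_of_mem _ _ _ e]
      exact (Ty.var j).mono (by simpa) le_rfl
    · simp only [piecewise_eq_of_notMem _ _ _ e]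
      exact (Ty.const _).mono (empty_subset _) le_rfl
  | add _ _ h1 h2 => exact h1.add h2
  | mul d _ _ h1 h2 =>
    rw [union_inter_distrib_right]
    exact Ty.mul (d.mono inter_subset_left inter_subset_left) h1 h2
  | rnd d _ h1 => exact Ty.rnd ((card_le_card inter_subset_left).trans d) h1
  | mono a b _ h1 => exact h1.mono (inter_subset_inter_right a) b

theorem ty_sum {J : Type} {r n : ℕ} {S : Finset ι} (s : Finset J) {F : J → (ι → ℝ) → ℝ}
    (h : ∀ j ∈ s, Ty r S n (F j)) : Ty r S (#s * n) fun x => ∑ j ∈ s, F j x := by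
  classical
  induction s using Finset.induction_on with
  | empty => simpa using (Ty.const 0).mono (empty_subset _) le_rfl
  | insert j s hj ih =>
    simp only [sum_insert hj, card_insert_of_notMem hj]
    exact ((h j (mem_insert_self _ _)).add (ih fun i hi => h i (mem_insert_of_mem hi))).mono
      subset_rfl (le_of_eq (by ring))

theorem ty_smul {r n : ℕ} {S : Finset ι} {F : (ι → ℝ) → ℝ} (h : Ty r S n F) (c : ℝ) :
    Ty r S n fun x => c * F x :=
  (Ty.mul (disjoint_empty_left S) (Ty.const c) h).mono (by simp) (by simp)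

variable [Fintype ι]

/-- one typed term -/
theorem ty_term {κ : Type} [Fintype κ] {L : ℕ} (hκ : Fintype.card κ ≤ L) {Ξ : (ι → ℝ) → ℝ}
    {a : κ → (ι → ℝ) → ℝ} (hΞ : Ty (Fintype.card ι) univ L Ξ)
    (ha : ∀ r, Ty (Fintype.card ι) univ L (a r)) (T : Finset ι) (b : ι → ℝ) (m : ℝ) (E : κ → ℤ) :
    Ty (Fintype.card ι + 1) univ (2 ^ Fintype.card ι * L + (L * L + 1)) fun x : Option ι → ℝ =>
      I (fun U => Ξ (U.piecewise (fun i => x (some i)) b)) T / m *
        (round (dot E (fun r => a r (T.piecewise b fun i => x (some i))) * x none) : ℝ) := by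
  have h1 : Ty (Fintype.card ι) T (2 ^ Fintype.card ι * L) fun x =>
      I (fun U => Ξ (U.piecewise x b)) T / m := by
    have := ty_smul (ty_sum T.powerset (S := T) fun U hU => (ty_smul (ty_pw hΞ U b)
      (((-1 : ℤ) ^ (#T + #U) : ℤ) : ℝ)).mono (by simpa using hU) le_rfl) m⁻¹
    simp only [I, zsmul_eq_mul, div_eq_inv_mul]
    refine this.mono subset_rfl (Nat.mul_le_mul_right _ ?_)
    rw [card_powerset]
    exact Nat.pow_le_pow_right (by omega) (card_le_univ T)
  have h2 : Ty (Fintype.card ι) Tᶜ (L * L) fun x => dot E fun r => a r (T.piecewise b x) := by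
    have := ty_sum univ (S := Tᶜ) fun r _ => (ty_smul (ty_pw (ha r) Tᶜ b) (E r)).mono
      (by simp) le_rfl
    simp only [piecewise_compl] at this
    exact this.mono subset_rfl (Nat.mul_le_mul_right _ hκ)
  have h3 := Ty.mul (by simp) (S6a.ty_map h2 Embedding.some (Nat.le_succ _)) (Ty.var none)
  have h4 := Ty.rnd ((card_le_univ _).trans (by simp)) h3
  refine (Ty.mul ?_ (S6a.ty_map h1 Embedding.some (Nat.le_succ _)) h4).mono (subset_univ _) le_rfl
  rw [disjoint_union_right, disjoint_map]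
  exact ⟨disjoint_compl_right, by simp⟩

end ty

/-- drift of a frequency along a path of mixed points -/
theorem drift {ι α : Type} [DecidableEq ι] (g : (ι → α) → ℝ) (b p : ι → α) (K : ℝ)
    (T : Finset ι) (h : ∀ j ∈ T, ∀ U : Finset ι,
      |g (U.piecewise b p) - g (update (U.piecewise b p) j (b j))| ≤ K) :
    |g p - g (T.piecewise b p)| ≤ #T * K := by
  induction T using Finset.induction_on with
  | empty => simp
  | insert j T hj ih =>
    rw [piecewise_insert, card_insert_of_notMem hj]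
    have h1 := ih fun i hi => h i (mem_insert_of_mem hi)
    have h2 := h j (mem_insert_self _ _) T
    have h3 := abs_sub_le (g p) (g (T.piecewise b p)) (g (update (T.piecewise b p) j (b j)))
    push_cast
    linarith

end S5a

open S5a in
/-- **step `S5`** -/
theorem s5 {ι : Type} [Fintype ι] [DecidableEq ι] (hB : BP ι) (hI : IL ι) : S5 ι := by
  classical
  obtain ⟨PB, hPB, hB⟩ := hB
  obtain ⟨PI, hPI, hI⟩ := hI
  set d := Fintype.card ι with hd
  have hM1 : Poly fun L => PI (2 * L) + 2 * L :=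
    (hPI.comp ((Poly.const 2).mul Poly.id)).add ((Poly.const 2).mul Poly.id)
  refine ⟨fun L => PB L + (L + (2 * 2 ^ d + 2) * L *
      (2 * (PI (2 * L) + 2 * L) + (d + (PI (2 * L) + 2 * L) + 2) + 2 + 2)) +
      2 ^ d * (L * (2 ^ d * L + (L * L + 1))),
    (hPB.add (Poly.id.add (((Poly.const _).mul Poly.id).mul (((((Poly.const 2).mul hM1).add
      (((Poly.const d).add hM1).add (Poly.const 2))).add (Poly.const 2)).add (Poly.const 2))))).add
      ((Poly.const _).mul (Poly.id.mul (((Poly.const _).mul Poly.id).add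
        ((Poly.id.mul Poly.id).add (Poly.const 1))))),
    fun N _ Δ _ A φ L _ s W q W' q' hs hr hW hW' hT hE => ?_⟩
  beta_reduce
  set M := PI (2 * L) + 2 * L with hM
  have hN : 0 < N := Nat.pos_of_ne_zero (NeZero.ne N)
  have hN' : (0 : ℝ) < N := by exact_mod_cast hN
  obtain ⟨a, Ξ, ha, hΞ, hE⟩ := hE
  obtain ⟨b, A', hA', hb⟩ := hB (ZMod N) L s.P inferInstance hs.dn
  have hb' : ∀ p ∈ A', ∀ U : Finset ι, U.piecewise b p ∈ s.P := fun p hp U => by
    simpa only [piecewise_compl] using hb p hp Uᶜ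
  have hP : ∀ p ∈ A', p ∈ s.P := fun p hp => by simpa using hb p hp univ
  have h2L : (2 : ℤ) ^ L ≤ 2 ^ (2 * L) := pow_le_pow_right₀ (by norm_num) (by omega)
  have hbd : ∀ j, Bd (2 * L) (W j ∪ W') (q j * q') := fun j =>
    ⟨(card_union_le _ _).trans (by have := (hW j).1.1; have := hW'.1; omega),
      fun k hk r => (mem_union.1 hk).elim (fun h => ((hW j).1.2.1 k h r).trans h2L)
        fun h => (hW'.2.1 k h r).trans h2L,
      Nat.mul_pos (hW j).1.2.2.1 hW'.2.2.1, by
        rw [two_mul, pow_add]; exact Nat.mul_le_mul (hW j).1.2.2.2 hW'.2.2.2⟩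
  choose E m q'' hm hq1 hq2 hE1 hE2 hE3 using fun T =>
    hI s.κ (2 * L) (fun j => W j ∪ W') (fun j => q j * q') T (hs.card.trans (by omega)) hbd
  have hvl : ∀ (U : Finset ι) (x y : ι → ZMod N),
      vl (U.piecewise x y) = U.piecewise (vl x) (vl y) := fun U x y => by
    funext i
    by_cases h : i ∈ U <;> simp [vl, h]
  let F : Δ → (Option ι → ℝ) → ℝ := fun l x => ∑ T : Finset ι, ∑ c,
    I (fun U => Ξ l c (U.piecewise (fun i => x (some i)) (vl b))) T / m T *
      (round (dot (E T c) (fun r => a r (T.piecewise (vl b) fun i => x (some i))) * x none) : ℝ)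
  have hF : ∀ p ∈ A', ∀ y l, F l (vl2 p y) = ∑ T : Finset ι, ∑ c,
      I (fun U r => Ξ l r (vl (U.piecewise p b))) T c / m T *
        (round (dot (E T c) (s.γ (T.piecewise b p)) * (y.val : ℝ)) : ℝ) := fun p hp y l => by
    refine sum_congr rfl fun T _ => sum_congr rfl fun c _ => ?_
    have h1 : s.γ (T.piecewise b p) = fun r => a r (T.piecewise (vl b) (vl p)) :=
      funext fun r => by rw [(hE _ (hb' p hp T)).1 r, hvl]
    rw [h1]
    simp only [I, hvl, Finset.sum_apply, Pi.smul_apply]
    rfl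
  -- the frequencies `E T c` do not move along the letters of `T`
  have hdr : ∀ p ∈ A', ∀ T c,
      |dot (E T c) (s.γ p) - dot (E T c) (s.γ (T.piecewise b p))| ≤ 2 ^ (d + M + 2) / N := by
    intro p hp T c
    refine (drift (fun x => dot (E T c) (s.γ x)) b p (2 ^ (M + 2) / N) T fun j hj U => ?_).trans ?_
    · obtain ⟨z, hz, e⟩ := hE2 T c j hj
      have h1 := hb' p hp U
      have h2 : update (U.piecewise b p) j (b j) ∈ s.P := by
        rw [← piecewise_insert]; exact hb' p hp _
      simp only [e, dot_sum, ← sum_sub_distrib, ← mul_sub]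
      refine (abs_sum_le_sum_abs _ _).trans ((sum_le_card_nsmul _ _
        ((2 : ℝ) ^ PI (2 * L) * (2 * (2 ^ L / N))) fun k hk => ?_).trans ?_)
      · rw [abs_mul]
        refine mul_le_mul (by exact_mod_cast hz k) ?_ (abs_nonneg _) (by positivity)
        rcases mem_union.1 hk with h | h
        · have := (((hW j).2 _ h1 _ h2).2 k h)
          have h0 : (0 : ℝ) ≤ 2 ^ L / N := by positivity
          linarith
        · have := abs_sub (dot k (s.γ (U.piecewise b p)))
            (dot k (s.γ (update (U.piecewise b p) j (b j))))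
          linarith [hT _ h1 k h, hT _ h2 k h]
      · have h3 : (#(W j ∪ W') : ℝ) ≤ 2 * 2 ^ L := by
          have := (hbd j).1
          have := (Nat.lt_two_pow_self (n := L)).le
          exact_mod_cast (by omega : #(W j ∪ W') ≤ 2 * 2 ^ L)
        rw [nsmul_eq_mul]
        refine (mul_le_mul_of_nonneg_right h3 (by positivity)).trans (le_of_eq ?_)
        rw [hM]
        field_simp
        ring
    · have h3 : (#T : ℝ) ≤ 2 ^ d := by
        exact_mod_cast (card_le_univ T).trans Nat.lt_two_pow_self.le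
      refine (mul_le_mul_of_nonneg_right h3 (by positivity)).trans (le_of_eq ?_)
      field_simp
      ring
  -- the parts of type `T` lie in all the subspaces of the letters of `T`
  have hX : ∀ p ∈ A', ∀ l T, ∀ j ∈ T,
      I (fun U r => Ξ l r (vl (U.piecewise p b))) T ∈ L1 (W j ∪ W') (q j * q') := by
    intro p hp l T j hj
    have h1 : I (fun U => s.t (U.piecewise p b) l) T ∈ L1 (W j) (q j) := by
      rw [← insert_erase hj, I_insert _ (notMem_erase j T)]
      refine I_mem _ fun U _ => ?_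
      have h2 := hb p hp (insert j U)
      rw [piecewise_insert] at h2 ⊢
      have h0 : (s.t (U.piecewise p b) - s.t (update (U.piecewise p b) j (p j))) l ∈
          L1 (W j) (q j) := (((hW j).2 _ (hb p hp U) _ h2).1) l trivial
      simpa using neg_mem h0
    have h2 : I (fun U => s.t (U.piecewise p b) l - fun r => Ξ l r (vl (U.piecewise p b))) T ∈
        L1 W' q' := I_mem _ fun U _ => (hE _ (hb p hp U)).2 l trivial
    have h3 := sub_mem (L1_le (subset_union_left (s₂ := W')) hW'.2.2.1 h1)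
      (mul_comm q' (q j) ▸ L1_le (subset_union_right (s₁ := W j)) (hW j).1.2.2.1 h2)
    rwa [I_sub, sub_sub_cancel] at h3
  have key : ∀ p, ∃ (Y' : Finset (ZMod N)) (β : Δ → ℝ), p ∈ A' →
      N ≤ 2 ^ (L + (2 * 2 ^ d + 2) * L * (2 * M + (d + M + 2) + 2 + 2)) * #Y' ∧
        ∀ y ∈ Y', (p, y) ∈ A ∧ ∀ l, Iz (φ (p, y) l - β l - F l (vl2 p y)) := by
    intro p
    by_cases hp : p ∈ A'
    swap
    · exact ⟨∅, 0, fun h => absurd h hp⟩
    let R : ZMod N → s.κ → ℤ := fun y r => round (s.γ p r * (y.val : ℝ))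
    let qq : Option (Finset ι) → ℕ := fun o => o.elim q' q''
    let u : ZMod N → (Option (Finset ι) × s.κ) ⊕ W' ⊕ Finset ι × s.κ → ℤ := fun y =>
      Sum.elim (fun x => R y x.2 % qq x.1) (Sum.elim (fun k => ∑ r, k.1 r * R y r)
        fun x => ∑ r, E x.1 x.2 r * R y r -
          round (dot (E x.1 x.2) (s.γ (x.1.piecewise b p)) * (y.val : ℝ)))
    have hq : ∀ o, 1 ≤ qq o ∧ qq o ≤ 2 ^ M := fun o => by
      cases o with
      | none => exact ⟨hW'.2.2.1, hW'.2.2.2.trans (Nat.pow_le_pow_right (by omega) (by omega))⟩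
      | some T => exact ⟨hq1 T, (hq2 T).trans (Nat.pow_le_pow_right (by omega) (by omega))⟩
    obtain ⟨y0, h0, Y', hY, h1, h2⟩ := abs_int (s.Y p) u (a := (2 * 2 ^ d + 2) * L)
      (b := 2 * M + (d + M + 2) + 2) (by
        have h1 := hs.card
        have h2 := hW'.1
        simp only [Fintype.card_sum, Fintype.card_prod, Fintype.card_option, Fintype.card_finset,
          Fintype.card_coe, ← hd]
        nlinarith [Nat.mul_le_mul_left (2 ^ d) h1]) (fun y _ j => by
        have hy : ((y.val : ℕ) : ℝ) ≤ N := by exact_mod_cast (ZMod.val_lt y).le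
        rcases j with x | k | x
        · have h1 : (0 : ℤ) < qq x.1 := by exact_mod_cast (hq x.1).1
          have h2 : (qq x.1 : ℤ) ≤ 2 ^ M := by exact_mod_cast (hq x.1).2
          have h3 : (2 : ℤ) ^ M ≤ 2 ^ (2 * M + (d + M + 2) + 2) :=
            pow_le_pow_right₀ (by norm_num) (by omega)
          simp only [u, Sum.elim_inl]
          rw [abs_of_nonneg (Int.emod_nonneg _ h1.ne')]
          linarith [Int.emod_lt_of_pos (R y x.2) h1]
        · have := defect k.1 (s.γ p) 0 (y.val : ℝ) (M := L) (n := L) hs.card (hW'.2.1 k.1 k.2)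
            (by simpa using hT p (hP p hp) k.1 k.2) (by positivity) hy hN
          simp only [zero_mul, round_zero, sub_zero] at this
          exact this.trans (pow_le_pow_right₀ (by norm_num) (by omega))
        · exact defect (E x.1 x.2) (s.γ p) _ (y.val : ℝ) (hs.card.trans (by omega))
            (fun r => (hE1 _ _ r).trans (pow_le_pow_right₀ (by norm_num) (by omega)))
            (hdr p hp x.1 x.2) (by positivity) hy hN) hN (hs.fib p (hP p hp))
    refine ⟨Y', fun l => φ (p, y0) l - F l (vl2 p y0), fun _ => ⟨h1, fun y hy =>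
      ⟨(hr p (hP p hp) y (hY hy)).1, fun l => ?_⟩⟩⟩
    have h3 := h2 y hy
    have hdv : ∀ o r, (qq o : ℤ) ∣ R y r - R y0 r := fun o r =>
      Int.emod_emod_of_dvd _ (dvd_refl _) ▸ (Int.emod_eq_emod_iff_emod_sub_eq_zero.1
        (congrFun h3 (Sum.inl (o, r)))) |> fun h => Int.dvd_of_emod_eq_zero (by simpa using h)
    obtain ⟨z1, e1⟩ := (hr p (hP p hp) y (hY hy)).2 l
    obtain ⟨z0, e0⟩ := (hr p (hP p hp) y0 h0).2 l
    obtain ⟨z2, e2⟩ := iz_dot ((hE p (hP p hp)).2 l trivial) hW'.2.2.1 (fun r => R y r - R y0 r)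
      (fun k hk => by
        have := congrFun h3 (Sum.inr (Sum.inl ⟨k, hk⟩))
        simp only [u, Sum.elim_inl, Sum.elim_inr] at this
        simp only [mul_sub, sum_sub_distrib, this, sub_self]) (hdv none)
    choose z3 e3 using fun T => iz_dot (hE3 T _ (hX p hp l T)) (hq1 T) (fun r => R y r - R y0 r)
      (by simp) (hdv (some T))
    have e4 : ∀ T c, (round (dot (E T c) (s.γ (T.piecewise b p)) * (y.val : ℝ)) : ℝ) -
        round (dot (E T c) (s.γ (T.piecewise b p)) * (y0.val : ℝ)) =
          ∑ r, (E T c r : ℝ) * ((R y r - R y0 r : ℤ) : ℝ) := fun T c => by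
      have := congrFun h3 (Sum.inr (Sum.inr (T, c)))
      simp only [u, Sum.elim_inr] at this
      have h4 : round (dot (E T c) (s.γ (T.piecewise b p)) * (y.val : ℝ)) -
          round (dot (E T c) (s.γ (T.piecewise b p)) * (y0.val : ℝ)) =
            ∑ r, E T c r * (R y r - R y0 r) := by
        simp only [mul_sub, sum_sub_distrib]; linarith
      exact_mod_cast h4
    have e5 : F l (vl2 p y) - F l (vl2 p y0) = ∑ T : Finset ι, ∑ r,
        (∑ c, (I (fun U r => Ξ l r (vl (U.piecewise p b))) T c / m T) • La.ci (E T c)) r *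
          ((R y r - R y0 r : ℤ) : ℝ) := by
      rw [hF p hp, hF p hp, ← sum_sub_distrib]
      refine sum_congr rfl fun T _ => ?_
      simp only [← sum_sub_distrib, ← mul_sub, e4, Finset.sum_apply, Pi.smul_apply, La.ci_apply,
        smul_eq_mul, sum_mul, mul_sum, mul_assoc]
      exact sum_comm
    have e6 : ∑ r, Ξ l r (vl p) * ((R y r - R y0 r : ℤ) : ℝ) = ∑ T : Finset ι, ∑ r,
        I (fun U r => Ξ l r (vl (U.piecewise p b))) T r * ((R y r - R y0 r : ℤ) : ℝ) := by
      have := sum_I univ fun U r => Ξ l r (vl (Finset.piecewise U p b))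
      rw [powerset_univ, piecewise_univ] at this
      rw [sum_comm]
      refine sum_congr rfl fun r _ => ?_
      rw [← sum_mul, ← Finset.sum_apply, this]
    have e7 : ∑ T : Finset ι, (z3 T : ℝ) = ∑ r, Ξ l r (vl p) * ((R y r - R y0 r : ℤ) : ℝ) -
        (F l (vl2 p y) - F l (vl2 p y0)) := by
      rw [e5, e6, ← sum_sub_distrib]
      refine sum_congr rfl fun T _ => ?_
      rw [← e3 T, ← sum_sub_distrib]
      simp only [Pi.sub_apply, sub_mul]
    refine ⟨z1 - z0 + z2 + ∑ T, z3 T, ?_⟩
    simp only [Pi.sub_apply, sub_mul, sum_sub_distrib] at e2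
    push_cast at e2 e7 ⊢
    simp only [R, mul_sub, sum_sub_distrib] at e2 e7
    linarith
  choose Y β hY using key
  refine ⟨A', Y, β, F, hA'.trans (Nat.mul_le_mul_right _ (Nat.pow_le_pow_right (by omega)
    (by omega))), fun p hp => (hY p hp).1.trans (Nat.mul_le_mul_right _
    (Nat.pow_le_pow_right (by omega) (by omega))), False.elim, fun l => ?_,
    fun p hp => (hY p hp).2⟩
  refine (ty_sum univ fun T _ => ty_sum univ fun c _ =>
    ty_term hs.card (hΞ l c) ha T (vl b) (m T) (E T c)).mono subset_rfl ?_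
  simp only [card_univ, Fintype.card_finset, ← hd]
  exact le_add_left (Nat.mul_le_mul_left _ (Nat.mul_le_mul_right _ hs.card))

end Crest.Agent.N49.Iv
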