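import Crest.Agent.N49.Iv.Glue
import Crest.Agent.N49.Iv.S0
import Crest.Agent.N49.Iv.S1
import Crest.Agent.N49.Iv.S2
import Crest.Agent.N49.Iv.S3
import Crest.Agent.N49.Iv.S4
import Crest.Agent.N49.Iv.S5
import Crest.Agent.N49.Iv.S6
import Crest.Agent.N49.Iv.Bp
import Crest.Agent.N49.Iv.Il
import Crest.Agent.N49.Iv.Mp
import Crest.Agent.N49.Iv.Gq
import Crest.Agent.N49.Iv.Cf
import Crest.Agent.N49.Iv.Gn
import Crest.Agent.N49.Iv.Gi
import Crest.Agent.N49.Iv.Frw
import Crest.Agent.N49.Iv.Int0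
import Crest.Agent.N49.Iv.Int
import Crest.Agent.N49.Iv.Sym
import Crest.Agent.N49.Iv.Cor
import Crest.Agent.N49.Iv.Bias
import Crest.Agent.N49.Iv.Aff
import Crest.Agent.N49.Iv.Diag

/-!
# Row 49 (helper43): the multi-homomorphism theorem and the quasi-polynomial inverse theorem
-/

set_option autoImplicit false

namespace Crest.Agent.N49.Iv

theorem mhAll (d : ℕ) : MH (Fin d) :=
  mh_all (fun _ hM => mp (s0 _) (s1 _ (gq gn _) (cf _)) (s2 (gq gn _)) (s3 gn frw) (s4 hM gi)
    (s5 (bp _) (il _)) (s6 hM)) d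

theorem invAll (s : ℕ) : INV s :=
  inv_all (fun d => by
    rcases Nat.eq_zero_or_pos d with rfl | hd
    · exact int0
    · exact int (cor (mhAll d)) (sym d (swap d) (bias (aff _)) (div (aff _) (bias (aff _))))
        (diag _) hd) s

end Crest.Agent.N49.Iv
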