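import Crest.Agent.N49.Gw.Defs
import Crest.Agent.N49.La.Mv

/-!
# Row 49 (helper43): definitions for the quasi-polynomial inverse theorem on `ZMod N`

Typed bracket forms `Ty`, one-variable bracket polynomials `Dg`, the multi-homomorphism theorem `MH`
with the steps of its induction, and the symmetrisation / integration steps.
-/

set_option autoImplicit false
open Finset Function
open scoped BigOperators

namespace Crest.Agent.N49.Iv

/-- polynomially bounded functions -/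
def Poly (P : ℕ → ℕ) : Prop := ∃ C : ℕ, ∀ L, P L ≤ (L + 2) ^ C

theorem Poly.of_le {P Q : ℕ → ℕ} (h : Poly Q) (hl : ∀ L, P L ≤ Q L) : Poly P :=
  let ⟨C, hC⟩ := h; ⟨C, fun L => (hl L).trans (hC L)⟩

theorem Poly.const (c : ℕ) : Poly fun _ => c :=
  ⟨c, fun L => (Nat.lt_two_pow_self.le).trans (Nat.pow_le_pow_left (by omega) c)⟩

theorem Poly.id : Poly fun L => L := ⟨1, fun L => by simp⟩

theorem Poly.mul {P Q : ℕ → ℕ} (h : Poly P) (h' : Poly Q) : Poly fun L => P L * Q L :=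
  let ⟨C, hC⟩ := h; let ⟨D, hD⟩ := h'
  ⟨C + D, fun L => by rw [pow_add]; exact Nat.mul_le_mul (hC L) (hD L)⟩

theorem Poly.add {P Q : ℕ → ℕ} (h : Poly P) (h' : Poly Q) : Poly fun L => P L + Q L := by
  obtain ⟨C, hC⟩ := h
  obtain ⟨D, hD⟩ := h'
  refine ⟨C + D + 1, fun L => ?_⟩
  have h1 := (hC L).trans (Nat.pow_le_pow_right (by omega : 0 < L + 2) (by omega : C ≤ C + D))
  have h2 := (hD L).trans (Nat.pow_le_pow_right (by omega : 0 < L + 2) (by omega : D ≤ C + D))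
  rw [pow_succ]
  nlinarith

theorem Poly.pow {P : ℕ → ℕ} (h : Poly P) (k : ℕ) : Poly fun L => P L ^ k :=
  let ⟨C, hC⟩ := h
  ⟨C * k, fun L => by rw [pow_mul]; exact Nat.pow_le_pow_left (hC L) k⟩

theorem Poly.comp {P Q : ℕ → ℕ} (h : Poly P) (h' : Poly Q) : Poly fun L => P (Q L) :=
  let ⟨C, hC⟩ := h
  ((h'.add (Poly.const 2)).pow C).of_le fun L => hC (Q L)

/-- integrality of a real number -/
def Iz (x : ℝ) : Prop := ∃ z : ℤ, x = z

/-- `e x = exp (2 π i x)` -/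
noncomputable def e (x : ℝ) : ℂ := Complex.exp (2 * Real.pi * x * Complex.I)

section ty
variable {ι : Type} [DecidableEq ι]

/-- typed (multi-affine) bracket forms: `Ty r S n F` means `F` depends on the letters in `S`, products
have disjoint letters, there are at most `n` brackets, each on at most `r` letters -/
inductive Ty (r : ℕ) : Finset ι → ℕ → ((ι → ℝ) → ℝ) → Prop
  | const (c : ℝ) : Ty r ∅ 0 fun _ => c
  | var (i : ι) : Ty r {i} 0 fun x => x i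
  | add {S : Finset ι} {n m : ℕ} {F G : (ι → ℝ) → ℝ} :
      Ty r S n F → Ty r S m G → Ty r S (n + m) fun x => F x + G x
  | mul {S T : Finset ι} {n m : ℕ} {F G : (ι → ℝ) → ℝ} : Disjoint S T →
      Ty r S n F → Ty r T m G → Ty r (S ∪ T) (n + m) fun x => F x * G x
  | rnd {S : Finset ι} {n : ℕ} {F : (ι → ℝ) → ℝ} :
      #S ≤ r → Ty r S n F → Ty r S (n + 1) fun x => (round (F x) : ℝ)
  | mono {S T : Finset ι} {n m : ℕ} {F : (ι → ℝ) → ℝ} :
      S ⊆ T → n ≤ m → Ty r S n F → Ty r T m F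

/-- one-variable bracket polynomials of degree `≤ d` with at most `n` brackets -/
inductive Dg : ℕ → ℕ → (ℝ → ℝ) → Prop
  | const (c : ℝ) : Dg 0 0 fun _ => c
  | var : Dg 1 0 fun x => x
  | add {d n m : ℕ} {F G : ℝ → ℝ} : Dg d n F → Dg d m G → Dg d (n + m) fun x => F x + G x
  | mul {d d' n m : ℕ} {F G : ℝ → ℝ} :
      Dg d n F → Dg d' m G → Dg (d + d') (n + m) fun x => F x * G x
  | rnd {d n : ℕ} {F : ℝ → ℝ} : Dg d n F → Dg d (n + 1) fun x => (round (F x) : ℝ)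
  | mono {d d' n m : ℕ} {F : ℝ → ℝ} : d ≤ d' → n ≤ m → Dg d n F → Dg d' m F

/-- real coordinates of a point -/
def vl {N : ℕ} (p : ι → ZMod N) : ι → ℝ := fun i => ((p i).val : ℝ)

/-- real coordinates of a pair -/
def vl2 {N : ℕ} (p : ι → ZMod N) (y : ZMod N) : Option ι → ℝ :=
  fun o => o.elim (y.val : ℝ) (vl p)

/-- `ψ` respects, modulo `H`, every additive quadruple of `P` in direction `j` -/
def Fr {G V : Type} [AddCommGroup G] [AddCommGroup V] (H : AddSubgroup V) (j : ι)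
    (P : Finset (ι → G)) (ψ : (ι → G) → V) : Prop :=
  ∀ p a b c d, a + b = c + d → update p j a ∈ P → update p j b ∈ P → update p j c ∈ P →
    update p j d ∈ P →
      ψ (update p j a) + ψ (update p j b) - ψ (update p j c) - ψ (update p j d) ∈ H

end ty

/-- integer vectors -/
def ZL (Δ : Type) : AddSubgroup (Δ → ℝ) where
  carrier := {v | ∀ l, Iz (v l)}
  zero_mem' := fun _ => ⟨0, by simp⟩
  add_mem' := fun ha hb l => by
    obtain ⟨x, hx⟩ := ha l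
    obtain ⟨y, hy⟩ := hb l
    exact ⟨x + y, by simp [hx, hy]⟩
  neg_mem' := fun ha l => by
    obtain ⟨x, hx⟩ := ha l
    exact ⟨-x, by simp [hx]⟩

section lat
variable {κ : Type}

/-- real span of a finite set of integer vectors -/
noncomputable def sp (W : Finset (κ → ℤ)) : Submodule ℝ (κ → ℝ) :=
  Submodule.span ℝ (La.ci '' (W : Set (κ → ℤ)))

/-- `sp W + ℤ^κ / q` -/
noncomputable def L1 (W : Finset (κ → ℤ)) (q : ℕ) : AddSubgroup (κ → ℝ) where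
  carrier := {v | ∃ z : κ → ℤ, (v - fun r => (z r : ℝ) / q) ∈ sp W}
  zero_mem' := ⟨0, by
    have : ((0 : κ → ℝ) - fun r => (((0 : κ → ℤ) r : ℤ) : ℝ) / q) = 0 := by ext; simp
    rw [this]; exact zero_mem _⟩
  add_mem' := fun ⟨x, hx⟩ ⟨y, hy⟩ => ⟨x + y, by
    convert add_mem hx hy using 1; ext; simp; ring⟩
  neg_mem' := fun ⟨x, hx⟩ => ⟨-x, by convert neg_mem hx using 1; ext; simp; ring⟩

/-- matrices with all rows in `L1 W q` -/
noncomputable def Lq (Δ : Type) (W : Finset (κ → ℤ)) (q : ℕ) : AddSubgroup (Δ → κ → ℝ) :=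
  AddSubgroup.pi Set.univ fun _ => L1 W q

/-- at most `L` vectors with entries at most `2^L`, and `1 ≤ q ≤ 2^L` -/
def Bd (L : ℕ) (W : Finset (κ → ℤ)) (q : ℕ) : Prop :=
  #W ≤ L ∧ (∀ k ∈ W, ∀ r, |k r| ≤ 2 ^ L) ∧ 1 ≤ q ∧ q ≤ 2 ^ L

/-- pairing of an integer vector with a real vector -/
noncomputable def dot [Fintype κ] (k : κ → ℤ) (v : κ → ℝ) : ℝ := ∑ r, (k r : ℝ) * v r

end lat

/-- geometry of numbers, one shot -/
def GN : Prop := ∃ P, Poly P ∧ ∀ (κ : Type) [Fintype κ] (L N : ℕ) (g : κ → ℝ) (Ω : Finset ℤ)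
  (u : ℤ → κ → ℤ), Fintype.card κ ≤ L → 0 < N → N ≤ 2 ^ L * #Ω → (∀ r, |g r| ≤ 2 ^ L) →
  (∀ w ∈ Ω, |w| ≤ N ∧ ∀ r, |g r * w - u w r| ≤ 1) →
  ∃ (W : Finset (Option κ → ℤ)) (q : ℕ), Bd (P L) W q ∧
    (∀ k ∈ W, |dot k fun o => o.elim 1 g| ≤ 2 ^ P L / N) ∧
    ∀ ξ : Option κ → ℝ, (∀ w ∈ Ω, Iz (ξ none * w + ∑ r, ξ (some r) * u w r)) → ξ ∈ L1 W q

/-- generalised inverse -/
def GI : Prop := ∃ P, Poly P ∧ ∀ (κ : Type) [Fintype κ] (L : ℕ) (W : Finset (κ → ℤ)),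
  Fintype.card κ ≤ L → Bd L W 1 → ∃ (m : ℕ) (C : (κ → ℤ) → κ → ℤ), 1 ≤ m ∧ m ≤ 2 ^ P L ∧
    (∀ k r, |C k r| ≤ 2 ^ P L) ∧ ∀ v ∈ sp W, (m : ℝ) • v = ∑ k ∈ W, dot (C k) v • La.ci k

/-- many respected quadruples in direction `j` give a Freiman homomorphism on a dense subset -/
def FRW : Prop := ∃ P, Poly P ∧ ∀ (ι G V : Type) [Fintype ι] [DecidableEq ι] [AddCommGroup G]
  [Fintype G] [DecidableEq G] [AddCommGroup V] (H : AddSubgroup V) (j : ι) (L : ℕ)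
  (A : Finset (ι → G)) (ψ : (ι → G) → V) (Q : Finset ((ι → G) × G × G)),
  Fintype.card ((ι → G) × G × G) ≤ 2 ^ L * #Q →
  (∀ x ∈ Q, x.1 ∈ A ∧ update x.1 j (x.2.1 + x.2.2 - x.1 j) ∈ A ∧ update x.1 j x.2.1 ∈ A ∧
    update x.1 j x.2.2 ∈ A ∧ ψ x.1 + ψ (update x.1 j (x.2.1 + x.2.2 - x.1 j)) -
      ψ (update x.1 j x.2.1) - ψ (update x.1 j x.2.2) ∈ H) →
  ∃ A' ⊆ A, Fintype.card (ι → G) ≤ 2 ^ P L * #A' ∧ Fr H j A' ψ

/-- the multi-homomorphism theorem on `(ZMod N)^ι` -/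
def MH (ι : Type) [Fintype ι] [DecidableEq ι] : Prop := ∃ P, Poly P ∧ ∀ (N : ℕ) [NeZero N]
  (Δ : Type) [Fintype Δ] (L : ℕ) (A : Finset (ι → ZMod N)) (φ : (ι → ZMod N) → Δ → ℝ),
  Fintype.card Δ ≤ L → Fintype.card (ι → ZMod N) ≤ 2 ^ L * #A → (∀ j, Fr (ZL Δ) j A φ) →
  ∃ A' ⊆ A, Fintype.card (ι → ZMod N) ≤ 2 ^ P L * #A' ∧ ∃ F : Δ → (ι → ℝ) → ℝ,
    (∀ l, Ty (Fintype.card ι) univ (P L) (F l)) ∧ ∀ p ∈ A', ∀ l, Iz (φ p l - F l (vl p))

section neg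
variable {ι α : Type} [Fintype ι] [DecidableEq ι]

/-- a family of bounded functions, the `i`-th one omitting the letter `i` -/
def Cy (u : ι → (ι → α) → ℂ) : Prop :=
  (∀ i x, ‖u i x‖ ≤ 1) ∧ ∀ i x a, u i (update x i a) = u i x

/-- combinations of cylinder products of mass at most `K` -/
def Neg (K : ℝ) (F : (ι → α) → ℂ) : Prop :=
  ∃ (J : Type) (_ : Fintype J) (c : J → ℂ) (u : J → ι → (ι → α) → ℂ),
    ∑ j, ‖c j‖ ≤ K ∧ (∀ j, Cy (u j)) ∧ ∀ x, F x = ∑ j, c j * ∏ i, u j i x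

end neg

/-- the inverse theorem for `U^{s+1}(ZMod N)` -/
def INV (s : ℕ) : Prop := ∃ P, Poly P ∧ ∀ (N : ℕ) [NeZero N] (L : ℕ) (f : ZMod N → ℂ),
  Gw.B1 f → 1 ≤ 2 ^ L * Gw.U s f →
  ∃ Q : ℝ → ℝ, Dg s (P L) Q ∧ 1 ≤ 2 ^ P L * ‖𝔼 x : ZMod N, f x * e (-Q (x.val : ℝ))‖

end Crest.Agent.N49.Iv
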