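import Crest.Agent.N49.Iv.St

/-!
# Row 49 (helper43): glue for the inverse theorem (induction on the number of letters / degree)
-/

set_option autoImplicit false
open Finset Function
open scoped BigOperators

namespace Crest.Agent.N49.Iv

theorem ty_emb {ι κ : Type} [DecidableEq ι] [DecidableEq κ] (f : ι ↪ κ) {r n : ℕ} {S : Finset ι}
    {F : (ι → ℝ) → ℝ} (h : Ty r S n F) : Ty r (S.map f) n fun x => F (x ∘ f) := by
  induction h with
  | const c => simpa using Ty.const c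
  | var i => simpa using Ty.var (f i)
  | add _ _ h1 h2 => exact h1.add h2
  | mul hd _ _ h1 h2 => rw [map_union]; exact Ty.mul ((disjoint_map f).2 hd) h1 h2
  | rnd hs _ h1 => exact Ty.rnd (by simpa) h1
  | mono hs hn _ h1 => exact h1.mono (map_subset_map.2 hs) hn

theorem mh_zero : MH (Fin 0) := by
  refine ⟨fun L => L, Poly.id, fun N _ Δ _ L A φ _ hA _ => ⟨A, Subset.rfl, hA,
    fun l _ => φ 0 l, fun l => (Ty.const _).mono (empty_subset _) (Nat.zero_le _), ?_⟩⟩
  intro p _ l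
  exact ⟨0, by rw [Subsingleton.elim p 0]; simp⟩

theorem mh_succ {d : ℕ} (h : MP (Fin d)) : MH (Fin (d + 1)) := by
  obtain ⟨P, hP, h⟩ := h
  refine ⟨fun L => 2 * P L, (Poly.const 2).mul hP, fun N _ Δ _ L A φ hΔ hA hF => ?_⟩
  classical
  let c : (Fin d → ZMod N) × ZMod N ≃ (Fin (d + 1) → ZMod N) :=
    (Equiv.prodComm _ _).trans (Fin.consEquiv fun _ => ZMod N)
  have hc : ∀ p y, c (p, y) = Fin.cons y p := fun _ _ => rfl
  have hu : ∀ p y j a, c (update p j a, y) = update (c (p, y)) j.succ a := fun p y j a => by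
    rw [hc, hc, Fin.cons_update]
  have hu0 : ∀ p a, c (p, a) = update (c (p, 0)) 0 a := fun p a => by
    rw [hc, hc, Fin.update_cons_zero]
  have hm : ∀ x, x ∈ A.map c.symm.toEmbedding ↔ c x ∈ A := fun x => by simp
  obtain ⟨B, Y, β, F, hB, hY, hβ, hT, hR⟩ := h N Δ (A.map c.symm.toEmbedding) (φ ∘ c) L hΔ
    (by rw [card_map, Fintype.card_congr c]; exact hA)
    (fun j p y a b c' d' e h1 h2 h3 h4 => by
      simp only [hm, hu, comp] at h1 h2 h3 h4 ⊢
      exact hF j.succ _ _ _ _ _ e h1 h2 h3 h4)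
    (fun p a b c' d' e h1 h2 h3 h4 => by
      simp only [hm, comp] at h1 h2 h3 h4 ⊢
      rw [hu0 p a] at h1 ⊢
      rw [hu0 p b] at h2 ⊢
      rw [hu0 p c'] at h3 ⊢
      rw [hu0 p d'] at h4 ⊢
      exact hF 0 _ _ _ _ _ e h1 h2 h3 h4)
  let E : Finset ((Fin d → ZMod N) × ZMod N) := univ.filter fun x => x.1 ∈ B ∧ x.2 ∈ Y x.1
  have hE : #E = ∑ p ∈ B, #(Y p) := by
    rw [← card_sigma]
    refine card_nbij' (fun x => ⟨x.1, x.2⟩) (fun x => (x.1, x.2)) (fun x hx => ?_)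
      (fun x hx => ?_) (fun x _ => rfl) fun x _ => rfl
    · simpa [E] using hx
    · simpa [E] using hx
  refine ⟨E.map c.toEmbedding, fun x hx => ?_, ?_,
    fun l x => F l (x ∘ (finSuccEquiv d).symm.toEmbedding), fun l => ?_, fun x hx l => ?_⟩
  · obtain ⟨⟨p, y⟩, h1, rfl⟩ := mem_map.1 hx
    have := (mem_filter.1 h1).2
    exact (hm _).1 (hR p this.1 y this.2).1
  · rw [card_map, ← Fintype.card_congr c, Fintype.card_prod, ZMod.card, hE]
    have h1 : #B * N ≤ 2 ^ P L * ∑ p ∈ B, #(Y p) := by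
      rw [mul_sum, ← smul_eq_mul, ← sum_const]
      exact sum_le_sum hY
    calc _ ≤ 2 ^ P L * #B * N := Nat.mul_le_mul_right _ hB
      _ ≤ 2 ^ P L * (2 ^ P L * ∑ p ∈ B, #(Y p)) := by
        rw [mul_assoc]; exact Nat.mul_le_mul_left _ h1
      _ = _ := by simp only [two_mul, pow_add, mul_assoc]
  · have := ty_emb (finSuccEquiv d).symm.toEmbedding (hT l)
    simp only [Fintype.card_fin] at this ⊢
    exact this.mono (subset_univ _) (by omega)
  · obtain ⟨⟨p, y⟩, h1, rfl⟩ := mem_map.1 hx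
    have := (mem_filter.1 h1).2
    have h2 := (hR p this.1 y this.2).2 l
    have h3 : vl (c (p, y)) ∘ (finSuccEquiv d).symm = vl2 p y := by
      funext o
      cases o <;> simp [vl, vl2, hc]
    simpa [hβ trivial, h3] using h2

theorem mh_all (h : ∀ d, MH (Fin d) → MP (Fin d)) (d : ℕ) : MH (Fin d) := by
  induction d with
  | zero => exact mh_zero
  | succ d ih => exact mh_succ (h d ih)

theorem inv_zero : INV 0 := by
  refine ⟨fun L => L, Poly.id, fun N _ L f hf h => ⟨fun _ => 0,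
    (Dg.const 0).mono le_rfl (Nat.zero_le _), ?_⟩⟩
  have h1 := Gw.U_le_one 0 hf
  simp only [Gw.U] at h h1
  have h2 : ‖𝔼 x, f x‖ ≤ 1 := by nlinarith [norm_nonneg (𝔼 x, f x)]
  have h3 : ‖𝔼 x, f x‖ ^ 2 ≤ ‖𝔼 x, f x‖ := by nlinarith [norm_nonneg (𝔼 x, f x)]
  simp only [e, neg_zero, Complex.ofReal_zero, mul_zero, zero_mul, Complex.exp_zero, mul_one]
  exact h.trans (mul_le_mul_of_nonneg_left h3 (by positivity))

theorem inv_succ0 {d : ℕ} (h : INT d) (h' : INV d) : INV (d + 1) := by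
  obtain ⟨P, hP, h⟩ := h
  obtain ⟨P', hP', h'⟩ := h'
  refine ⟨fun L => P L + P' (P L), hP.add (hP'.comp hP), fun N _ L f hf hU => ?_⟩
  obtain ⟨Q, hQ, h1⟩ := h N L f hf hU
  have hn : ∀ x : ℝ, ‖e x‖ = 1 := fun x => by
    have := Complex.norm_exp_ofReal_mul_I (2 * Real.pi * x)
    simpa [e] using this
  obtain ⟨Q', hQ', h2⟩ := h' N (P L) _ (fun x => by rw [norm_mul, hn, mul_one]; exact hf x) h1
  refine ⟨fun x => Q x + Q' x, hQ.add (hQ'.mono (Nat.le_succ d) le_rfl), h2.trans ?_⟩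
  have : ∀ x : ZMod N, f x * e (-Q (x.val : ℝ)) * e (-Q' (x.val : ℝ)) =
      f x * e (-(Q (x.val : ℝ) + Q' (x.val : ℝ))) := fun x => by
    rw [mul_assoc, e, e, e, ← Complex.exp_add]; congr 2; push_cast; ring
  simp only [this]
  gcongr
  · norm_num
  · omega

theorem inv_all (h : ∀ d, INT d) (s : ℕ) : INV s := by
  induction s with
  | zero => exact inv_zero
  | succ d ih => exact inv_succ0 (h d) ih

end Crest.Agent.N49.Iv
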