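import Crest.Agent.N49.Iv.St

/-!
# Row 49 (helper51): the base case `INT 0` and the induction `INT ⇒ INV`
-/

set_option autoImplicit false
open Finset Function
open scoped BigOperators ComplexConjugate

namespace Crest.Agent.N49.Iv

private theorem ne (x : ℝ) : ‖e x‖ = 1 := by
  have : (2 * Real.pi * x * Complex.I : ℂ) = ((2 * Real.pi * x : ℝ) : ℂ) * Complex.I := by
    push_cast; ring
  rw [e, this, Complex.norm_exp_ofReal_mul_I]

private theorem ae (x y : ℝ) : e (x + y) = e x * e y := by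
  rw [e, e, e, ← Complex.exp_add]; congr 1; push_cast; ring

/-- additive characters of `ZMod N` are linear phases -/
theorem char_eq {N : ℕ} [NeZero N] (γ : AddChar (ZMod N) ℂ) :
    ∃ c : ℝ, ∀ x : ZMod N, conj (γ x) = e (-(c * (x.val : ℝ))) := by
  refine ⟨Complex.arg (γ 1) / (2 * Real.pi), fun x => ?_⟩
  have h1 : γ x = γ 1 ^ x.val := by
    rw [← AddChar.map_nsmul_eq_pow, nsmul_eq_mul, mul_one, ZMod.natCast_zmod_val]
  have h2 : γ 1 = Complex.exp (Complex.arg (γ 1) * Complex.I) := by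
    have := Complex.norm_mul_exp_arg_mul_I (γ 1)
    rw [γ.norm_apply] at this
    simpa using this.symm
  have h3 : (Real.pi : ℂ) ≠ 0 := by exact_mod_cast Real.pi_ne_zero
  rw [h1, h2, ← Complex.exp_nat_mul, ← Complex.exp_conj, e, ← h2]
  congr 1
  simp only [map_mul, Complex.conj_ofReal, Complex.conj_I, Complex.conj_natCast]
  push_cast
  field_simp

theorem int0 : INT 0 := by
  refine ⟨fun L => L, Poly.id, fun N _ L f hf h => ?_⟩
  obtain ⟨γ, hγ⟩ := Gw.exists_ft hf
  obtain ⟨c, hc⟩ := char_eq γ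
  refine ⟨fun x => c * x, ((Dg.const c).mul Dg.var).mono (by omega) (by omega), ?_⟩
  refine h.trans (mul_le_mul_of_nonneg_left (hγ.trans (le_of_eq ?_)) (by positivity))
  simp only [Gw.U, Gw.ft, hc]

theorem inv0 : INV 0 := by
  refine ⟨fun L => L, Poly.id, fun N _ L f hf h => ⟨fun _ => 0,
    (Dg.const 0).mono le_rfl (Nat.zero_le _), h.trans ?_⟩⟩
  have h0 : e (-0) = 1 := by simp [e]
  simp only [h0, mul_one, Gw.U]
  have h1 : ‖𝔼 x, f x‖ ≤ 1 := (Gw.norm_expect f).trans (expect_le univ_nonempty fun x _ => hf x)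
  refine mul_le_mul_of_nonneg_left ?_ (by positivity)
  nlinarith [norm_nonneg (𝔼 x, f x)]

theorem inv_succ {s : ℕ} (h : INT s) (ih : INV s) : INV (s + 1) := by
  obtain ⟨P, hP, h⟩ := h
  obtain ⟨P', hP', ih⟩ := ih
  refine ⟨fun L => P L + P' (P L), hP.add (hP'.comp hP), fun N _ L f hf hU => ?_⟩
  obtain ⟨Q, hQ, h1⟩ := h N L f hf hU
  obtain ⟨Q', hQ', h2⟩ := ih N (P L) _ (fun x => by
    rw [norm_mul, ne, mul_one]; exact hf x) h1
  refine ⟨fun x => Q x + Q' x, hQ.add (hQ'.mono (Nat.le_succ s) le_rfl), h2.trans ?_⟩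
  have : ∀ x : ZMod N, f x * e (-Q (x.val : ℝ)) * e (-Q' (x.val : ℝ)) =
      f x * e (-(Q (x.val : ℝ) + Q' (x.val : ℝ))) := fun x => by
    rw [neg_add, ae, mul_assoc]
  simp only [this]
  exact mul_le_mul_of_nonneg_right (pow_le_pow_right₀ one_le_two (Nat.le_add_left _ _))
    (norm_nonneg _)

/-- the inverse theorem from the integration steps -/
theorem inv (h : ∀ d, 1 ≤ d → INT d) : ∀ s, INV s
  | 0 => inv0
  | 1 => inv_succ int0 inv0
  | s + 2 => inv_succ (h (s + 1) (by omega)) (inv h (s + 1))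

end Crest.Agent.N49.Iv
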