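import Crest.Agent.N49.Iv.St

/-!
# Row 49 (helper47): the calculus of cylinder families `Cy` and negligible functions `Neg`
-/

set_option autoImplicit false
open Finset Function
open scoped BigOperators

namespace Crest.Agent.N49.Iv

variable {ι α β : Type} [Fintype ι] [DecidableEq ι]

omit [Fintype ι] in
theorem Cy.one : Cy (fun (_ : ι) (_ : ι → α) => (1 : ℂ)) := ⟨fun _ _ => by simp, fun _ _ _ => rfl⟩

omit [Fintype ι] in
theorem Cy.mul {u v : ι → (ι → α) → ℂ} (hu : Cy u) (hv : Cy v) :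
    Cy fun i x => u i x * v i x :=
  ⟨fun i x => by
    rw [norm_mul]; exact mul_le_one₀ (hu.1 i x) (norm_nonneg _) (hv.1 i x),
   fun i x a => by simp only [hu.2, hv.2]⟩

omit [Fintype ι] in
theorem Cy.conj {u : ι → (ι → α) → ℂ} (hu : Cy u) : Cy fun i x => (starRingEnd ℂ) (u i x) :=
  ⟨fun i x => by rw [Complex.norm_conj]; exact hu.1 i x, fun i x a => by simp only [hu.2]⟩

omit [Fintype ι] in
/-- one bounded function omitting the letter `i` -/
theorem Cy.single (i : ι) {g : (ι → α) → ℂ} (hb : ∀ x, ‖g x‖ ≤ 1)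
    (hg : ∀ x a, g (update x i a) = g x) : Cy fun k x => if k = i then g x else 1 := by
  refine ⟨fun k x => ?_, fun k x a => ?_⟩
  · by_cases h : k = i <;> simp [h, hb]
  · by_cases h : k = i
    · subst h; simp [hg]
    · simp [h]

omit [Fintype ι] in
theorem Cy.pull {u : ι → (ι → α) → ℂ} (hu : Cy u) (g : ι → β → α) :
    Cy fun i (x : ι → β) => u i fun k => g k (x k) := by
  refine ⟨fun i x => hu.1 i _, fun i x a => ?_⟩
  have : (fun k => g k (update x i a k)) = update (fun k => g k (x k)) i (g i a) := by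
    funext k
    by_cases h : k = i
    · subst h; simp
    · simp [h]
  simp only [this, hu.2]

omit [Fintype ι] in
/-- relabelling of the letters along an equivalence -/
theorem Cy.equiv {κ : Type} [DecidableEq κ] {u : ι → (ι → α) → ℂ} (hu : Cy u) (σ : ι ≃ κ) :
    Cy fun k (x : κ → α) => u (σ.symm k) (x ∘ σ) := by
  refine ⟨fun i x => hu.1 _ _, fun k x a => ?_⟩
  have : update x k a ∘ σ = update (x ∘ σ) (σ.symm k) a := by
    funext j
    by_cases h : j = σ.symm k
    · subst h; simp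
    · have h' : σ j ≠ k := fun e => h (by rw [← e]; simp)
      simp [h, h']
  simp only [this, hu.2]

theorem Cy.norm_prod_le {u : ι → (ι → α) → ℂ} (hu : Cy u) (x : ι → α) : ‖∏ i, u i x‖ ≤ 1 := by
  rw [norm_prod]
  exact prod_le_one (fun _ _ => norm_nonneg _) fun i _ => hu.1 i x

namespace Neg

variable {K K' : ℝ} {F G : (ι → α) → ℂ}

theorem nonneg (h : Neg K F) : 0 ≤ K := by
  obtain ⟨J, _, c, u, hc, -, -⟩ := h
  exact (sum_nonneg fun _ _ => norm_nonneg _).trans hc

theorem norm_le (h : Neg K F) (x : ι → α) : ‖F x‖ ≤ K := by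
  obtain ⟨J, _, c, u, hc, hu, hF⟩ := h
  rw [hF]
  refine (norm_sum_le _ _).trans ((sum_le_sum fun j _ => ?_).trans hc)
  rw [norm_mul]
  exact mul_le_of_le_one_right (norm_nonneg _) ((hu j).norm_prod_le x)

theorem mono (h : Neg K F) (hK : K ≤ K') : Neg K' F := by
  obtain ⟨J, i, c, u, hc, hu, hF⟩ := h
  exact ⟨J, i, c, u, hc.trans hK, hu, hF⟩

theorem congr (h : Neg K F) (hF : ∀ x, F x = G x) : Neg K G := by
  rwa [← funext hF]

theorem of_cy {u : ι → (ι → α) → ℂ} (hu : Cy u) : Neg 1 fun x => ∏ i, u i x :=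
  ⟨Unit, inferInstance, fun _ => 1, fun _ => u, by simp, fun _ => hu, fun x => by simp⟩

theorem one : Neg 1 fun _ : ι → α => (1 : ℂ) := (of_cy Cy.one).congr fun _ => by simp

theorem zero : Neg 0 fun _ : ι → α => (0 : ℂ) :=
  ⟨Empty, inferInstance, fun _ => 0, fun _ _ _ => 1, by simp, fun _ => Cy.one, fun x => by simp⟩

/-- a bounded function omitting a letter -/
theorem ind (i : ι) {g : (ι → α) → ℂ} (hb : ∀ x, ‖g x‖ ≤ 1)
    (hg : ∀ x a, g (update x i a) = g x) : Neg 1 g :=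
  (of_cy (Cy.single i hb hg)).congr fun x => by simp

/-- a bounded function of the letters in `S ≠ univ` -/
theorem ind_dep {S : Finset ι} (hS : S ≠ univ) {g : (ι → α) → ℂ} (hb : ∀ x, ‖g x‖ ≤ 1)
    (hg : ∀ x y, (∀ i ∈ S, x i = y i) → g x = g y) : Neg 1 g := by
  obtain ⟨i, hi⟩ : ∃ i, i ∉ S := by
    by_contra h
    exact hS (eq_univ_iff_forall.2 fun i => by by_contra h'; exact h ⟨i, h'⟩)
  refine ind i hb fun x a => hg _ _ fun k hk => ?_
  rw [update_of_ne]
  rintro rfl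
  exact hi hk

theorem ind_card {S : Finset ι} (hS : #S < Fintype.card ι) {g : (ι → α) → ℂ} (hb : ∀ x, ‖g x‖ ≤ 1)
    (hg : ∀ x y, (∀ i ∈ S, x i = y i) → g x = g y) : Neg 1 g :=
  ind_dep (by rintro rfl; simp at hS) hb hg

theorem smul (h : Neg K F) (a : ℂ) : Neg (‖a‖ * K) fun x => a * F x := by
  obtain ⟨J, i, c, u, hc, hu, hF⟩ := h
  refine ⟨J, i, fun j => a * c j, u, ?_, hu, fun x => ?_⟩
  · simp only [norm_mul, ← mul_sum]
    exact mul_le_mul_of_nonneg_left hc (norm_nonneg _)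
  · simp only [hF, mul_sum, mul_assoc]

theorem smul_le (h : Neg K F) {a : ℂ} {B : ℝ} (ha : ‖a‖ ≤ B) : Neg (B * K) fun x => a * F x :=
  (h.smul a).mono (mul_le_mul_of_nonneg_right ha h.nonneg)

theorem const (a : ℂ) : Neg ‖a‖ fun _ : ι → α => a := by
  simpa using (one (ι := ι) (α := α)).smul a

theorem neg (h : Neg K F) : Neg K fun x => -F x := by simpa using h.smul (-1)

theorem add (h : Neg K F) (h' : Neg K' G) : Neg (K + K') fun x => F x + G x := by
  obtain ⟨J, _, c, u, hc, hu, hF⟩ := h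
  obtain ⟨J', _, c', u', hc', hu', hG⟩ := h'
  refine ⟨J ⊕ J', inferInstance, Sum.elim c c', Sum.elim u u', ?_, ?_, fun x => ?_⟩
  · simp only [Fintype.sum_sum_type, Sum.elim_inl, Sum.elim_inr]
    exact add_le_add hc hc'
  · rintro (j | j)
    exacts [hu j, hu' j]
  · simp only [Fintype.sum_sum_type, Sum.elim_inl, Sum.elim_inr, hF, hG]

theorem sub (h : Neg K F) (h' : Neg K' G) : Neg (K + K') fun x => F x - G x :=
  (h.add h'.neg).congr fun x => by ring

theorem mul (h : Neg K F) (h' : Neg K' G) : Neg (K * K') fun x => F x * G x := by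
  have hK := h.nonneg
  obtain ⟨J, _, c, u, hc, hu, hF⟩ := h
  obtain ⟨J', _, c', u', hc', hu', hG⟩ := h'
  refine ⟨J × J', inferInstance, fun p => c p.1 * c' p.2, fun p i x => u p.1 i x * u' p.2 i x, ?_,
    fun p => (hu p.1).mul (hu' p.2), fun x => ?_⟩
  · simp only [Fintype.sum_prod_type, norm_mul, ← sum_mul_sum]
    exact mul_le_mul hc hc' (sum_nonneg fun _ _ => norm_nonneg _) hK
  · simp only [hF, hG, Fintype.sum_prod_type, sum_mul_sum, prod_mul_distrib]
    exact sum_congr rfl fun j _ => sum_congr rfl fun j' _ => by ring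

theorem conj (h : Neg K F) : Neg K fun x => (starRingEnd ℂ) (F x) := by
  obtain ⟨J, i, c, u, hc, hu, hF⟩ := h
  refine ⟨J, i, fun j => (starRingEnd ℂ) (c j), fun j i x => (starRingEnd ℂ) (u j i x), ?_, fun j => (hu j).conj,
    fun x => ?_⟩
  · simpa only [Complex.norm_conj] using hc
  · simp only [hF, map_sum, map_mul, map_prod]

theorem sum {T : Type*} (s : Finset T) {K : T → ℝ} {F : T → (ι → α) → ℂ}
    (h : ∀ t ∈ s, Neg (K t) (F t)) : Neg (∑ t ∈ s, K t) fun x => ∑ t ∈ s, F t x := by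
  classical
  induction s using Finset.induction_on with
  | empty => simpa using zero
  | insert a s ha ih =>
    simp only [sum_insert ha]
    exact (h a (mem_insert_self _ _)).add (ih fun t ht => h t (mem_insert_of_mem ht))

theorem sum_card {T : Type*} (s : Finset T) {F : T → (ι → α) → ℂ}
    (h : ∀ t ∈ s, Neg K (F t)) : Neg (#s * K) fun x => ∑ t ∈ s, F t x := by
  simpa using sum s (K := fun _ => K) h

theorem prod {T : Type*} (s : Finset T) {K : T → ℝ} {F : T → (ι → α) → ℂ}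
    (h : ∀ t ∈ s, Neg (K t) (F t)) : Neg (∏ t ∈ s, K t) fun x => ∏ t ∈ s, F t x := by
  classical
  induction s using Finset.induction_on with
  | empty => simpa using one
  | insert a s ha ih =>
    simp only [prod_insert ha]
    exact (h a (mem_insert_self _ _)).mul (ih fun t ht => h t (mem_insert_of_mem ht))

theorem prod_card {T : Type*} (s : Finset T) {F : T → (ι → α) → ℂ}
    (h : ∀ t ∈ s, Neg K (F t)) : Neg (K ^ #s) fun x => ∏ t ∈ s, F t x := by
  simpa using prod s (K := fun _ => K) h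

theorem pow (h : Neg K F) (n : ℕ) : Neg (K ^ n) fun x => F x ^ n := by
  simpa using prod_card (range n) (F := fun _ => F) fun _ _ => h

/-- averages -/
theorem expect {T : Type*} (s : Finset T) {F : T → (ι → α) → ℂ} (hK : 0 ≤ K)
    (h : ∀ t ∈ s, Neg K (F t)) : Neg K fun x => 𝔼 t ∈ s, F t x := by
  rcases s.eq_empty_or_nonempty with rfl | hs
  · simpa using zero.mono hK
  have hc : (0 : ℝ) < #s := by exact_mod_cast hs.card_pos
  have h1 := (sum_card s h).smul ((#s : ℂ)⁻¹)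
  refine (h1.mono (le_of_eq ?_)).congr fun x => ?_
  · rw [norm_inv, Complex.norm_natCast]; field_simp
  · rw [expect_eq_sum_div_card, div_eq_inv_mul]

/-- coordinatewise maps -/
theorem pull (h : Neg K F) (g : ι → β → α) :
    Neg K fun x : ι → β => F fun k => g k (x k) := by
  obtain ⟨J, i, c, u, hc, hu, hF⟩ := h
  exact ⟨J, i, c, fun j i x => u j i fun k => g k (x k), hc, fun j => (hu j).pull g,
    fun x => hF _⟩

/-- relabelling of the letters -/
theorem equiv {κ : Type} [Fintype κ] [DecidableEq κ] (h : Neg K F) (σ : ι ≃ κ) :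
    Neg K fun x : κ → α => F (x ∘ σ) := by
  obtain ⟨J, i, c, u, hc, hu, hF⟩ := h
  refine ⟨J, i, c, fun j k x => u j (σ.symm k) (x ∘ σ), hc, fun j => (hu j).equiv σ, fun x => ?_⟩
  beta_reduce
  rw [hF]
  exact sum_congr rfl fun j _ => by
    rw [← σ.symm.prod_comp fun i => u j i (x ∘ σ)]

theorem perm (h : Neg K F) (σ : Equiv.Perm ι) : Neg K fun x : ι → α => F (x ∘ σ) := h.equiv σ

/-- translation-free pull-back to `ZMod N` of a function of real letters -/
theorem vl {N : ℕ} {F : (ι → ℝ) → ℂ} (h : Neg K F) : Neg K fun x : ι → ZMod N => F (vl x) :=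
  h.pull fun _ (a : ZMod N) => (a.val : ℝ)

/-- a negligible factor may be replaced by one cylinder product (any averaging space) -/
theorem exists_cy' {Ω : Type*} (s : Finset Ω) (π : Ω → ι → α) (G : Ω → ℂ) {d : ℝ} (h : Neg K F)
    (hd : d ≤ ‖𝔼 ω ∈ s, F (π ω) * G ω‖) :
    ∃ u : ι → (ι → α) → ℂ, Cy u ∧ d ≤ K * ‖𝔼 ω ∈ s, (∏ i, u i (π ω)) * G ω‖ := by
  have hK := h.nonneg
  obtain ⟨J, _, c, u, hc, hu, hF⟩ := h
  have e1 : 𝔼 ω ∈ s, F (π ω) * G ω = ∑ j, c j * 𝔼 ω ∈ s, (∏ i, u j i (π ω)) * G ω := by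
    simp only [hF, sum_mul, mul_expect, mul_assoc]
    rw [expect_sum_comm]
  rcases isEmpty_or_nonempty J with hJ | hJ
  · refine ⟨_, Cy.one, hd.trans ?_⟩
    rw [e1]
    simpa using mul_nonneg hK (norm_nonneg _)
  obtain ⟨j0, -, hj⟩ := exists_max_image univ
    (fun j => ‖𝔼 ω ∈ s, (∏ i, u j i (π ω)) * G ω‖) univ_nonempty
  refine ⟨u j0, hu j0, hd.trans ?_⟩
  rw [e1]
  refine (norm_sum_le _ _).trans ?_
  refine (sum_le_sum (g := fun j => ‖c j‖ * ‖𝔼 ω ∈ s, (∏ i, u j0 i (π ω)) * G ω‖)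
    fun j _ => ?_).trans ?_
  · rw [norm_mul]
    exact mul_le_mul_of_nonneg_left (hj j (mem_univ _)) (norm_nonneg _)
  · rw [← sum_mul]
    exact mul_le_mul_of_nonneg_right hc (norm_nonneg _)

theorem exists_cy [Fintype α] (G : (ι → α) → ℂ) {d : ℝ} (h : Neg K F)
    (hd : d ≤ ‖𝔼 x, F x * G x‖) :
    ∃ u : ι → (ι → α) → ℂ, Cy u ∧ d ≤ K * ‖𝔼 x, (∏ i, u i x) * G x‖ :=
  exists_cy' univ id G h hd

/-- if every cylinder product pairs with `G` to at most `b`, a negligible factor gives `K * b` -/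
theorem pair_le {Ω : Type*} (s : Finset Ω) (π : Ω → ι → α) (G : Ω → ℂ) {b : ℝ} (h : Neg K F)
    (hb : ∀ u : ι → (ι → α) → ℂ, Cy u → ‖𝔼 ω ∈ s, (∏ i, u i (π ω)) * G ω‖ ≤ b) :
    ‖𝔼 ω ∈ s, F (π ω) * G ω‖ ≤ K * b := by
  obtain ⟨u, hu, h1⟩ := exists_cy' s π G h le_rfl
  exact h1.trans (mul_le_mul_of_nonneg_left (hb u hu) h.nonneg)

end Neg

end Crest.Agent.N49.Iv
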