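import Crest.Agent.N49.Iv.St
import Crest.Agent.N49.Fr.Upg

/-!
# Row 49 (helper48): counting tools - pigeonhole on bounded data, quadruples with a common fibre
-/

set_option autoImplicit false
open Finset Function
open scoped BigOperators

namespace Crest.Agent.N49.Iv.Qd

theorem pig {α β : Type*} [DecidableEq β] (A : Finset α) (T : Finset β) (hT : T.Nonempty)
    (f : α → β) (hf : ∀ a ∈ A, f a ∈ T) : ∃ y ∈ T, #A ≤ #T * #{a ∈ A | f a = y} := by
  obtain ⟨y, h, hy⟩ := exists_max_image T (fun y => #{a ∈ A | f a = y}) hT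
  exact ⟨y, h, (card_le_mul_card_image_of_maps_to hf _ hy).trans_eq (mul_comm _ _)⟩

theorem card_box (I : Type*) [Fintype I] [DecidableEq I] (B n : ℕ) (hn : Fintype.card I ≤ n) :
    #(Fintype.piFinset fun _ : I => Icc (-(2 : ℤ) ^ B) (2 ^ B)) ≤ 2 ^ ((B + 2) * n) := by
  rw [Fintype.card_piFinset, prod_const, card_univ, pow_mul]
  refine (Nat.pow_le_pow_left (m := 2 ^ (B + 2)) ?_ _).trans
    (Nat.pow_le_pow_right (by positivity) hn)
  rw [Int.card_Icc, Int.toNat_le]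
  have : (0 : ℤ) < 2 ^ B := by positivity
  push_cast
  rw [pow_add]
  omega

/-- pigeonhole on a bounded integer vector -/
theorem pigZ {α : Type*} (Y : Finset α) (I : Type*) [Fintype I] (f : α → I → ℤ) (B n : ℕ)
    (hn : Fintype.card I ≤ n) (hf : ∀ y ∈ Y, ∀ i, |f y i| ≤ 2 ^ B) :
    ∃ Y' ⊆ Y, #Y ≤ 2 ^ ((B + 2) * n) * #Y' ∧ ∀ y ∈ Y', ∀ y' ∈ Y', f y = f y' := by
  classical
  obtain ⟨v, -, hv⟩ := pig Y (Fintype.piFinset fun _ : I => Icc (-(2 : ℤ) ^ B) (2 ^ B))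
    ⟨0, by simp⟩ f fun y hy => Fintype.mem_piFinset.2 fun i => mem_Icc.2 (abs_le.1 (hf y hy i))
  exact ⟨_, filter_subset _ _, hv.trans (Nat.mul_le_mul_right _ (card_box I B n hn)),
    fun y hy y' hy' => (mem_filter.1 hy).2.trans (mem_filter.1 hy').2.symm⟩

/-- the exponent of `pigB` -/
def pb (M : ℕ) : ℕ := M + (M + 2) * M * M + M

theorem pb_poly : Poly pb :=
  (Poly.id.add (((Poly.id.add (Poly.const 2)).mul Poly.id).mul Poly.id)).add Poly.id

open Classical in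
/-- pigeonhole on bounded lattice data -/
theorem pigB {α κ : Type} [Fintype κ] (X : Finset α) (M : ℕ) (hM : Fintype.card κ ≤ M)
    (W : α → Finset (κ → ℤ)) (q : α → ℕ) (h : ∀ x ∈ X, Bd M (W x) (q x)) :
    ∃ W₀ q₀, Bd M W₀ q₀ ∧ #X ≤ 2 ^ pb M * #{x ∈ X | W x = W₀ ∧ q x = q₀} := by
  set S := Fintype.piFinset fun _ : κ => Icc (-(2 : ℤ) ^ M) (2 ^ M) with hS
  set T := ((range (M + 1)).biUnion fun i => powersetCard i S) ×ˢ Icc 1 (2 ^ M) with hT
  have mem : ∀ W q, (W, q) ∈ T ↔ Bd M W q := fun W q => by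
    simp only [hT, hS, mem_product, mem_biUnion, mem_range, mem_powersetCard, mem_Icc, Bd,
      subset_iff, Fintype.mem_piFinset, abs_le]
    constructor
    · rintro ⟨⟨i, h1, h2, rfl⟩, h3⟩
      exact ⟨by omega, fun k hk => h2 hk, h3⟩
    · rintro ⟨h1, h2, h3⟩
      exact ⟨⟨_, by omega, fun k hk => h2 k hk, rfl⟩, h3⟩
  obtain ⟨⟨W₀, q₀⟩, h0, h1⟩ := pig X T
    ⟨(∅, 1), (mem _ _).2 ⟨by simp, by simp, le_rfl, Nat.one_le_two_pow⟩⟩
    (fun x => (W x, q x)) fun x hx => (mem _ _).2 (h x hx)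
  refine ⟨W₀, q₀, (mem _ _).1 h0, h1.trans (Nat.mul_le_mul ?_ (by simp only [Prod.mk.injEq]; rfl))⟩
  have c1 : #S ≤ 2 ^ ((M + 2) * M) := card_box κ M M hM
  have c2 : #((range (M + 1)).biUnion fun i => powersetCard i S) ≤
      (M + 1) * 2 ^ ((M + 2) * M * M) := by
    refine (card_biUnion_le_card_mul _ _ (2 ^ ((M + 2) * M * M)) fun i hi => ?_).trans (by simp)
    rw [card_powersetCard, pow_mul]
    exact (Nat.choose_le_pow _ _).trans ((Nat.pow_le_pow_left c1 _).trans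
      (Nat.pow_le_pow_right (by positivity) (by simpa [Nat.lt_succ_iff] using hi)))
  rw [hT, card_product, pb, pow_add, pow_add]
  exact Nat.mul_le_mul (c2.trans (Nat.mul_le_mul_right _ Nat.lt_two_pow_self)) (by simp)

/-- popularity -/
theorem pop {α : Type*} (X : Finset α) (f : α → ℕ) (D N K : ℕ) (hN : 0 < N) (hX : #X ≤ D)
    (hf : ∀ x ∈ X, f x ≤ N) (h : D * N ≤ K * ∑ x ∈ X, f x) :
    D ≤ 2 * K * #{x ∈ X | N ≤ 2 * K * f x} := by
  have e : 2 * K * ∑ x ∈ X, f x ≤ 2 * K * #{x ∈ X | N ≤ 2 * K * f x} * N + #X * N := by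
    rw [card_filter, mul_assoc (2 * K), sum_mul, mul_sum, mul_sum, card_eq_sum_ones X, sum_mul,
      ← sum_add_distrib]
    refine sum_le_sum fun x hx => ?_
    split_ifs with h1
    · have := Nat.mul_le_mul_left (2 * K) (hf x hx)
      rw [one_mul]; omega
    · omega
  have := Nat.mul_le_mul_right N hX
  refine Nat.le_of_mul_le_mul_right ?_ hN
  nlinarith

variable {ι : Type} [Fintype ι] [DecidableEq ι] {N : ℕ} [NeZero N]

/-- quadruples with a common second coordinate -/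
theorem quad (j : ι) (B : Finset ((ι → ZMod N) × ZMod N)) (K : ℕ)
    (hB : Fintype.card ((ι → ZMod N) × ZMod N) ≤ K * #B) :
    Fintype.card ((ι → ZMod N) × ZMod N × ZMod N) * N ≤ K ^ 4 *
      #{z : ((ι → ZMod N) × ZMod N × ZMod N) × ZMod N | ∀ i, (qp j z.1 i, z.2) ∈ B} := by
  set Z := Fintype.card ((ι → ZMod N) × ZMod N) with hZ
  set g : (ι → ZMod N) × ZMod N → (ι → ZMod N) × ZMod N := fun z => (update z.1 j 0, z.2) with hg
  set U := univ.image g with hU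
  have h1 := Fr.cs_fib B U g fun x _ => mem_image_of_mem _ (mem_univ _)
  set T := {p ∈ B ×ˢ B | g p.1 = g p.2} with hT
  have h2 := Fr.cs_fib T univ (fun p => (update p.1.1 j (p.1.1 j - p.2.1 j), p.1.2))
    fun x _ => mem_univ _
  have up : ∀ {a b : ι → ZMod N} {u v}, update a j u = update b j v → update a j (b j) = b :=
    fun {a b u v} h => by
      have := congrArg (fun c => update c j (b j)) h
      simpa using this
  have hUN : #U * N ≤ Z := by
    have : #(U ×ˢ (univ : Finset (ZMod N))) ≤ #(univ : Finset ((ι → ZMod N) × ZMod N)) := by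
      refine card_le_card_of_injOn (fun u => (update u.1.1 j u.2, u.1.2)) (fun _ _ => by simp) ?_
      rintro ⟨u, a⟩ hu ⟨v, b⟩ hv e
      obtain ⟨u', -, rfl⟩ := mem_image.1 (mem_product.1 hu).1
      obtain ⟨v', -, rfl⟩ := mem_image.1 (mem_product.1 hv).1
      simp only [hg, update_idem, Prod.mk.injEq] at e ⊢
      have e1 := congrFun e.1 j
      have e2 := congrArg (fun c => update c j 0) e.1
      simp only [update_self, update_idem] at e1 e2
      exact ⟨⟨e2, e.2⟩, e1⟩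
    simpa [hZ] using this
  have h3 : #{p ∈ T ×ˢ T | (update p.1.1.1 j (p.1.1.1 j - p.1.2.1 j), p.1.1.2) =
      (update p.2.1.1 j (p.2.1.1 j - p.2.2.1 j), p.2.1.2)} ≤
      #{z : ((ι → ZMod N) × ZMod N × ZMod N) × ZMod N | ∀ i, (qp j z.1 i, z.2) ∈ B} := by
    have key : ∀ p ∈ {p ∈ T ×ˢ T | (update p.1.1.1 j (p.1.1.1 j - p.1.2.1 j), p.1.1.2) =
        (update p.2.1.1 j (p.2.1.1 j - p.2.2.1 j), p.2.1.2)},
        p.1.2 = (update p.1.1.1 j (p.1.2.1 j), p.1.1.2) ∧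
        p.2.1 = (update p.1.1.1 j (p.2.1.1 j), p.1.1.2) ∧
        p.2.2 = (update p.1.1.1 j (p.1.2.1 j + p.2.1.1 j - p.1.1.1 j), p.1.1.2) := by
      rintro ⟨⟨⟨a, y⟩, ⟨c, y1⟩⟩, ⟨⟨d, y2⟩, ⟨b, y3⟩⟩⟩ hp
      simp only [hT, hg, mem_filter, mem_product, Prod.mk.injEq] at hp ⊢
      obtain ⟨⟨⟨-, e1, rfl⟩, -, e2, rfl⟩, e3, rfl⟩ := hp
      have e4 := congrFun e3 j
      simp only [update_self] at e4
      have e5 : c j + d j - a j = b j := by linear_combination -e4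
      refine ⟨⟨(up e1).symm, rfl⟩, ⟨(up e3).symm, rfl⟩, ?_, rfl⟩
      rw [e5, ← up e2, ← up e3]
      simp
    refine card_le_card_of_injOn (fun p => ((p.1.1.1, p.1.2.1 j, p.2.1.1 j), p.1.1.2))
      (fun p hp => ?_) fun p hp p' hp' e => ?_
    · obtain ⟨k1, k2, k3⟩ := key p hp
      have hp' := mem_product.1 (mem_filter.1 hp).1
      have m1 := mem_product.1 (mem_filter.1 hp'.1).1
      have m2 := mem_product.1 (mem_filter.1 hp'.2).1
      simp only [coe_filter, mem_univ, true_and, Set.mem_setOf_eq]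
      intro i
      fin_cases i
      · exact m1.1
      · exact k3 ▸ m2.2
      · exact k1 ▸ m1.2
      · exact k2 ▸ m2.1
    · obtain ⟨k1, k2, k3⟩ := key p hp
      obtain ⟨l1, l2, l3⟩ := key p' hp'
      simp only [Prod.mk.injEq] at e
      obtain ⟨⟨e1, e2, e3⟩, e4⟩ := e
      refine Prod.ext (Prod.ext (Prod.ext e1 e4) ?_) (Prod.ext ?_ ?_)
      · rw [k1, l1, e1, e2, e4]
      · rw [k2, l2, e1, e3, e4]
      · rw [k3, l3, e1, e2, e3, e4]
  set Q := #{z : ((ι → ZMod N) × ZMod N × ZMod N) × ZMod N | ∀ i, (qp j z.1 i, z.2) ∈ B}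
  have h4 : #T ^ 2 ≤ Z * Q := h2.trans (Nat.mul_le_mul (by simp [hZ]) h3)
  have Z0 : 0 < Z := Fintype.card_pos
  have e : Fintype.card ((ι → ZMod N) × ZMod N × ZMod N) = Z * N := by
    simp only [hZ, Fintype.card_prod, ZMod.card, mul_assoc]
  rw [e]
  refine Nat.le_of_mul_le_mul_left ?_ (pow_pos Z0 3)
  calc Z ^ 3 * (Z * N * N) = Z ^ 4 * N ^ 2 := by ring
    _ ≤ (K * #B) ^ 4 * N ^ 2 := by gcongr
    _ = K ^ 4 * (#B ^ 2) ^ 2 * N ^ 2 := by ring
    _ ≤ K ^ 4 * (#U * #T) ^ 2 * N ^ 2 := by gcongr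
    _ = K ^ 4 * (#U * N) ^ 2 * #T ^ 2 := by ring
    _ ≤ K ^ 4 * Z ^ 2 * (Z * Q) := by gcongr
    _ = Z ^ 3 * (K ^ 4 * Q) := by ring

/-- many quadruples in `P` have a dense common fibre -/
theorem qd (j : ι) (L : ℕ) (P : Finset (ι → ZMod N)) (Y : (ι → ZMod N) → Finset (ZMod N))
    (hP : Dn L P) (hY : ∀ p ∈ P, N ≤ 2 ^ L * #(Y p)) :
    ∃ Q : Finset ((ι → ZMod N) × ZMod N × ZMod N),
      Fintype.card ((ι → ZMod N) × ZMod N × ZMod N) ≤ 2 ^ (8 * L + 1) * #Q ∧ ∀ x ∈ Q,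
        (∀ i, qp j x i ∈ P) ∧ N ≤ 2 ^ (8 * L + 1) * #{y | ∀ i, y ∈ Y (qp j x i)} := by
  have N0 : 0 < N := NeZero.pos N
  set B : Finset ((ι → ZMod N) × ZMod N) := {z | z.1 ∈ P ∧ z.2 ∈ Y z.1} with hB
  have cB : #B = ∑ p ∈ P, #(Y p) := by
    rw [card_eq_sum_card_fiberwise (s := B) (t := P) (f := Prod.fst)
      fun z hz => (mem_filter.1 hz).2.1]
    refine sum_congr rfl fun p hp => ?_
    refine card_nbij' Prod.snd (fun y => (p, y)) (fun z hz => ?_) (fun y hy => ?_)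
      (fun z hz => ?_) fun _ _ => rfl
    · simp only [hB, coe_filter, mem_filter, mem_univ, true_and, Set.mem_setOf_eq] at hz
      exact hz.2 ▸ hz.1.2
    · simpa [hB, hp] using hy
    · simp only [hB, coe_filter, mem_filter, mem_univ, true_and, Set.mem_setOf_eq] at hz
      exact Prod.ext hz.2.symm rfl
  have h1 := quad j B (2 ^ L * 2 ^ L) (by
    rw [Fintype.card_prod, ZMod.card, cB, mul_assoc, mul_sum]
    refine (Nat.mul_le_mul_right N hP).trans ?_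
    rw [mul_assoc]
    exact Nat.mul_le_mul_left _ (by simpa using card_nsmul_le_sum P _ N hY))
  have e : #{z : ((ι → ZMod N) × ZMod N × ZMod N) × ZMod N | ∀ i, (qp j z.1 i, z.2) ∈ B} =
      ∑ x, #{y | ∀ i, (qp j x i, y) ∈ B} := by
    simp only [card_filter]
    rw [Fintype.sum_prod_type]
  rw [e] at h1
  have h2 := pop univ (fun x => #{y | ∀ i, (qp j x i, y) ∈ B}) _ N _ N0 card_univ.le
    (fun x _ => (card_le_univ _).trans (ZMod.card N).le) h1
  have e2 : 2 * (2 ^ L * 2 ^ L) ^ 4 = 2 ^ (8 * L + 1) := by ring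
  rw [e2] at h2
  refine ⟨_, h2, fun x hx => ?_⟩
  have h3 := (mem_filter.1 hx).2
  obtain ⟨y, hy⟩ : ({y | ∀ i, (qp j x i, y) ∈ B} : Finset (ZMod N)).Nonempty :=
    card_pos.1 (Nat.pos_of_mul_pos_left (N0.trans_le h3))
  refine ⟨fun i => (mem_filter.1 ((mem_filter.1 hy).2 i)).2.1,
    h3.trans (Nat.mul_le_mul_left _ (card_le_card fun y hy => ?_))⟩
  exact mem_filter.2 ⟨mem_univ _, fun i => (mem_filter.1 ((mem_filter.1 hy).2 i)).2.2⟩

end Crest.Agent.N49.Iv.Qd
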