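import Crest.Agent.N49.Iv.Defs

/-!
# Row 49 (helper43): the leaves of the inverse theorem as propositions

`S0 … S6` are the steps of the induction `MH ι → MH (Option ι)`; `AFF … STEP` are the
symmetrisation and integration steps.
-/

set_option autoImplicit false
open Finset Function
open scoped BigOperators

namespace Crest.Agent.N49.Iv

/-- state of the induction: base set `P`, fibres `Y`, frequencies `γ` (with `γ o = 1`),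
coefficients `t`, constant terms `β` -/
structure St (ι : Type) (N : ℕ) (Δ : Type) where
  κ : Type
  [fi : Fintype κ]
  [de : DecidableEq κ]
  o : κ
  P : Finset (ι → ZMod N)
  Y : (ι → ZMod N) → Finset (ZMod N)
  β : (ι → ZMod N) → Δ → ℝ
  t : (ι → ZMod N) → Δ → κ → ℝ
  γ : (ι → ZMod N) → κ → ℝ

attribute [instance] St.fi St.de

section st
variable {ι : Type} [Fintype ι] [DecidableEq ι] {N : ℕ} [NeZero N] {Δ : Type}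

/-- the same state on a smaller base set -/
def St.res (s : St ι N Δ) (P' : Finset (ι → ZMod N)) : St ι N Δ := { s with P := P' }

/-- density `2^-L` -/
def Dn (L : ℕ) (P : Finset (ι → ZMod N)) : Prop := Fintype.card (ι → ZMod N) ≤ 2 ^ L * #P

/-- sizes -/
structure St.Good (s : St ι N Δ) (L : ℕ) : Prop where
  dn : Dn L s.P
  fib : ∀ p ∈ s.P, N ≤ 2 ^ L * #(s.Y p)
  card : Fintype.card s.κ ≤ L
  bd : ∀ p ∈ s.P, ∀ r, |s.γ p r| ≤ 2 ^ L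
  rat : ∀ p ∈ s.P, ∀ r, Iz (N * s.γ p r)
  one : ∀ p, s.γ p s.o = 1

/-- the state represents `φ` -/
def St.Rep (s : St ι N Δ) (A : Finset ((ι → ZMod N) × ZMod N))
    (φ : (ι → ZMod N) × ZMod N → Δ → ℝ) : Prop :=
  ∀ p ∈ s.P, ∀ y ∈ s.Y p, (p, y) ∈ A ∧
    ∀ l, Iz (φ (p, y) l - s.β p l - ∑ r, s.t p l r * (round (s.γ p r * (y.val : ℝ)) : ℝ))

/-- Freiman in the base directions -/
def FrP (A : Finset ((ι → ZMod N) × ZMod N)) (φ : (ι → ZMod N) × ZMod N → Δ → ℝ) : Prop :=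
  ∀ j p y a b c d, a + b = c + d → (update p j a, y) ∈ A → (update p j b, y) ∈ A →
    (update p j c, y) ∈ A → (update p j d, y) ∈ A →
      φ (update p j a, y) + φ (update p j b, y) - φ (update p j c, y) - φ (update p j d, y) ∈ ZL Δ

/-- Freiman in the fibre direction -/
def FrY (A : Finset ((ι → ZMod N) × ZMod N)) (φ : (ι → ZMod N) × ZMod N → Δ → ℝ) : Prop :=
  ∀ p a b c d, a + b = c + d → (p, a) ∈ A → (p, b) ∈ A → (p, c) ∈ A → (p, d) ∈ A →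
    φ (p, a) + φ (p, b) - φ (p, c) - φ (p, d) ∈ ZL Δ

/-- along `j`-lines `t` is constant modulo `W, q` and the `W`-frequencies are constant -/
def St.LC (s : St ι N Δ) (L : ℕ) (j : ι) (W : Finset (s.κ → ℤ)) (q : ℕ) : Prop :=
  ∀ p ∈ s.P, ∀ a, update p j a ∈ s.P → s.t p - s.t (update p j a) ∈ Lq Δ W q ∧
    ∀ k ∈ W, |dot k (s.γ p) - dot k (s.γ (update p j a))| ≤ 2 ^ L / N

/-- the `W`-frequencies are trivial -/
def St.Tr (s : St ι N Δ) (L : ℕ) (W : Finset (s.κ → ℤ)) : Prop :=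
  ∀ p ∈ s.P, ∀ k ∈ W, |dot k (s.γ p)| ≤ 2 ^ L / N

/-- the four points of a quadruple `x` in direction `j`: `pt 0 + pt 1 = pt 2 + pt 3` -/
def qp (j : ι) (x : (ι → ZMod N) × ZMod N × ZMod N) : Fin 4 → ι → ZMod N :=
  ![x.1, update x.1 j (x.2.1 + x.2.2 - x.1 j), update x.1 j x.2.1, update x.1 j x.2.2]

/-- final form on pairs -/
def Fn (L : ℕ) (A : Finset ((ι → ZMod N) × ZMod N)) (φ : (ι → ZMod N) × ZMod N → Δ → ℝ)
    (b : Prop) : Prop :=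
  ∃ (P : Finset (ι → ZMod N)) (Y : (ι → ZMod N) → Finset (ZMod N)) (β : (ι → ZMod N) → Δ → ℝ)
    (F : Δ → (Option ι → ℝ) → ℝ), Dn L P ∧ (∀ p ∈ P, N ≤ 2 ^ L * #(Y p)) ∧ (b → β = 0) ∧
    (∀ l, Ty (Fintype.card ι + 1) univ L (F l)) ∧
    ∀ p ∈ P, ∀ y ∈ Y p, (p, y) ∈ A ∧ ∀ l, Iz (φ (p, y) l - β p l - F l (vl2 p y))

end st

section steps
variable (ι : Type) [Fintype ι] [DecidableEq ι]

/-- shape of a step: polynomial loss, uniformly in `N`, `Δ`, `A`, `φ` -/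
def Sh (T : ∀ (N : ℕ) [NeZero N] (Δ : Type), Finset ((ι → ZMod N) × ZMod N) →
    ((ι → ZMod N) × ZMod N → Δ → ℝ) → ℕ → ℕ → Prop) : Prop :=
  ∃ P, Poly P ∧ ∀ (N : ℕ) [NeZero N] (Δ : Type) [Fintype Δ] A φ (L : ℕ),
    Fintype.card Δ ≤ L → T N Δ A φ L (P L)

def S0 : Prop := Sh ι fun N _ Δ A φ L M =>
  Fintype.card ((ι → ZMod N) × ZMod N) ≤ 2 ^ L * #A → FrY A φ →
    ∃ s : St ι N Δ, s.Good M ∧ s.Rep A φ

/-- geometry of numbers on quadruples -/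
def GQ : Prop := Sh ι fun N _ Δ A φ L M => ∀ (s : St ι N Δ) (j : ι),
  s.Good L → s.Rep A φ → FrP A φ →
    ∃ (W : Finset (Option (Fin 4 × s.κ) → ℤ)) (q : ℕ) (Q : Finset ((ι → ZMod N) × ZMod N × ZMod N)),
      Bd M W q ∧ Fintype.card ((ι → ZMod N) × ZMod N × ZMod N) ≤ 2 ^ M * #Q ∧ ∀ x ∈ Q,
        (∀ i, qp j x i ∈ s.P) ∧
        (∀ k ∈ W, |dot k fun o => o.elim 1 fun v => s.γ (qp j x v.1) v.2| ≤ 2 ^ M / N) ∧
        ∀ l, (fun o : Option (Fin 4 × s.κ) => o.elim (0 : ℝ) fun v =>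
          (![1, 1, -1, -1] v.1 : ℝ) * s.t (qp j x v.1) l v.2) ∈ L1 W q

/-- change of frequencies: fixed integer combinations -/
def CF : Prop := Sh ι fun N _ Δ A φ L M => ∀ (s : St ι N Δ) (W : Finset (s.κ → ℤ)) (q : ℕ),
  s.Good L → s.Rep A φ → Bd L W q → (∀ p ∈ s.P, s.t p ∈ Lq Δ W q) →
    ∃ s' : St ι N Δ, s'.Good M ∧ s'.Rep A φ ∧ s'.P = s.P ∧
      ∀ r', r' = s'.o ∨ ∃ k ∈ W, ∀ p, s'.γ p r' = dot k (s.γ p)

def S1 : Prop := Sh ι fun N _ Δ A φ L M => ∀ (s : St ι N Δ) (j : ι) (J : Finset ι),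
  s.Good L → s.Rep A φ → FrP A φ → (∀ i ∈ J, Fr ⊥ i s.P s.γ) →
    ∃ s' : St ι N Δ, s'.Good M ∧ s'.Rep A φ ∧ ∀ i ∈ insert j J, Fr ⊥ i s'.P s'.γ

def S2 : Prop := Sh ι fun N _ Δ A φ L M => ∀ (s : St ι N Δ) (j : ι),
  s.Good L → s.Rep A φ → FrP A φ → Fr ⊥ j s.P s.γ →
    ∃ P' ⊆ s.P, Dn M P' ∧ ∃ W q, Bd M W q ∧ (s.res P').LC M j W q

def S3 : Prop := Sh ι fun N _ Δ A φ L M => ∀ (s : St ι N Δ) (j : ι) (W : Finset (s.κ → ℤ)) (q : ℕ),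
  s.Good L → s.Rep A φ → FrP A φ → Fr ⊥ j s.P s.γ → Bd L W q → s.LC L j W q →
    ∃ P' ⊆ s.P, Dn M P' ∧ ∃ W' q', Bd M W' q' ∧ (s.res P').Tr M W' ∧ Fr (Lq Δ W' q') j P' s.t

/-- explicit forms for the frequencies and the coefficients -/
def Ex {N : ℕ} [NeZero N] {Δ : Type} (s : St ι N Δ) (M : ℕ) (W : Finset (s.κ → ℤ)) (q : ℕ) :
    Prop :=
  ∃ (a : s.κ → (ι → ℝ) → ℝ) (Ξ : Δ → s.κ → (ι → ℝ) → ℝ),
    (∀ r, Ty (Fintype.card ι) univ M (a r)) ∧ (∀ l r, Ty (Fintype.card ι) univ M (Ξ l r)) ∧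
    ∀ p ∈ s.P, (∀ r, s.γ p r = a r (vl p)) ∧ (s.t p - fun l r => Ξ l r (vl p)) ∈ Lq Δ W q

def S4 : Prop := Sh ι fun N _ Δ _ _ L M => ∀ (s : St ι N Δ) (W : Finset (s.κ → ℤ)) (q : ℕ),
  s.Good L → (∀ j, Fr ⊥ j s.P s.γ) → Bd L W q → (∀ j, Fr (Lq Δ W q) j s.P s.t) →
    ∃ P' ⊆ s.P, Dn M P' ∧ ∃ q', Bd M W q' ∧ Ex ι (s.res P') M W q'

def S5 : Prop := Sh ι fun N _ Δ A φ L M => ∀ (s : St ι N Δ) (W : ι → Finset (s.κ → ℤ))
  (q : ι → ℕ) (W' : Finset (s.κ → ℤ)) (q' : ℕ),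
  s.Good L → s.Rep A φ → (∀ j, Bd L (W j) (q j) ∧ s.LC L j (W j) (q j)) → Bd L W' q' →
    s.Tr L W' → Ex ι s L W' q' → Fn M A φ False

def S6 : Prop := Sh ι fun _ _ _ A φ L M => FrP A φ → Fn L A φ False → Fn M A φ True

/-- the pair form of `MH (Option ι)` -/
def MP : Prop := Sh ι fun N _ _ A φ L M =>
  Fintype.card ((ι → ZMod N) × ZMod N) ≤ 2 ^ L * #A → FrP A φ → FrY A φ → Fn M A φ True

/-- a base point with all mixed points in a dense set -/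
def BP : Prop := ∃ P, Poly P ∧ ∀ (α : Type) [Fintype α] [DecidableEq α] (L : ℕ)
  (A : Finset (ι → α)), Nonempty α → Fintype.card (ι → α) ≤ 2 ^ L * #A →
  ∃ (b : ι → α) (A' : Finset (ι → α)), Fintype.card (ι → α) ≤ 2 ^ P L * #A' ∧
    ∀ p ∈ A', ∀ U : Finset ι, U.piecewise p b ∈ A

/-- intersection of rational subspaces -/
def IL : Prop := ∃ P, Poly P ∧ ∀ (κ : Type) [Fintype κ] (L : ℕ) (W : ι → Finset (κ → ℤ))
  (q : ι → ℕ) (T : Finset ι), Fintype.card κ ≤ L → (∀ j, Bd L (W j) (q j)) →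
  ∃ (E : κ → κ → ℤ) (m q' : ℕ), 1 ≤ m ∧ 1 ≤ q' ∧ q' ≤ 2 ^ P L ∧ (∀ c r, |E c r| ≤ 2 ^ P L) ∧
    (∀ c, ∀ j ∈ T, ∃ a : (κ → ℤ) → ℤ, (∀ k, |a k| ≤ 2 ^ P L) ∧ E c = ∑ k ∈ W j, a k • k) ∧
    ∀ v : κ → ℝ, (∀ j ∈ T, v ∈ L1 (W j) (q j)) →
      v - ∑ c, (v c / m) • La.ci (E c) ∈ L1 (∅ : Finset (κ → ℤ)) q'

/-- affine substitutions change a typed form by a negligible phase -/
def AFF : Prop := ∀ (r n M : ℕ) (F : (ι → ℝ) → ℝ) (m : ι → ℕ) (z : ι → ℝ),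
  r < Fintype.card ι → Ty r univ n F → (∀ i, 1 ≤ m i) → ∏ i, m i ≤ M →
  Neg (((M + Fintype.card ι + 3) ^ n : ℕ) : ℝ) fun x : ι → ℝ =>
    e (F (fun i => m i * x i + z i) - (∏ i, m i : ℕ) * F x)

/-- a biased typed phase is negligible -/
def BIAS : Prop := ∀ (r n N : ℕ) [NeZero N] (F : (ι → ℝ) → ℝ) (u : ι → (ι → ZMod N) → ℂ) (b : ℝ),
  2 ≤ Fintype.card ι → r < Fintype.card ι → Ty r univ n F → Cy u → 0 < b →
  b ≤ ‖𝔼 y : ι → ZMod N, (∏ i, u i y) * e (F (vl y))‖ →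
  Neg (2 ^ Fintype.card ι * (Fintype.card ι + 4) ^ n / b) fun h : ι → ZMod N => e (F (vl h))

/-- division -/
def DIV : Prop := ∀ (r n N m : ℕ) [NeZero N] (F : (ι → ℝ) → ℝ) (K : ℝ),
  2 ≤ Fintype.card ι → r < Fintype.card ι → Ty r univ n F → 1 ≤ m → 1 ≤ K →
  Neg K (fun h : ι → ZMod N => e (m * F (vl h))) →
  Neg (2 ^ Fintype.card ι * (Fintype.card ι + 4) ^ n * (m * (m + Fintype.card ι + 3) ^ n * K))
    fun h : ι → ZMod N => e (F (vl h))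

/-- the diagonal of a typed form along `x + ∑ h` -/
def DIAG : Prop := ∃ c : ℕ, ∀ (r n : ℕ) (F : (ι → ℝ) → ℝ), r < Fintype.card ι → Ty r univ n F →
  ∃ (J : Type) (_ : Fintype J) (Q : J → ℝ → ℝ), Fintype.card J ≤ c ^ n ∧
    (∀ j, Dg r (n * n) (Q j)) ∧ ∀ x : ℝ, ∃ w : J → (ι → ℝ) → ℂ, (∀ j, Neg ((c : ℝ) ^ n) (w j)) ∧
      ∀ h : ι → ℝ, e (F (fun _ => x + ∑ i, h i) - ∑ σ : Equiv.Perm ι, F (h ∘ σ)) =
        ∑ j, e (Q j (x + ∑ i, h i)) * w j h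

end steps

/-- the form `Θ(h₁ … h_d) h₀` -/
def top {d : ℕ} (Θ : (Fin d → ℝ) → ℝ) (x : Fin (d + 1) → ℝ) : ℝ := Θ (Fin.tail x) * x 0

/-- correlation of the `(d+1)`-st derivative with the form `top Θ`, which is a character in the
first letter on the set `A` -/
def Co {d N : ℕ} [NeZero N] (f : ZMod N → ℂ) (A : Finset (Fin d → ZMod N))
    (Θ : (Fin d → ℝ) → ℝ) (L : ℕ) : Prop :=
  (∀ p ∈ A, Iz (N * Θ (vl p))) ∧ 1 ≤ 2 ^ L * ‖𝔼 h : Fin (d + 1) → ZMod N, 𝔼 x : ZMod N,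
    Gw.Dv h f x * (if Fin.tail h ∈ A then 1 else 0) * e (-top Θ (vl h))‖

/-- Gowers lemma and `MH` -/
def COR (d : ℕ) : Prop := ∃ P, Poly P ∧ ∀ (N : ℕ) [NeZero N] (L : ℕ) (f : ZMod N → ℂ),
  Gw.B1 f → 1 ≤ 2 ^ L * Gw.U (d + 1) f →
  ∃ A Θ, Ty d univ (P L) Θ ∧ Co (d := d) f A Θ (P L)

/-- one transposition -/
def SWAP (d : ℕ) : Prop := ∀ (N : ℕ) [NeZero N] (L : ℕ) (f : ZMod N → ℂ) (A) (Θ) (i : Fin (d + 1)),
  Gw.B1 f → Co (d := d) f A Θ L → ∃ u : Fin (d + 1) → (Fin (d + 1) → ZMod N) → ℂ, Cy u ∧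
    1 ≤ 2 ^ (2 * L) * ‖𝔼 y : Fin (d + 1) → ZMod N, (∏ k, u k y) *
      e (top Θ (vl y) - top Θ (vl y ∘ Equiv.swap 0 i))‖

/-- symmetry -/
def SYM (d : ℕ) : Prop := ∃ P, Poly P ∧ ∀ (N : ℕ) [NeZero N] (L : ℕ) (f : ZMod N → ℂ) (A) (Θ),
  Gw.B1 f → Ty d univ L Θ → Co (d := d) f A Θ L →
  Neg (2 ^ P L) fun h : Fin (d + 1) → ZMod N => e (top Θ (vl h) -
    ∑ σ : Equiv.Perm (Fin (d + 1)), top Θ (vl h ∘ σ) / (d + 1).factorial)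

/-- integration: one degree down -/
def INT (d : ℕ) : Prop := ∃ P, Poly P ∧ ∀ (N : ℕ) [NeZero N] (L : ℕ) (f : ZMod N → ℂ),
  Gw.B1 f → 1 ≤ 2 ^ L * Gw.U (d + 1) f → ∃ Q : ℝ → ℝ, Dg (d + 1) (P L) Q ∧
    1 ≤ 2 ^ P L * Gw.U d fun x => f x * e (-Q (x.val : ℝ))

end Crest.Agent.N49.Iv
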